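import Vale.Agent.P154.Pois.Forms

/-!
# Three states: certificate hP on its box
-/

noncomputable section

namespace Vale.P154.PS

set_option maxHeartbeats 4000000

/-- Part of the Bernstein form. -/
def bernhP0 (p1 r1 p2 r2 p3 r3 : ℝ) : ℝ :=
    p1 ^ (4 : ℕ) * (p2 ^ (3 : ℕ) * r2 * (p3 ^ (4 : ℕ) * (153600) + p3 ^ (3 : ℕ) * r3 * (614400) + p3 ^ (2 : ℕ) * r3 ^ (2 : ℕ) *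
    (921600) + p3 * r3 ^ (3 : ℕ) * (614400) + r3 ^ (4 : ℕ) * (153600)) + p2 ^ (2 : ℕ) * r2 ^ (2 : ℕ) * (p3 ^ (4 : ℕ) *
    (460800) + p3 ^ (3 : ℕ) * r3 * (1843200) + p3 ^ (2 : ℕ) * r3 ^ (2 : ℕ) * (2764800) + p3 * r3 ^ (3 : ℕ) * (1843200) +
    r3 ^ (4 : ℕ) * (460800)) + p2 * r2 ^ (3 : ℕ) * (p3 ^ (4 : ℕ) * (460800) + p3 ^ (3 : ℕ) * r3 * (1843200) + p3 ^ (2 : ℕ) *
    r3 ^ (2 : ℕ) * (2764800) + p3 * r3 ^ (3 : ℕ) * (1843200) + r3 ^ (4 : ℕ) * (460800)) + r2 ^ (4 : ℕ) * (p3 ^ (4 : ℕ) *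
    (153600) + p3 ^ (3 : ℕ) * r3 * (614400) + p3 ^ (2 : ℕ) * r3 ^ (2 : ℕ) * (921600) + p3 * r3 ^ (3 : ℕ) * (614400) + r3
    ^ (4 : ℕ) * (153600))) + p1 ^ (3 : ℕ) * r1 * (p2 ^ (4 : ℕ) * (p3 ^ (4 : ℕ) * (25600) + p3 ^ (3 : ℕ) * r3 * (102400) + p3 ^
    (2 : ℕ) * r3 ^ (2 : ℕ) * (153600) + p3 * r3 ^ (3 : ℕ) * (102400) + r3 ^ (4 : ℕ) * (25600)) + p2 ^ (3 : ℕ) * r2 * (p3 ^ (4 : ℕ) *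
    (716800) + p3 ^ (3 : ℕ) * r3 * (2867200) + p3 ^ (2 : ℕ) * r3 ^ (2 : ℕ) * (4300800) + p3 * r3 ^ (3 : ℕ) * (2867200) +
    r3 ^ (4 : ℕ) * (716800)) + p2 ^ (2 : ℕ) * r2 ^ (2 : ℕ) * (p3 ^ (4 : ℕ) * (1996800) + p3 ^ (3 : ℕ) * r3 * (7987200) + p3 ^
    (2 : ℕ) * r3 ^ (2 : ℕ) * (11980800) + p3 * r3 ^ (3 : ℕ) * (7987200) + r3 ^ (4 : ℕ) * (1996800)) + p2 * r2 ^ (3 : ℕ) * (p3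
    ^ (4 : ℕ) * (1945600) + p3 ^ (3 : ℕ) * r3 * (7782400) + p3 ^ (2 : ℕ) * r3 ^ (2 : ℕ) * (11673600) + p3 * r3 ^ (3 : ℕ) *
    (7782400) + r3 ^ (4 : ℕ) * (1945600)) + r2 ^ (4 : ℕ) * (p3 ^ (4 : ℕ) * (640000) + p3 ^ (3 : ℕ) * r3 * (2560000) + p3
    ^ (2 : ℕ) * r3 ^ (2 : ℕ) * (3840000) + p3 * r3 ^ (3 : ℕ) * (2560000) + r3 ^ (4 : ℕ) * (640000))) + p1 ^ (2 : ℕ) * r1 ^ (2 : ℕ) *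
    (p2 ^ (4 : ℕ) * (p3 ^ (4 : ℕ) * (76800) + p3 ^ (3 : ℕ) * r3 * (307200) + p3 ^ (2 : ℕ) * r3 ^ (2 : ℕ) * (460800) + p3 * r3
    ^ (3 : ℕ) * (307200) + r3 ^ (4 : ℕ) * (76800)) + p2 ^ (3 : ℕ) * r2 * (p3 ^ (4 : ℕ) * (1228800) + p3 ^ (3 : ℕ) * r3 *
    (4915200) + p3 ^ (2 : ℕ) * r3 ^ (2 : ℕ) * (7372800) + p3 * r3 ^ (3 : ℕ) * (4915200) + r3 ^ (4 : ℕ) * (1228800)) + p2
    ^ (2 : ℕ) * r2 ^ (2 : ℕ) * (p3 ^ (4 : ℕ) * (3225600) + p3 ^ (3 : ℕ) * r3 * (12902400) + p3 ^ (2 : ℕ) * r3 ^ (2 : ℕ) * (19353600)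
    + p3 * r3 ^ (3 : ℕ) * (12902400) + r3 ^ (4 : ℕ) * (3225600)) + p2 * r2 ^ (3 : ℕ) * (p3 ^ (4 : ℕ) * (3072000) + p3 ^
    (3 : ℕ) * r3 * (12288000) + p3 ^ (2 : ℕ) * r3 ^ (2 : ℕ) * (18432000) + p3 * r3 ^ (3 : ℕ) * (12288000) + r3 ^ (4 : ℕ) *
    (3072000)) + r2 ^ (4 : ℕ) * (p3 ^ (4 : ℕ) * (998400) + p3 ^ (3 : ℕ) * r3 * (3993600) + p3 ^ (2 : ℕ) * r3 ^ (2 : ℕ) *
    (5990400) + p3 * r3 ^ (3 : ℕ) * (3993600) + r3 ^ (4 : ℕ) * (998400))) + p1 * r1 ^ (3 : ℕ) * (p2 ^ (4 : ℕ) * (p3 ^ (4 : ℕ)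
    * (76800) + p3 ^ (3 : ℕ) * r3 * (307200) + p3 ^ (2 : ℕ) * r3 ^ (2 : ℕ) * (460800) + p3 * r3 ^ (3 : ℕ) * (307200) +
    r3 ^ (4 : ℕ) * (76800)) + p2 ^ (3 : ℕ) * r2 * (p3 ^ (4 : ℕ) * (921600) + p3 ^ (3 : ℕ) * r3 * (3686400) + p3 ^ (2 : ℕ) * r3
    ^ (2 : ℕ) * (5529600) + p3 * r3 ^ (3 : ℕ) * (3686400) + r3 ^ (4 : ℕ) * (921600)) + p2 ^ (2 : ℕ) * r2 ^ (2 : ℕ) * (p3 ^ (4 : ℕ) *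
    (2304000) + p3 ^ (3 : ℕ) * r3 * (9216000) + p3 ^ (2 : ℕ) * r3 ^ (2 : ℕ) * (13824000) + p3 * r3 ^ (3 : ℕ) * (9216000)
    + r3 ^ (4 : ℕ) * (2304000)) + p2 * r2 ^ (3 : ℕ) * (p3 ^ (4 : ℕ) * (2150400) + p3 ^ (3 : ℕ) * r3 * (8601600) + p3 ^ (2 : ℕ)
    * r3 ^ (2 : ℕ) * (12902400) + p3 * r3 ^ (3 : ℕ) * (8601600) + r3 ^ (4 : ℕ) * (2150400)) + r2 ^ (4 : ℕ) * (p3 ^ (4 : ℕ) *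
    (691200) + p3 ^ (3 : ℕ) * r3 * (2764800) + p3 ^ (2 : ℕ) * r3 ^ (2 : ℕ) * (4147200) + p3 * r3 ^ (3 : ℕ) * (2764800) +
    r3 ^ (4 : ℕ) * (691200))) + r1 ^ (4 : ℕ) * (p2 ^ (4 : ℕ) * (p3 ^ (4 : ℕ) * (25600) + p3 ^ (3 : ℕ) * r3 * (102400) + p3 ^ (2 : ℕ)
    * r3 ^ (2 : ℕ) * (153600) + p3 * r3 ^ (3 : ℕ) * (102400) + r3 ^ (4 : ℕ) * (25600)) + p2 ^ (3 : ℕ) * r2 * (p3 ^ (4 : ℕ) *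
    (256000) + p3 ^ (3 : ℕ) * r3 * (1024000) + p3 ^ (2 : ℕ) * r3 ^ (2 : ℕ) * (1536000) + p3 * r3 ^ (3 : ℕ) * (1024000) +
    r3 ^ (4 : ℕ) * (256000)) + p2 ^ (2 : ℕ) * r2 ^ (2 : ℕ) * (p3 ^ (4 : ℕ) * (614400) + p3 ^ (3 : ℕ) * r3 * (2457600) + p3 ^ (2 : ℕ)
    * r3 ^ (2 : ℕ) * (3686400) + p3 * r3 ^ (3 : ℕ) * (2457600) + r3 ^ (4 : ℕ) * (614400)) + p2 * r2 ^ (3 : ℕ) * (p3 ^ (4 : ℕ)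
    * (563200) + p3 ^ (3 : ℕ) * r3 * (2252800) + p3 ^ (2 : ℕ) * r3 ^ (2 : ℕ) * (3379200) + p3 * r3 ^ (3 : ℕ) * (2252800)
    + r3 ^ (4 : ℕ) * (563200)) + r2 ^ (4 : ℕ) * (p3 ^ (4 : ℕ) * (179200) + p3 ^ (3 : ℕ) * r3 * (716800) + p3 ^ (2 : ℕ) * r3 ^
    (2 : ℕ) * (1075200) + p3 * r3 ^ (3 : ℕ) * (716800) + r3 ^ (4 : ℕ) * (179200)))

theorem bernhP0_nonneg {p1 r1 p2 r2 p3 r3 : ℝ} (h2 : 0 ≤ p1) (h3 : 0 ≤ r1) (h4 : 0 ≤ p2)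
    (h5 : 0 ≤ r2) (h6 : 0 ≤ p3) (h7 : 0 ≤ r3) : 0 ≤ bernhP0 p1 r1 p2 r2 p3 r3 := by
  unfold bernhP0
  positivity

/-- Part of the Bernstein form. -/
def bernhP1 (p1 r1 p2 r2 p3 r3 : ℝ) : ℝ :=
    p1 ^ (4 : ℕ) * (p2 ^ (4 : ℕ) * (p3 ^ (4 : ℕ) * (20224) + p3 ^ (3 : ℕ) * r3 * (80896) + p3 ^ (2 : ℕ) * r3 ^ (2 : ℕ) * (121344) +
    p3 * r3 ^ (3 : ℕ) * (80896) + r3 ^ (4 : ℕ) * (20224)) + p2 ^ (3 : ℕ) * r2 * (p3 ^ (4 : ℕ) * (605696) + p3 ^ (3 : ℕ) * r3 *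
    (2453504) + p3 ^ (2 : ℕ) * r3 ^ (2 : ℕ) * (3726336) + p3 * r3 ^ (3 : ℕ) * (2514944) + r3 ^ (4 : ℕ) * (636416)) + p2
    ^ (2 : ℕ) * r2 ^ (2 : ℕ) * (p3 ^ (4 : ℕ) * (1649024) + p3 ^ (3 : ℕ) * r3 * (6777536) + p3 ^ (2 : ℕ) * r3 ^ (2 : ℕ) * (10400064)
    + p3 * r3 ^ (3 : ℕ) * (7063616) + r3 ^ (4 : ℕ) * (1792064)) + p2 * r2 ^ (3 : ℕ) * (p3 ^ (4 : ℕ) * (1561856) + p3 ^ (3 : ℕ)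
    * r3 * (6518144) + p3 ^ (2 : ℕ) * r3 ^ (2 : ℕ) * (10106496) + p3 * r3 ^ (3 : ℕ) * (6905984) + r3 ^ (4 : ℕ) *
    (1755776)) + r2 ^ (4 : ℕ) * (p3 ^ (4 : ℕ) * (498304) + p3 ^ (3 : ℕ) * r3 * (2113216) + p3 ^ (2 : ℕ) * r3 ^ (2 : ℕ) *
    (3311424) + p3 * r3 ^ (3 : ℕ) * (2276416) + r3 ^ (4 : ℕ) * (579904))) + p1 ^ (3 : ℕ) * r1 * (p2 ^ (4 : ℕ) * (p3 ^ (4 : ℕ)
    * (313856) + p3 ^ (3 : ℕ) * r3 * (1255424) + p3 ^ (2 : ℕ) * r3 ^ (2 : ℕ) * (1883136) + p3 * r3 ^ (3 : ℕ) * (1255424)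
    + r3 ^ (4 : ℕ) * (313856)) + p2 ^ (3 : ℕ) * r2 * (p3 ^ (4 : ℕ) * (3319744) + p3 ^ (3 : ℕ) * r3 * (13438336) + p3 ^ (2 : ℕ)
    * r3 ^ (2 : ℕ) * (20396544) + p3 * r3 ^ (3 : ℕ) * (13757056) + r3 ^ (4 : ℕ) * (3479104)) + p2 ^ (2 : ℕ) * r2 ^ (2 : ℕ) *
    (p3 ^ (4 : ℕ) * (7889216) + p3 ^ (3 : ℕ) * r3 * (32392064) + p3 ^ (2 : ℕ) * r3 ^ (2 : ℕ) * (49687296) + p3 * r3 ^ (3 : ℕ)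
    * (33755264) + r3 ^ (4 : ℕ) * (8570816)) + p2 * r2 ^ (3 : ℕ) * (p3 ^ (4 : ℕ) * (7074624) + p3 ^ (3 : ℕ) * r3 *
    (29490816) + p3 ^ (2 : ℕ) * r3 ^ (2 : ℕ) * (45717504) + p3 * r3 ^ (3 : ℕ) * (31261056) + r3 ^ (4 : ℕ) * (7959744)) +
    r2 ^ (4 : ℕ) * (p3 ^ (4 : ℕ) * (2191296) + p3 ^ (3 : ℕ) * r3 * (9281664) + p3 ^ (2 : ℕ) * r3 ^ (2 : ℕ) * (14543616) + p3 *
    r3 ^ (3 : ℕ) * (10007424) + r3 ^ (4 : ℕ) * (2554176))) + p1 ^ (2 : ℕ) * r1 ^ (2 : ℕ) * (p2 ^ (4 : ℕ) * (p3 ^ (4 : ℕ) * (768704)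
    + p3 ^ (3 : ℕ) * r3 * (3074816) + p3 ^ (2 : ℕ) * r3 ^ (2 : ℕ) * (4612224) + p3 * r3 ^ (3 : ℕ) * (3074816) + r3 ^ (4 : ℕ) *
    (768704)) + p2 ^ (3 : ℕ) * r2 * (p3 ^ (4 : ℕ) * (6118976) + p3 ^ (3 : ℕ) * r3 * (24769664) + p3 ^ (2 : ℕ) * r3 ^ (2 : ℕ) *
    (37595136) + p3 * r3 ^ (3 : ℕ) * (25357184) + r3 ^ (4 : ℕ) * (6412736)) + p2 ^ (2 : ℕ) * r2 ^ (2 : ℕ) * (p3 ^ (4 : ℕ) *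
    (13464384) + p3 ^ (3 : ℕ) * r3 * (55274496) + p3 ^ (2 : ℕ) * r3 ^ (2 : ℕ) * (84806784) + p3 * r3 ^ (3 : ℕ) *
    (57647616) + r3 ^ (4 : ℕ) * (14650944)) + p2 * r2 ^ (3 : ℕ) * (p3 ^ (4 : ℕ) * (11646656) + p3 ^ (3 : ℕ) * r3 *
    (48539264) + p3 ^ (2 : ℕ) * r3 ^ (2 : ℕ) * (75277056) + p3 * r3 ^ (3 : ℕ) * (51522944) + r3 ^ (4 : ℕ) * (13138496))
    + r2 ^ (4 : ℕ) * (p3 ^ (4 : ℕ) * (3532544) + p3 ^ (3 : ℕ) * r3 * (14959616) + p3 ^ (2 : ℕ) * r3 ^ (2 : ℕ) * (23453184) +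
    p3 * r3 ^ (3 : ℕ) * (16157696) + r3 ^ (4 : ℕ) * (4131584))) + p1 * r1 ^ (3 : ℕ) * (p2 ^ (4 : ℕ) * (p3 ^ (4 : ℕ) * (676736)
    + p3 ^ (3 : ℕ) * r3 * (2706944) + p3 ^ (2 : ℕ) * r3 ^ (2 : ℕ) * (4060416) + p3 * r3 ^ (3 : ℕ) * (2706944) + r3 ^ (4 : ℕ) *
    (676736)) + p2 ^ (3 : ℕ) * r2 * (p3 ^ (4 : ℕ) * (4701504) + p3 ^ (3 : ℕ) * r3 * (19038336) + p3 ^ (2 : ℕ) * r3 ^ (2 : ℕ) *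
    (28905984) + p3 * r3 ^ (3 : ℕ) * (19502976) + r3 ^ (4 : ℕ) * (4933824)) + p2 ^ (2 : ℕ) * r2 ^ (2 : ℕ) * (p3 ^ (4 : ℕ) *
    (9857216) + p3 ^ (3 : ℕ) * r3 * (40482944) + p3 ^ (2 : ℕ) * r3 ^ (2 : ℕ) * (62151936) + p3 * r3 ^ (3 : ℕ) *
    (42283904) + r3 ^ (4 : ℕ) * (10757696)) + p2 * r2 ^ (3 : ℕ) * (p3 ^ (4 : ℕ) * (8316864) + p3 ^ (3 : ℕ) * r3 *
    (34678656) + p3 ^ (2 : ℕ) * r3 ^ (2 : ℕ) * (53827584) + p3 * r3 ^ (3 : ℕ) * (36886656) + r3 ^ (4 : ℕ) * (9420864)) +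
    r2 ^ (4 : ℕ) * (p3 ^ (4 : ℕ) * (2484416) + p3 ^ (3 : ℕ) * r3 * (10527104) + p3 ^ (2 : ℕ) * r3 ^ (2 : ℕ) * (16521216) + p3
    * r3 ^ (3 : ℕ) * (11398784) + r3 ^ (4 : ℕ) * (2920256))) + r1 ^ (4 : ℕ) * (p2 ^ (4 : ℕ) * (p3 ^ (4 : ℕ) * (201664) + p3 ^
    (3 : ℕ) * r3 * (806656) + p3 ^ (2 : ℕ) * r3 ^ (2 : ℕ) * (1209984) + p3 * r3 ^ (3 : ℕ) * (806656) + r3 ^ (4 : ℕ) *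
    (201664)) + p2 ^ (3 : ℕ) * r2 * (p3 ^ (4 : ℕ) * (1296576) + p3 ^ (3 : ℕ) * r3 * (5253504) + p3 ^ (2 : ℕ) * r3 ^ (2 : ℕ) *
    (7981056) + p3 * r3 ^ (3 : ℕ) * (5387904) + r3 ^ (4 : ℕ) * (1363776)) + p2 ^ (2 : ℕ) * r2 ^ (2 : ℕ) * (p3 ^ (4 : ℕ) *
    (2633024) + p3 ^ (3 : ℕ) * r3 * (10822976) + p3 ^ (2 : ℕ) * r3 ^ (2 : ℕ) * (16632384) + p3 * r3 ^ (3 : ℕ) *
    (11327936) + r3 ^ (4 : ℕ) * (2885504)) + p2 * r2 ^ (3 : ℕ) * (p3 ^ (4 : ℕ) * (2182976) + p3 ^ (3 : ℕ) * r3 *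
    (9112064) + p3 ^ (2 : ℕ) * r3 ^ (2 : ℕ) * (14161536) + p3 * r3 ^ (3 : ℕ) * (9718784) + r3 ^ (4 : ℕ) * (2486336)) +
    r2 ^ (4 : ℕ) * (p3 ^ (4 : ℕ) * (644864) + p3 ^ (3 : ℕ) * r3 * (2735936) + p3 ^ (2 : ℕ) * r3 ^ (2 : ℕ) * (4300224) + p3 *
    r3 ^ (3 : ℕ) * (2972096) + r3 ^ (4 : ℕ) * (762944)))

theorem bernhP1_nonneg {p1 r1 p2 r2 p3 r3 : ℝ} (h2 : 0 ≤ p1) (h3 : 0 ≤ r1) (h4 : 0 ≤ p2)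
    (h5 : 0 ≤ r2) (h6 : 0 ≤ p3) (h7 : 0 ≤ r3) : 0 ≤ bernhP1 p1 r1 p2 r2 p3 r3 := by
  unfold bernhP1
  positivity

/-- Part of the Bernstein form. -/
def bernhP2 (p1 r1 p2 r2 p3 r3 : ℝ) : ℝ :=
    p1 ^ (4 : ℕ) * (p2 ^ (4 : ℕ) * (p3 ^ (4 : ℕ) * (56448) + p3 ^ (3 : ℕ) * r3 * (225792) + p3 ^ (2 : ℕ) * r3 ^ (2 : ℕ) * (338688) +
    p3 * r3 ^ (3 : ℕ) * (225792) + r3 ^ (4 : ℕ) * (56448)) + p2 ^ (3 : ℕ) * r2 * (p3 ^ (4 : ℕ) * (849120) + p3 ^ (3 : ℕ) * r3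
    * (3525312) + p3 ^ (2 : ℕ) * r3 ^ (2 : ℕ) * (5481216) + p3 * r3 ^ (3 : ℕ) * (3782976) + r3 ^ (4 : ℕ) * (977952)) +
    p2 ^ (2 : ℕ) * r2 ^ (2 : ℕ) * (p3 ^ (4 : ℕ) * (2081700) + p3 ^ (3 : ℕ) * r3 * (8964864) + p3 ^ (2 : ℕ) * r3 ^ (2 : ℕ) *
    (14287512) + p3 * r3 ^ (3 : ℕ) * (10007232) + r3 ^ (4 : ℕ) * (2602884)) + p2 * r2 ^ (3 : ℕ) * (p3 ^ (4 : ℕ) *
    (1843877) + p3 ^ (3 : ℕ) * r3 * (8262245) + p3 ^ (2 : ℕ) * r3 ^ (2 : ℕ) * (13491693) + p3 * r3 ^ (3 : ℕ) * (9572107)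
    + r3 ^ (4 : ℕ) * (2498782)) + r2 ^ (4 : ℕ) * (p3 ^ (4 : ℕ) * (554849) + p3 ^ (3 : ℕ) * r3 * (2596901) + p3 ^ (2 : ℕ) * r3
    ^ (2 : ℕ) * (4346709) + p3 * r3 ^ (3 : ℕ) * (3122059) + r3 ^ (4 : ℕ) * (817402))) + p1 ^ (3 : ℕ) * r1 * (p2 ^ (4 : ℕ) *
    (p3 ^ (4 : ℕ) * (725824) + p3 ^ (3 : ℕ) * r3 * (2903296) + p3 ^ (2 : ℕ) * r3 ^ (2 : ℕ) * (4354944) + p3 * r3 ^ (3 : ℕ) *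
    (2903296) + r3 ^ (4 : ℕ) * (725824)) + p2 ^ (3 : ℕ) * r2 * (p3 ^ (4 : ℕ) * (5319744) + p3 ^ (3 : ℕ) * r3 *
    (21908928) + p3 ^ (2 : ℕ) * r3 ^ (2 : ℕ) * (33808320) + p3 * r3 ^ (3 : ℕ) * (23168832) + r3 ^ (4 : ℕ) * (5949696)) +
    p2 ^ (2 : ℕ) * r2 ^ (2 : ℕ) * (p3 ^ (4 : ℕ) * (11087389) + p3 ^ (3 : ℕ) * r3 * (47251288) + p3 ^ (2 : ℕ) * r3 ^ (2 : ℕ) *
    (74760318) + p3 * r3 ^ (3 : ℕ) * (52116328) + r3 ^ (4 : ℕ) * (13519909)) + p2 * r2 ^ (3 : ℕ) * (p3 ^ (4 : ℕ) *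
    (9127022) + p3 ^ (3 : ℕ) * r3 * (40410116) + p3 ^ (2 : ℕ) * r3 ^ (2 : ℕ) * (65537712) + p3 * r3 ^ (3 : ℕ) *
    (46352956) + r3 ^ (4 : ℕ) * (12098338)) + r2 ^ (4 : ℕ) * (p3 ^ (4 : ℕ) * (2633553) + p3 ^ (3 : ℕ) * r3 * (12164460)
    + p3 ^ (2 : ℕ) * r3 ^ (2 : ℕ) * (20230770) + p3 * r3 ^ (3 : ℕ) * (14502164) + r3 ^ (4 : ℕ) * (3802301))) + p1 ^ (2 : ℕ) *
    r1 ^ (2 : ℕ) * (p2 ^ (4 : ℕ) * (p3 ^ (4 : ℕ) * (1669664) + p3 ^ (3 : ℕ) * r3 * (6678656) + p3 ^ (2 : ℕ) * r3 ^ (2 : ℕ) *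
    (10017984) + p3 * r3 ^ (3 : ℕ) * (6678656) + r3 ^ (4 : ℕ) * (1669664)) + p2 ^ (3 : ℕ) * r2 * (p3 ^ (4 : ℕ) *
    (10191140) + p3 ^ (3 : ℕ) * r3 * (41879144) + p3 ^ (2 : ℕ) * r3 ^ (2 : ℕ) * (64490592) + p3 * r3 ^ (3 : ℕ) *
    (44108312) + r3 ^ (4 : ℕ) * (11305724)) + p2 ^ (2 : ℕ) * r2 ^ (2 : ℕ) * (p3 ^ (4 : ℕ) * (19766571) + p3 ^ (3 : ℕ) * r3 *
    (83936256) + p3 ^ (2 : ℕ) * r3 ^ (2 : ℕ) * (132502986) + p3 * r3 ^ (3 : ℕ) * (92263488) + r3 ^ (4 : ℕ) * (23930187))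
    + p2 * r2 ^ (3 : ℕ) * (p3 ^ (4 : ℕ) * (15650648) + p3 ^ (3 : ℕ) * r3 * (68981414) + p3 ^ (2 : ℕ) * r3 ^ (2 : ℕ) *
    (111639522) + p3 * r3 ^ (3 : ℕ) * (78937082) + r3 ^ (4 : ℕ) * (20628326)) + r2 ^ (4 : ℕ) * (p3 ^ (4 : ℕ) * (4405553)
    + p3 ^ (3 : ℕ) * r3 * (20245646) + p3 ^ (2 : ℕ) * r3 ^ (2 : ℕ) * (33609144) + p3 * r3 ^ (3 : ℕ) * (24103250) + r3 ^
    (4 : ℕ) * (6334199))) + p1 * r1 ^ (3 : ℕ) * (p2 ^ (4 : ℕ) * (p3 ^ (4 : ℕ) * (1390712) + p3 ^ (3 : ℕ) * r3 * (5562848) + p3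
    ^ (2 : ℕ) * r3 ^ (2 : ℕ) * (8344272) + p3 * r3 ^ (3 : ℕ) * (5562848) + r3 ^ (4 : ℕ) * (1390712)) + p2 ^ (3 : ℕ) * r2 * (p3
    ^ (4 : ℕ) * (7831784) + p3 ^ (3 : ℕ) * r3 * (32181776) + p3 ^ (2 : ℕ) * r3 ^ (2 : ℕ) * (49554624) + p3 * r3 ^ (3 : ℕ) *
    (33891056) + r3 ^ (4 : ℕ) * (8686424)) + p2 ^ (2 : ℕ) * r2 ^ (2 : ℕ) * (p3 ^ (4 : ℕ) * (14616159) + p3 ^ (3 : ℕ) * r3 *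
    (62051640) + p3 ^ (2 : ℕ) * r3 ^ (2 : ℕ) * (97985370) + p3 * r3 ^ (3 : ℕ) * (68280456) + r3 ^ (4 : ℕ) * (17730567))
    + p2 * r2 ^ (3 : ℕ) * (p3 ^ (4 : ℕ) * (11307994) + p3 ^ (3 : ℕ) * r3 * (49830484) + p3 ^ (2 : ℕ) * r3 ^ (2 : ℕ) *
    (80706216) + p3 * r3 ^ (3 : ℕ) * (57152748) + r3 ^ (4 : ℕ) * (14969022)) + r2 ^ (4 : ℕ) * (p3 ^ (4 : ℕ) * (3132907)
    + p3 ^ (3 : ℕ) * r3 * (14397772) + p3 ^ (2 : ℕ) * r3 ^ (2 : ℕ) * (23931198) + p3 * r3 ^ (3 : ℕ) * (17200500) + r3 ^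
    (4 : ℕ) * (4534167))) + r1 ^ (4 : ℕ) * (p2 ^ (4 : ℕ) * (p3 ^ (4 : ℕ) * (390424) + p3 ^ (3 : ℕ) * r3 * (1561696) + p3 ^ (2 : ℕ) *
    r3 ^ (2 : ℕ) * (2342544) + p3 * r3 ^ (3 : ℕ) * (1561696) + r3 ^ (4 : ℕ) * (390424)) + p2 ^ (3 : ℕ) * r2 * (p3 ^ (4 : ℕ) *
    (2111268) + p3 ^ (3 : ℕ) * r3 * (8686248) + p3 ^ (2 : ℕ) * r3 ^ (2 : ℕ) * (13391136) + p3 * r3 ^ (3 : ℕ) * (9168600)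
    + r3 ^ (4 : ℕ) * (2352444)) + p2 ^ (2 : ℕ) * r2 ^ (2 : ℕ) * (p3 ^ (4 : ℕ) * (3855277) + p3 ^ (3 : ℕ) * r3 * (16401808) +
    p3 ^ (2 : ℕ) * r3 ^ (2 : ℕ) * (25955190) + p3 * r3 ^ (3 : ℕ) * (18126064) + r3 ^ (4 : ℕ) * (4717405)) + p2 * r2 ^ (3 : ℕ)
    * (p3 ^ (4 : ℕ) * (2940491) + p3 ^ (3 : ℕ) * r3 * (12996941) + p3 ^ (2 : ℕ) * r3 ^ (2 : ℕ) * (21112713) + p3 * r3 ^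
    (3 : ℕ) * (14996515) + r3 ^ (4 : ℕ) * (3940252)) + r2 ^ (4 : ℕ) * (p3 ^ (4 : ℕ) * (806058) + p3 ^ (3 : ℕ) * r3 * (3719685)
    + p3 ^ (2 : ℕ) * r3 ^ (2 : ℕ) * (6206115) + p3 * r3 ^ (3 : ℕ) * (4477355) + r3 ^ (4 : ℕ) * (1184867)))

theorem bernhP2_nonneg {p1 r1 p2 r2 p3 r3 : ℝ} (h2 : 0 ≤ p1) (h3 : 0 ≤ r1) (h4 : 0 ≤ p2)
    (h5 : 0 ≤ r2) (h6 : 0 ≤ p3) (h7 : 0 ≤ r3) : 0 ≤ bernhP2 p1 r1 p2 r2 p3 r3 := by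
  unfold bernhP2
  positivity

/-- Part of the Bernstein form. -/
def bernhP3 (p1 r1 p2 r2 p3 r3 : ℝ) : ℝ :=
    p1 ^ (4 : ℕ) * (p2 ^ (4 : ℕ) * (p3 ^ (4 : ℕ) * ((231808 / 5)) + p3 ^ (3 : ℕ) * r3 * ((927232 / 5)) + p3 ^ (2 : ℕ) * r3 ^ (2 : ℕ)
    * ((1390848 / 5)) + p3 * r3 ^ (3 : ℕ) * ((927232 / 5)) + r3 ^ (4 : ℕ) * ((231808 / 5))) + p2 ^ (3 : ℕ) * r2 *
    (p3 ^ (4 : ℕ) * ((2374632 / 5)) + p3 ^ (3 : ℕ) * r3 * ((10339344 / 5)) + p3 ^ (2 : ℕ) * r3 ^ (2 : ℕ) * (3354048) +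
    p3 * r3 ^ (3 : ℕ) * ((12020976 / 5)) + r3 ^ (4 : ℕ) * ((3215448 / 5))) + p2 ^ (2 : ℕ) * r2 ^ (2 : ℕ) * (p3 ^ (4 : ℕ) *
    ((5160576 / 5)) + p3 ^ (3 : ℕ) * r3 * (4867788) + p3 ^ (2 : ℕ) * r3 ^ (2 : ℕ) * (8291112) + p3 * r3 ^ (3 : ℕ) *
    ((30536604 / 5)) + r3 ^ (4 : ℕ) * ((8259408 / 5))) + p2 * r2 ^ (3 : ℕ) * (p3 ^ (4 : ℕ) * ((33156417 / 40)) +
    p3 ^ (3 : ℕ) * r3 * ((85683501 / 20)) + p3 ^ (2 : ℕ) * r3 ^ (2 : ℕ) * ((76440561 / 10)) + p3 * r3 ^ (3 : ℕ) *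
    ((115024259 / 20)) + r3 ^ (4 : ℕ) * ((62496859 / 40))) + r2 ^ (4 : ℕ) * (p3 ^ (4 : ℕ) * ((4505919 / 20)) + p3
    ^ (3 : ℕ) * r3 * ((207790473 / 160)) + p3 ^ (2 : ℕ) * r3 ^ (2 : ℕ) * ((388597227 / 160)) + p3 * r3 ^ (3 : ℕ) *
    ((298014111 / 160)) + r3 ^ (4 : ℕ) * ((81158757 / 160)))) + p1 ^ (3 : ℕ) * r1 * (p2 ^ (4 : ℕ) * (p3 ^ (4 : ℕ) *
    ((2936176 / 5)) + p3 ^ (3 : ℕ) * r3 * ((11744704 / 5)) + p3 ^ (2 : ℕ) * r3 ^ (2 : ℕ) * ((17617056 / 5)) + p3 *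
    r3 ^ (3 : ℕ) * ((11744704 / 5)) + r3 ^ (4 : ℕ) * ((2936176 / 5))) + p2 ^ (3 : ℕ) * r2 * (p3 ^ (4 : ℕ) * ((17292452 /
    5)) + p3 ^ (3 : ℕ) * r3 * ((73142192 / 5)) + p3 ^ (2 : ℕ) * r3 ^ (2 : ℕ) * ((115671864 / 5)) + p3 * r3 ^ (3 : ℕ) *
    (16217392) + r3 ^ (4 : ℕ) * ((21264836 / 5))) + p2 ^ (2 : ℕ) * r2 ^ (2 : ℕ) * (p3 ^ (4 : ℕ) * ((12752857 / 2)) + p3
    ^ (3 : ℕ) * r3 * ((144195016 / 5)) + p3 ^ (2 : ℕ) * r3 ^ (2 : ℕ) * ((238883751 / 5)) + p3 * r3 ^ (3 : ℕ) *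
    ((172711024 / 5)) + r3 ^ (4 : ℕ) * ((92280293 / 10))) + p2 * r2 ^ (3 : ℕ) * (p3 ^ (4 : ℕ) * ((758794567 /
    160)) + p3 ^ (3 : ℕ) * r3 * ((371685751 / 16)) + p3 ^ (2 : ℕ) * r3 ^ (2 : ℕ) * ((1611578871 / 40)) + p3 * r3 ^
    (3 : ℕ) * ((477722633 / 16)) + r3 ^ (4 : ℕ) * ((1288973789 / 160))) + r2 ^ (4 : ℕ) * (p3 ^ (4 : ℕ) * ((197925831 /
    160)) + p3 ^ (3 : ℕ) * r3 * ((533630229 / 80)) + p3 ^ (2 : ℕ) * r3 ^ (2 : ℕ) * ((242466477 / 20)) + p3 * r3 ^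
    (3 : ℕ) * ((146939199 / 16)) + r3 ^ (4 : ℕ) * ((398989809 / 160)))) + p1 ^ (2 : ℕ) * r1 ^ (2 : ℕ) * (p2 ^ (4 : ℕ) * (p3 ^
    (4 : ℕ) * ((6490132 / 5)) + p3 ^ (3 : ℕ) * r3 * ((25960528 / 5)) + p3 ^ (2 : ℕ) * r3 ^ (2 : ℕ) * ((38940792 / 5)) +
    p3 * r3 ^ (3 : ℕ) * ((25960528 / 5)) + r3 ^ (4 : ℕ) * ((6490132 / 5))) + p2 ^ (3 : ℕ) * r2 * (p3 ^ (4 : ℕ) *
    ((33948488 / 5)) + p3 ^ (3 : ℕ) * r3 * (28528492) + p3 ^ (2 : ℕ) * r3 ^ (2 : ℕ) * ((224236452 / 5)) + p3 * r3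
    ^ (3 : ℕ) * ((156339476 / 5)) + r3 ^ (4 : ℕ) * ((40796996 / 5))) + p2 ^ (2 : ℕ) * r2 ^ (2 : ℕ) * (p3 ^ (4 : ℕ) *
    ((947276231 / 80)) + p3 ^ (3 : ℕ) * r3 * ((105827015 / 2)) + p3 ^ (2 : ℕ) * r3 ^ (2 : ℕ) * ((3478681701 / 40))
    + p3 * r3 ^ (3 : ℕ) * ((625573741 / 10)) + r3 ^ (4 : ℕ) * ((266606179 / 16))) + p2 * r2 ^ (3 : ℕ) * (p3 ^ (4 : ℕ) *
    ((1364681593 / 160)) + p3 ^ (3 : ℕ) * r3 * ((3285852593 / 80)) + p3 ^ (2 : ℕ) * r3 ^ (2 : ℕ) * ((2824535847 /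
    40)) + p3 * r3 ^ (3 : ℕ) * ((833988163 / 16)) + r3 ^ (4 : ℕ) * ((449752367 / 32))) + r2 ^ (4 : ℕ) * (p3 ^ (4 : ℕ) *
    ((348735011 / 160)) + p3 ^ (3 : ℕ) * r3 * ((229906447 / 20)) + p3 ^ (2 : ℕ) * r3 ^ (2 : ℕ) * ((1656395733 /
    80)) + p3 * r3 ^ (3 : ℕ) * ((312847183 / 20)) + r3 ^ (4 : ℕ) * ((136099015 / 32)))) + p1 * r1 ^ (3 : ℕ) * (p2
    ^ (4 : ℕ) * (p3 ^ (4 : ℕ) * ((15406564 / 15)) + p3 ^ (3 : ℕ) * r3 * ((61626256 / 15)) + p3 ^ (2 : ℕ) * r3 ^ (2 : ℕ) *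
    ((30813128 / 5)) + p3 * r3 ^ (3 : ℕ) * ((61626256 / 15)) + r3 ^ (4 : ℕ) * ((15406564 / 15))) + p2 ^ (3 : ℕ) *
    r2 * (p3 ^ (4 : ℕ) * ((51329427 / 10)) + p3 ^ (3 : ℕ) * r3 * ((107802723 / 5)) + p3 ^ (2 : ℕ) * r3 ^ (2 : ℕ) *
    ((169419888 / 5)) + p3 * r3 ^ (3 : ℕ) * ((118090461 / 5)) + r3 ^ (4 : ℕ) * ((12323433 / 2))) + p2 ^ (2 : ℕ) *
    r2 ^ (2 : ℕ) * (p3 ^ (4 : ℕ) * ((69801251 / 8)) + p3 ^ (3 : ℕ) * r3 * ((194789516 / 5)) + p3 ^ (2 : ℕ) * r3 ^ (2 : ℕ) *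
    ((1280681361 / 20)) + p3 * r3 ^ (3 : ℕ) * (46095052) + r3 ^ (4 : ℕ) * ((491749231 / 40))) + p2 * r2 ^ (3 : ℕ)
    * (p3 ^ (4 : ℕ) * ((592916875 / 96)) + p3 ^ (3 : ℕ) * r3 * ((7130447323 / 240)) + p3 ^ (2 : ℕ) * r3 ^ (2 : ℕ) *
    ((2044506361 / 40)) + p3 * r3 ^ (3 : ℕ) * ((9071886757 / 240)) + r3 ^ (4 : ℕ) * ((4906007453 / 480))) +
    r2 ^ (4 : ℕ) * (p3 ^ (4 : ℕ) * ((249062913 / 160)) + p3 ^ (3 : ℕ) * r3 * ((656315643 / 80)) + p3 ^ (2 : ℕ) * r3 ^ (2 : ℕ)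
    * ((295991673 / 20)) + p3 * r3 ^ (3 : ℕ) * ((897115221 / 80)) + r3 ^ (4 : ℕ) * ((489860439 / 160)))) +
    r1 ^ (4 : ℕ) * (p2 ^ (4 : ℕ) * (p3 ^ (4 : ℕ) * ((16178287 / 60)) + p3 ^ (3 : ℕ) * r3 * ((16178287 / 15)) + p3 ^ (2 : ℕ) *
    r3 ^ (2 : ℕ) * ((16178287 / 10)) + p3 * r3 ^ (3 : ℕ) * ((16178287 / 15)) + r3 ^ (4 : ℕ) * ((16178287 / 60))) +
    p2 ^ (3 : ℕ) * r2 * (p3 ^ (4 : ℕ) * ((13255557 / 10)) + p3 ^ (3 : ℕ) * r3 * ((27938043 / 5)) + p3 ^ (2 : ℕ) * r3 ^ (2 : ℕ)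
    * ((44047458 / 5)) + p3 * r3 ^ (3 : ℕ) * ((30791901 / 5)) + r3 ^ (4 : ℕ) * ((3221883 / 2))) + p2 ^ (2 : ℕ) *
    r2 ^ (2 : ℕ) * (p3 ^ (4 : ℕ) * ((35626187 / 16)) + p3 ^ (3 : ℕ) * r3 * ((20016181 / 2)) + p3 ^ (2 : ℕ) * r3 ^ (2 : ℕ) *
    ((132331065 / 8)) + p3 * r3 ^ (3 : ℕ) * ((23930083 / 2)) + r3 ^ (4 : ℕ) * ((51281795 / 16))) + p2 * r2 ^
    (3 : ℕ) * (p3 ^ (4 : ℕ) * ((748444661 / 480)) + p3 ^ (3 : ℕ) * r3 * ((1818770533 / 240)) + p3 ^ (2 : ℕ) * r3 ^ (2 : ℕ) *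
    ((105097265 / 8)) + p3 * r3 ^ (3 : ℕ) * ((469281887 / 48)) + r3 ^ (4 : ℕ) * ((255215875 / 96))) + r2 ^ (4 : ℕ)
    * (p3 ^ (4 : ℕ) * ((12431249 / 32)) + p3 ^ (3 : ℕ) * r3 * ((332649151 / 160)) + p3 ^ (2 : ℕ) * r3 ^ (2 : ℕ) *
    ((605975691 / 160)) + p3 * r3 ^ (3 : ℕ) * ((462630313 / 160)) + r3 ^ (4 : ℕ) * ((3178657 / 4))))

theorem bernhP3_nonneg {p1 r1 p2 r2 p3 r3 : ℝ} (h2 : 0 ≤ p1) (h3 : 0 ≤ r1) (h4 : 0 ≤ p2)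
    (h5 : 0 ≤ r2) (h6 : 0 ≤ p3) (h7 : 0 ≤ r3) : 0 ≤ bernhP3 p1 r1 p2 r2 p3 r3 := by
  unfold bernhP3
  positivity

/-- Part of the Bernstein form. -/
def bernhP4 (p1 r1 p2 r2 p3 r3 : ℝ) : ℝ :=
    p1 ^ (4 : ℕ) * (p2 ^ (4 : ℕ) * (p3 ^ (4 : ℕ) * ((24039523631 / 4608000)) + p3 ^ (3 : ℕ) * r3 * ((24039523631 /
    1152000)) + p3 ^ (2 : ℕ) * r3 ^ (2 : ℕ) * ((24039523631 / 768000)) + p3 * r3 ^ (3 : ℕ) * ((24039523631 /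
    1152000)) + r3 ^ (4 : ℕ) * ((24039523631 / 4608000))) + p2 ^ (3 : ℕ) * r2 * (p3 ^ (4 : ℕ) * ((67069027631 /
    1152000)) + p3 ^ (3 : ℕ) * r3 * ((87243773231 / 288000)) + p3 ^ (2 : ℕ) * r3 ^ (2 : ℕ) * ((107418518831 /
    192000)) + p3 * r3 ^ (3 : ℕ) * ((127593264431 / 288000)) + r3 ^ (4 : ℕ) * ((147768010031 / 1152000))) +
    p2 ^ (2 : ℕ) * r2 ^ (2 : ℕ) * (p3 ^ (4 : ℕ) * ((83800368431 / 768000)) + p3 ^ (3 : ℕ) * r3 * ((138079382831 /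
    192000)) + p3 ^ (2 : ℕ) * r3 ^ (2 : ℕ) * ((187100054831 / 128000)) + p3 * r3 ^ (3 : ℕ) * ((230862384431 /
    192000)) + r3 ^ (4 : ℕ) * ((269366371631 / 768000))) + p2 * r2 ^ (3 : ℕ) * (p3 ^ (4 : ℕ) * ((76500480431 /
    1152000)) + p3 ^ (3 : ℕ) * r3 * ((178025189231 / 288000)) + p3 ^ (2 : ℕ) * r3 ^ (2 : ℕ) * ((264184810031 /
    192000)) + p3 * r3 ^ (3 : ℕ) * ((334989768431 / 288000)) + r3 ^ (4 : ℕ) * ((390450490031 / 1152000))) +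
    r2 ^ (4 : ℕ) * (p3 ^ (4 : ℕ) * ((47141040431 / 4608000)) + p3 ^ (3 : ℕ) * r3 * ((208422948431 / 1152000)) + p3
    ^ (2 : ℕ) * r3 ^ (2 : ℕ) * ((339704472431 / 768000)) + p3 * r3 ^ (3 : ℕ) * ((441057526031 / 1152000)) + r3 ^ (4 : ℕ)
    * ((512518080431 / 4608000)))) + p1 ^ (3 : ℕ) * r1 * (p2 ^ (4 : ℕ) * (p3 ^ (4 : ℕ) * ((149742077231 /
    1152000)) + p3 ^ (3 : ℕ) * r3 * ((149742077231 / 288000)) + p3 ^ (2 : ℕ) * r3 ^ (2 : ℕ) * ((149742077231 /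
    192000)) + p3 * r3 ^ (3 : ℕ) * ((149742077231 / 288000)) + r3 ^ (4 : ℕ) * ((149742077231 / 1152000))) +
    p2 ^ (3 : ℕ) * r2 * (p3 ^ (4 : ℕ) * ((190932298031 / 288000)) + p3 ^ (3 : ℕ) * r3 * ((214252003631 / 72000)) +
    p3 ^ (2 : ℕ) * r3 ^ (2 : ℕ) * ((237571709231 / 48000)) + p3 * r3 ^ (3 : ℕ) * ((260891414831 / 72000)) + r3 ^ (4 : ℕ)
    * ((284211120431 / 288000))) + p2 ^ (2 : ℕ) * r2 ^ (2 : ℕ) * (p3 ^ (4 : ℕ) * ((204164918831 / 192000)) + p3 ^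
    (3 : ℕ) * r3 * ((264969264431 / 48000)) + p3 ^ (2 : ℕ) * r3 ^ (2 : ℕ) * ((320459165231 / 32000)) + p3 * r3 ^ (3 : ℕ)
    * ((370634621231 / 48000)) + r3 ^ (4 : ℕ) * ((415495632431 / 192000))) + p2 * r2 ^ (3 : ℕ) * (p3 ^ (4 : ℕ) *
    ((191732259431 / 288000)) + p3 ^ (3 : ℕ) * r3 * ((303388942331 / 72000)) + p3 ^ (2 : ℕ) * r3 ^ (2 : ℕ) *
    ((399517324031 / 48000)) + p3 * r3 ^ (3 : ℕ) * ((480127711331 / 72000)) + r3 ^ (4 : ℕ) * ((545230411031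
    / 288000))) + r2 ^ (4 : ℕ) * (p3 ^ (4 : ℕ) * ((155631382031 / 1152000)) + p3 ^ (3 : ℕ) * r3 * ((330869039231 /
    288000)) + p3 ^ (2 : ℕ) * r3 ^ (2 : ℕ) * ((475790074031 / 192000)) + p3 * r3 ^ (3 : ℕ) * ((590465924831 /
    288000)) + r3 ^ (4 : ℕ) * ((674932087631 / 1152000)))) + p1 ^ (2 : ℕ) * r1 ^ (2 : ℕ) * (p2 ^ (4 : ℕ) * (p3 ^ (4 : ℕ) *
    ((223290058031 / 768000)) + p3 ^ (3 : ℕ) * r3 * ((223290058031 / 192000)) + p3 ^ (2 : ℕ) * r3 ^ (2 : ℕ) *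
    ((223290058031 / 128000)) + p3 * r3 ^ (3 : ℕ) * ((223290058031 / 192000)) + r3 ^ (4 : ℕ) *
    ((223290058031 / 768000))) + p2 ^ (3 : ℕ) * r2 * (p3 ^ (4 : ℕ) * ((263162314031 / 192000)) + p3 ^ (3 : ℕ) * r3
    * ((289508438831 / 48000)) + p3 ^ (2 : ℕ) * r3 ^ (2 : ℕ) * ((315854563631 / 32000)) + p3 * r3 ^ (3 : ℕ) *
    ((342200688431 / 48000)) + r3 ^ (4 : ℕ) * ((368546813231 / 192000))) + p2 ^ (2 : ℕ) * r2 ^ (2 : ℕ) * (p3 ^ (4 : ℕ) *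
    ((273410696431 / 128000)) + p3 ^ (3 : ℕ) * r3 * ((340504582831 / 32000)) + p3 ^ (2 : ℕ) * r3 ^ (2 : ℕ) *
    ((1206679782093 / 64000)) + p3 * r3 ^ (3 : ℕ) * ((458576730031 / 32000)) + r3 ^ (4 : ℕ) * ((509554990831
    / 128000))) + p2 * r2 ^ (3 : ℕ) * (p3 ^ (4 : ℕ) * ((256352910431 / 192000)) + p3 ^ (3 : ℕ) * r3 *
    ((377789818631 / 48000)) + p3 ^ (2 : ℕ) * r3 ^ (2 : ℕ) * ((483531228431 / 32000)) + p3 * r3 ^ (3 : ℕ) *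
    ((573587327831 / 48000)) + r3 ^ (4 : ℕ) * ((647968304831 / 192000))) + r2 ^ (4 : ℕ) * (p3 ^ (4 : ℕ) *
    ((214011403631 / 768000)) + p3 ^ (3 : ℕ) * r3 * ((402738394031 / 192000)) + p3 ^ (2 : ℕ) * r3 ^ (2 : ℕ) *
    ((560824555631 / 128000)) + p3 * r3 ^ (3 : ℕ) * ((688340851631 / 192000)) + r3 ^ (4 : ℕ) *
    ((785322302831 / 768000)))) + p1 * r1 ^ (3 : ℕ) * (p2 ^ (4 : ℕ) * (p3 ^ (4 : ℕ) * ((249575626031 / 1152000)) +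
    p3 ^ (3 : ℕ) * r3 * ((249575626031 / 288000)) + p3 ^ (2 : ℕ) * r3 ^ (2 : ℕ) * ((249575626031 / 192000)) + p3 *
    r3 ^ (3 : ℕ) * ((249575626031 / 288000)) + r3 ^ (4 : ℕ) * ((249575626031 / 1152000))) + p2 ^ (3 : ℕ) * r2 *
    (p3 ^ (4 : ℕ) * ((288671520431 / 288000)) + p3 ^ (3 : ℕ) * r3 * ((317936194031 / 72000)) + p3 ^ (2 : ℕ) * r3 ^
    (2 : ℕ) * ((347200867631 / 48000)) + p3 * r3 ^ (3 : ℕ) * ((376465541231 / 72000)) + r3 ^ (4 : ℕ) *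
    ((405730214831 / 288000))) + p2 ^ (2 : ℕ) * r2 ^ (2 : ℕ) * (p3 ^ (4 : ℕ) * ((296470430831 / 192000)) + p3 ^ (3 : ℕ)
    * r3 * ((369639408431 / 48000)) + p3 ^ (2 : ℕ) * r3 ^ (2 : ℕ) * ((437377752431 / 32000)) + p3 * r3 ^ (3 : ℕ) *
    ((499685462831 / 48000)) + r3 ^ (4 : ℕ) * ((556562539631 / 192000))) + p2 * r2 ^ (3 : ℕ) * (p3 ^ (4 : ℕ) *
    ((275315447831 / 288000)) + p3 ^ (3 : ℕ) * r3 * ((406212843731 / 72000)) + p3 ^ (2 : ℕ) * r3 ^ (2 : ℕ) *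
    ((521243560031 / 48000)) + p3 * r3 ^ (3 : ℕ) * ((620417665931 / 72000)) + r3 ^ (4 : ℕ) * ((703745230631
    / 288000))) + r2 ^ (4 : ℕ) * (p3 ^ (4 : ℕ) * ((227254404431 / 1152000)) + p3 ^ (3 : ℕ) * r3 * ((429046993631 /
    288000)) + p3 ^ (2 : ℕ) * r3 ^ (2 : ℕ) * ((599866579631 / 192000)) + p3 * r3 ^ (3 : ℕ) * ((739783650431 /
    288000)) + r3 ^ (4 : ℕ) * ((848832751631 / 1152000)))) + r1 ^ (4 : ℕ) * (p2 ^ (4 : ℕ) * (p3 ^ (4 : ℕ) *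
    ((232047024431 / 4608000)) + p3 ^ (3 : ℕ) * r3 * ((232047024431 / 1152000)) + p3 ^ (2 : ℕ) * r3 ^ (2 : ℕ) *
    ((232047024431 / 768000)) + p3 * r3 ^ (3 : ℕ) * ((232047024431 / 1152000)) + r3 ^ (4 : ℕ) *
    ((232047024431 / 4608000))) + p2 ^ (3 : ℕ) * r2 * (p3 ^ (4 : ℕ) * ((270928445231 / 1152000)) + p3 ^ (3 : ℕ) *
    r3 * ((303014467631 / 288000)) + p3 ^ (2 : ℕ) * r3 ^ (2 : ℕ) * ((335100490031 / 192000)) + p3 * r3 ^ (3 : ℕ) *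
    ((367186512431 / 288000)) + r3 ^ (4 : ℕ) * ((399272534831 / 1152000))) + p2 ^ (2 : ℕ) * r2 ^ (2 : ℕ) * (p3 ^ (4 : ℕ)
    * ((276832934831 / 768000)) + p3 ^ (3 : ℕ) * r3 * ((355883894831 / 192000)) + p3 ^ (2 : ℕ) * r3 ^ (2 : ℕ) *
    ((429444134831 / 128000)) + p3 * r3 ^ (3 : ℕ) * ((497513654831 / 192000)) + r3 ^ (4 : ℕ) *
    ((560092454831 / 768000))) + p2 * r2 ^ (3 : ℕ) * (p3 ^ (4 : ℕ) * ((252128969231 / 1152000)) + p3 ^ (3 : ℕ) *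
    r3 * ((392199126431 / 288000)) + p3 ^ (2 : ℕ) * r3 ^ (2 : ℕ) * ((516227438831 / 192000)) + p3 * r3 ^ (3 : ℕ) *
    ((624223856831 / 288000)) + r3 ^ (4 : ℕ) * ((716198330831 / 1152000))) + r2 ^ (4 : ℕ) * (p3 ^ (4 : ℕ) *
    ((198889766831 / 4608000)) + p3 ^ (3 : ℕ) * r3 * ((413366902031 / 1152000)) + p3 ^ (2 : ℕ) * r3 ^ (2 : ℕ) *
    ((596530891631 / 768000)) + p3 * r3 ^ (3 : ℕ) * ((748451748431 / 1152000)) + r3 ^ (4 : ℕ) *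
    ((869163542831 / 4608000))))

theorem bernhP4_nonneg {p1 r1 p2 r2 p3 r3 : ℝ} (h2 : 0 ≤ p1) (h3 : 0 ≤ r1) (h4 : 0 ≤ p2)
    (h5 : 0 ≤ r2) (h6 : 0 ≤ p3) (h7 : 0 ≤ r3) : 0 ≤ bernhP4 p1 r1 p2 r2 p3 r3 := by
  unfold bernhP4
  positivity

/-- Bernstein form of the certificate. -/
def bernhP (p0 r0 p1 r1 p2 r2 p3 r3 : ℝ) : ℝ :=
    p0 ^ (4 : ℕ) * bernhP0 p1 r1 p2 r2 p3 r3 + p0 ^ (3 : ℕ) * r0 * bernhP1 p1 r1 p2 r2 p3 r3 + p0 ^ (2 : ℕ) * r0 ^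
    (2 : ℕ) * bernhP2 p1 r1 p2 r2 p3 r3 + p0 * r0 ^ (3 : ℕ) * bernhP3 p1 r1 p2 r2 p3 r3 + r0 ^ (4 : ℕ) * bernhP4
    p1 r1 p2 r2 p3 r3

theorem bernhP_nonneg {p0 r0 p1 r1 p2 r2 p3 r3 : ℝ} (h0 : 0 ≤ p0) (h1 : 0 ≤ r0) (h2 : 0 ≤ p1)
    (h3 : 0 ≤ r1) (h4 : 0 ≤ p2) (h5 : 0 ≤ r2) (h6 : 0 ≤ p3) (h7 : 0 ≤ r3) :
    0 ≤ bernhP p0 r0 p1 r1 p2 r2 p3 r3 := by
  have e0 := bernhP0_nonneg h2 h3 h4 h5 h6 h7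
  have e1 := bernhP1_nonneg h2 h3 h4 h5 h6 h7
  have e2 := bernhP2_nonneg h2 h3 h4 h5 h6 h7
  have e3 := bernhP3_nonneg h2 h3 h4 h5 h6 h7
  have e4 := bernhP4_nonneg h2 h3 h4 h5 h6 h7
  unfold bernhP
  positivity

theorem casehP {u a o g : ℝ} (u0 : 0 ≤ u) (u1 : u ≤ 1 / 10) (a0 : 0 ≤ a) (a1 : a ≤ (1 / 2))
    (o0 : 0 ≤ o) (o1 : o ≤ 1 / 2) (g0 : -(1 / 2) ≤ g) (g1 : g ≤ 1 / 2) :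
    qX u a o g + 1 / 25 * qW u a o g + 3 / 50 * qH u a o g + 1 / 1000 * u - 3 / 25 * o - 1 / 50 * a ≤ 0 := by
  have h := bernhP_nonneg (p0 := ((1 / 10) - u)) (r0 := (u - 0)) (p1 := ((1 / 2) - a)) (r1 := (a - 0))
    (p2 := ((1 / 2) - o)) (r2 := (o - 0)) (p3 := ((1 / 2) - g)) (r3 := (g - (-1 / 2)))
    (by linarith) (by linarith) (by linarith) (by linarith) (by linarith) (by linarith)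
    (by linarith) (by linarith)
  refine neg_nonneg.1 (h.trans_eq ?_)
  unfold bernhP bernhP0 bernhP1 bernhP2 bernhP3 bernhP4 qX qW qH
  ring

end Vale.P154.PS
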