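import Vale.Agent.P154.Pois.Forms

/-!
# Three states: certificate hN on its box
-/

noncomputable section

namespace Vale.P154.PS

set_option maxHeartbeats 4000000

/-- Part of the Bernstein form. -/
def bernhN0 (p1 r1 p2 r2 p3 r3 : ℝ) : ℝ :=
    p1 ^ (4 : ℕ) * (p2 ^ (4 : ℕ) * (p3 ^ (4 : ℕ) * (230400) + p3 ^ (3 : ℕ) * r3 * (921600) + p3 ^ (2 : ℕ) * r3 ^ (2 : ℕ) * (1382400)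
    + p3 * r3 ^ (3 : ℕ) * (921600) + r3 ^ (4 : ℕ) * (230400)) + p2 ^ (3 : ℕ) * r2 * (p3 ^ (4 : ℕ) * (1075200) + p3 ^ (3 : ℕ) *
    r3 * (4300800) + p3 ^ (2 : ℕ) * r3 ^ (2 : ℕ) * (6451200) + p3 * r3 ^ (3 : ℕ) * (4300800) + r3 ^ (4 : ℕ) * (1075200))
    + p2 ^ (2 : ℕ) * r2 ^ (2 : ℕ) * (p3 ^ (4 : ℕ) * (1843200) + p3 ^ (3 : ℕ) * r3 * (7372800) + p3 ^ (2 : ℕ) * r3 ^ (2 : ℕ) *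
    (11059200) + p3 * r3 ^ (3 : ℕ) * (7372800) + r3 ^ (4 : ℕ) * (1843200)) + p2 * r2 ^ (3 : ℕ) * (p3 ^ (4 : ℕ) *
    (1382400) + p3 ^ (3 : ℕ) * r3 * (5529600) + p3 ^ (2 : ℕ) * r3 ^ (2 : ℕ) * (8294400) + p3 * r3 ^ (3 : ℕ) * (5529600)
    + r3 ^ (4 : ℕ) * (1382400)) + r2 ^ (4 : ℕ) * (p3 ^ (4 : ℕ) * (384000) + p3 ^ (3 : ℕ) * r3 * (1536000) + p3 ^ (2 : ℕ) * r3
    ^ (2 : ℕ) * (2304000) + p3 * r3 ^ (3 : ℕ) * (1536000) + r3 ^ (4 : ℕ) * (384000))) + p1 ^ (3 : ℕ) * r1 * (p2 ^ (4 : ℕ) *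
    (p3 ^ (4 : ℕ) * (691200) + p3 ^ (3 : ℕ) * r3 * (2764800) + p3 ^ (2 : ℕ) * r3 ^ (2 : ℕ) * (4147200) + p3 * r3 ^ (3 : ℕ) *
    (2764800) + r3 ^ (4 : ℕ) * (691200)) + p2 ^ (3 : ℕ) * r2 * (p3 ^ (4 : ℕ) * (3379200) + p3 ^ (3 : ℕ) * r3 *
    (13516800) + p3 ^ (2 : ℕ) * r3 ^ (2 : ℕ) * (20275200) + p3 * r3 ^ (3 : ℕ) * (13516800) + r3 ^ (4 : ℕ) * (3379200)) +
    p2 ^ (2 : ℕ) * r2 ^ (2 : ℕ) * (p3 ^ (4 : ℕ) * (5990400) + p3 ^ (3 : ℕ) * r3 * (23961600) + p3 ^ (2 : ℕ) * r3 ^ (2 : ℕ) *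
    (35942400) + p3 * r3 ^ (3 : ℕ) * (23961600) + r3 ^ (4 : ℕ) * (5990400)) + p2 * r2 ^ (3 : ℕ) * (p3 ^ (4 : ℕ) *
    (4608000) + p3 ^ (3 : ℕ) * r3 * (18432000) + p3 ^ (2 : ℕ) * r3 ^ (2 : ℕ) * (27648000) + p3 * r3 ^ (3 : ℕ) *
    (18432000) + r3 ^ (4 : ℕ) * (4608000)) + r2 ^ (4 : ℕ) * (p3 ^ (4 : ℕ) * (1305600) + p3 ^ (3 : ℕ) * r3 * (5222400) +
    p3 ^ (2 : ℕ) * r3 ^ (2 : ℕ) * (7833600) + p3 * r3 ^ (3 : ℕ) * (5222400) + r3 ^ (4 : ℕ) * (1305600))) + p1 ^ (2 : ℕ) * r1 ^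
    (2 : ℕ) * (p2 ^ (4 : ℕ) * (p3 ^ (4 : ℕ) * (691200) + p3 ^ (3 : ℕ) * r3 * (2764800) + p3 ^ (2 : ℕ) * r3 ^ (2 : ℕ) * (4147200) +
    p3 * r3 ^ (3 : ℕ) * (2764800) + r3 ^ (4 : ℕ) * (691200)) + p2 ^ (3 : ℕ) * r2 * (p3 ^ (4 : ℕ) * (3686400) + p3 ^ (3 : ℕ) *
    r3 * (14745600) + p3 ^ (2 : ℕ) * r3 ^ (2 : ℕ) * (22118400) + p3 * r3 ^ (3 : ℕ) * (14745600) + r3 ^ (4 : ℕ) *
    (3686400)) + p2 ^ (2 : ℕ) * r2 ^ (2 : ℕ) * (p3 ^ (4 : ℕ) * (6912000) + p3 ^ (3 : ℕ) * r3 * (27648000) + p3 ^ (2 : ℕ) * r3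
    ^ (2 : ℕ) * (41472000) + p3 * r3 ^ (3 : ℕ) * (27648000) + r3 ^ (4 : ℕ) * (6912000)) + p2 * r2 ^ (3 : ℕ) * (p3 ^ (4 : ℕ) *
    (5529600) + p3 ^ (3 : ℕ) * r3 * (22118400) + p3 ^ (2 : ℕ) * r3 ^ (2 : ℕ) * (33177600) + p3 * r3 ^ (3 : ℕ) *
    (22118400) + r3 ^ (4 : ℕ) * (5529600)) + r2 ^ (4 : ℕ) * (p3 ^ (4 : ℕ) * (1612800) + p3 ^ (3 : ℕ) * r3 * (6451200) +
    p3 ^ (2 : ℕ) * r3 ^ (2 : ℕ) * (9676800) + p3 * r3 ^ (3 : ℕ) * (6451200) + r3 ^ (4 : ℕ) * (1612800))) + p1 * r1 ^ (3 : ℕ) *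
    (p2 ^ (4 : ℕ) * (p3 ^ (4 : ℕ) * (230400) + p3 ^ (3 : ℕ) * r3 * (921600) + p3 ^ (2 : ℕ) * r3 ^ (2 : ℕ) * (1382400) + p3 *
    r3 ^ (3 : ℕ) * (921600) + r3 ^ (4 : ℕ) * (230400)) + p2 ^ (3 : ℕ) * r2 * (p3 ^ (4 : ℕ) * (1536000) + p3 ^ (3 : ℕ) * r3 *
    (6144000) + p3 ^ (2 : ℕ) * r3 ^ (2 : ℕ) * (9216000) + p3 * r3 ^ (3 : ℕ) * (6144000) + r3 ^ (4 : ℕ) * (1536000)) + p2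
    ^ (2 : ℕ) * r2 ^ (2 : ℕ) * (p3 ^ (4 : ℕ) * (3225600) + p3 ^ (3 : ℕ) * r3 * (12902400) + p3 ^ (2 : ℕ) * r3 ^ (2 : ℕ) * (19353600)
    + p3 * r3 ^ (3 : ℕ) * (12902400) + r3 ^ (4 : ℕ) * (3225600)) + p2 * r2 ^ (3 : ℕ) * (p3 ^ (4 : ℕ) * (2764800) + p3 ^
    (3 : ℕ) * r3 * (11059200) + p3 ^ (2 : ℕ) * r3 ^ (2 : ℕ) * (16588800) + p3 * r3 ^ (3 : ℕ) * (11059200) + r3 ^ (4 : ℕ) *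
    (2764800)) + r2 ^ (4 : ℕ) * (p3 ^ (4 : ℕ) * (844800) + p3 ^ (3 : ℕ) * r3 * (3379200) + p3 ^ (2 : ℕ) * r3 ^ (2 : ℕ) *
    (5068800) + p3 * r3 ^ (3 : ℕ) * (3379200) + r3 ^ (4 : ℕ) * (844800))) + r1 ^ (4 : ℕ) * (p2 ^ (3 : ℕ) * r2 * (p3 ^ (4 : ℕ)
    * (153600) + p3 ^ (3 : ℕ) * r3 * (614400) + p3 ^ (2 : ℕ) * r3 ^ (2 : ℕ) * (921600) + p3 * r3 ^ (3 : ℕ) * (614400) +
    r3 ^ (4 : ℕ) * (153600)) + p2 ^ (2 : ℕ) * r2 ^ (2 : ℕ) * (p3 ^ (4 : ℕ) * (460800) + p3 ^ (3 : ℕ) * r3 * (1843200) + p3 ^ (2 : ℕ)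
    * r3 ^ (2 : ℕ) * (2764800) + p3 * r3 ^ (3 : ℕ) * (1843200) + r3 ^ (4 : ℕ) * (460800)) + p2 * r2 ^ (3 : ℕ) * (p3 ^ (4 : ℕ)
    * (460800) + p3 ^ (3 : ℕ) * r3 * (1843200) + p3 ^ (2 : ℕ) * r3 ^ (2 : ℕ) * (2764800) + p3 * r3 ^ (3 : ℕ) * (1843200)
    + r3 ^ (4 : ℕ) * (460800)) + r2 ^ (4 : ℕ) * (p3 ^ (4 : ℕ) * (153600) + p3 ^ (3 : ℕ) * r3 * (614400) + p3 ^ (2 : ℕ) * r3 ^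
    (2 : ℕ) * (921600) + p3 * r3 ^ (3 : ℕ) * (614400) + r3 ^ (4 : ℕ) * (153600)))

theorem bernhN0_nonneg {p1 r1 p2 r2 p3 r3 : ℝ} (h2 : 0 ≤ p1) (h3 : 0 ≤ r1) (h4 : 0 ≤ p2)
    (h5 : 0 ≤ r2) (h6 : 0 ≤ p3) (h7 : 0 ≤ r3) : 0 ≤ bernhN0 p1 r1 p2 r2 p3 r3 := by
  unfold bernhN0
  positivity

/-- Part of the Bernstein form. -/
def bernhN1 (p1 r1 p2 r2 p3 r3 : ℝ) : ℝ :=
    p1 ^ (4 : ℕ) * (p2 ^ (4 : ℕ) * (p3 ^ (4 : ℕ) * (759744) + p3 ^ (3 : ℕ) * r3 * (3038976) + p3 ^ (2 : ℕ) * r3 ^ (2 : ℕ) *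
    (4558464) + p3 * r3 ^ (3 : ℕ) * (3038976) + r3 ^ (4 : ℕ) * (759744)) + p2 ^ (3 : ℕ) * r2 * (p3 ^ (4 : ℕ) * (3598656)
    + p3 ^ (3 : ℕ) * r3 * (14388864) + p3 ^ (2 : ℕ) * r3 ^ (2 : ℕ) * (21574656) + p3 * r3 ^ (3 : ℕ) * (14377344) + r3 ^
    (4 : ℕ) * (3592896)) + p2 ^ (2 : ℕ) * r2 ^ (2 : ℕ) * (p3 ^ (4 : ℕ) * (6190784) + p3 ^ (3 : ℕ) * r3 * (24835136) + p3 ^ (2 : ℕ) *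
    r3 ^ (2 : ℕ) * (37322304) + p3 * r3 ^ (3 : ℕ) * (24902336) + r3 ^ (4 : ℕ) * (6224384)) + p2 * r2 ^ (3 : ℕ) * (p3 ^ (4 : ℕ)
    * (4624576) + p3 ^ (3 : ℕ) * r3 * (18659584) + p3 ^ (2 : ℕ) * r3 ^ (2 : ℕ) * (28154496) + p3 * r3 ^ (3 : ℕ) *
    (18828544) + r3 ^ (4 : ℕ) * (4709056)) + r2 ^ (4 : ℕ) * (p3 ^ (4 : ℕ) * (1272704) + p3 ^ (3 : ℕ) * r3 * (5174336) +
    p3 ^ (2 : ℕ) * r3 ^ (2 : ℕ) * (7848384) + p3 * r3 ^ (3 : ℕ) * (5264576) + r3 ^ (4 : ℕ) * (1317824))) + p1 ^ (3 : ℕ) * r1 *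
    (p2 ^ (4 : ℕ) * (p3 ^ (4 : ℕ) * (2350976) + p3 ^ (3 : ℕ) * r3 * (9403904) + p3 ^ (2 : ℕ) * r3 ^ (2 : ℕ) * (14105856) + p3
    * r3 ^ (3 : ℕ) * (9403904) + r3 ^ (4 : ℕ) * (2350976)) + p2 ^ (3 : ℕ) * r2 * (p3 ^ (4 : ℕ) * (11607744) + p3 ^ (3 : ℕ) *
    r3 * (46444416) + p3 ^ (2 : ℕ) * r3 ^ (2 : ℕ) * (69686784) + p3 * r3 ^ (3 : ℕ) * (46471296) + r3 ^ (4 : ℕ) *
    (11621184)) + p2 ^ (2 : ℕ) * r2 ^ (2 : ℕ) * (p3 ^ (4 : ℕ) * (20530496) + p3 ^ (3 : ℕ) * r3 * (82519424) + p3 ^ (2 : ℕ) *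
    r3 ^ (2 : ℕ) * (124221696) + p3 * r3 ^ (3 : ℕ) * (83007104) + r3 ^ (4 : ℕ) * (20774336)) + p2 * r2 ^ (3 : ℕ) * (p3 ^
    (4 : ℕ) * (15641664) + p3 ^ (3 : ℕ) * r3 * (63321216) + p3 ^ (2 : ℕ) * r3 ^ (2 : ℕ) * (95806464) + p3 * r3 ^ (3 : ℕ) *
    (64215936) + r3 ^ (4 : ℕ) * (16089024)) + r2 ^ (4 : ℕ) * (p3 ^ (4 : ℕ) * (4367936) + p3 ^ (3 : ℕ) * r3 * (17842304)
    + p3 ^ (2 : ℕ) * r3 ^ (2 : ℕ) * (27165696) + p3 * r3 ^ (3 : ℕ) * (18276224) + r3 ^ (4 : ℕ) * (4584896))) + p1 ^ (2 : ℕ) *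
    r1 ^ (2 : ℕ) * (p2 ^ (4 : ℕ) * (p3 ^ (4 : ℕ) * (2442944) + p3 ^ (3 : ℕ) * r3 * (9771776) + p3 ^ (2 : ℕ) * r3 ^ (2 : ℕ) *
    (14657664) + p3 * r3 ^ (3 : ℕ) * (9771776) + r3 ^ (4 : ℕ) * (2442944)) + p2 ^ (3 : ℕ) * r2 * (p3 ^ (4 : ℕ) *
    (13025216) + p3 ^ (3 : ℕ) * r3 * (52175744) + p3 ^ (2 : ℕ) * r3 ^ (2 : ℕ) * (78375936) + p3 * r3 ^ (3 : ℕ) *
    (52325504) + r3 ^ (4 : ℕ) * (13100096)) + p2 ^ (2 : ℕ) * r2 ^ (2 : ℕ) * (p3 ^ (4 : ℕ) * (24137664) + p3 ^ (3 : ℕ) * r3 *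
    (97310976) + p3 ^ (2 : ℕ) * r3 ^ (2 : ℕ) * (146876544) + p3 * r3 ^ (3 : ℕ) * (98370816) + r3 ^ (4 : ℕ) * (24667584))
    + p2 * r2 ^ (3 : ℕ) * (p3 ^ (4 : ℕ) * (18971456) + p3 ^ (3 : ℕ) * r3 * (77181824) + p3 ^ (2 : ℕ) * r3 ^ (2 : ℕ) *
    (117255936) + p3 * r3 ^ (3 : ℕ) * (78852224) + r3 ^ (4 : ℕ) * (19806656)) + r2 ^ (4 : ℕ) * (p3 ^ (4 : ℕ) * (5416064)
    + p3 ^ (3 : ℕ) * r3 * (22274816) + p3 ^ (2 : ℕ) * r3 ^ (2 : ℕ) * (34097664) + p3 * r3 ^ (3 : ℕ) * (23035136) + r3 ^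
    (4 : ℕ) * (5796224))) + p1 * r1 ^ (3 : ℕ) * (p2 ^ (4 : ℕ) * (p3 ^ (4 : ℕ) * (871936) + p3 ^ (3 : ℕ) * r3 * (3487744) + p3
    ^ (2 : ℕ) * r3 ^ (2 : ℕ) * (5231616) + p3 * r3 ^ (3 : ℕ) * (3487744) + r3 ^ (4 : ℕ) * (871936)) + p2 ^ (3 : ℕ) * r2 * (p3
    ^ (4 : ℕ) * (5621824) + p3 ^ (3 : ℕ) * r3 * (22573696) + p3 ^ (2 : ℕ) * r3 ^ (2 : ℕ) * (33990144) + p3 * r3 ^ (3 : ℕ) *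
    (22746496) + r3 ^ (4 : ℕ) * (5708224)) + p2 ^ (2 : ℕ) * r2 ^ (2 : ℕ) * (p3 ^ (4 : ℕ) * (11446976) + p3 ^ (3 : ℕ) * r3 *
    (46404224) + p3 ^ (2 : ℕ) * r3 ^ (2 : ℕ) * (70377216) + p3 * r3 ^ (3 : ℕ) * (47329664) + r3 ^ (4 : ℕ) * (11909696))
    + p2 * r2 ^ (3 : ℕ) * (p3 ^ (4 : ℕ) * (9516224) + p3 ^ (3 : ℕ) * r3 * (39038336) + p3 ^ (2 : ℕ) * r3 ^ (2 : ℕ) *
    (59710464) + p3 * r3 ^ (3 : ℕ) * (40370816) + r3 ^ (4 : ℕ) * (10182464)) + r2 ^ (4 : ℕ) * (p3 ^ (4 : ℕ) * (2819136)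
    + p3 ^ (3 : ℕ) * r3 * (11720064) + p3 ^ (2 : ℕ) * r3 ^ (2 : ℕ) * (18091776) + p3 * r3 ^ (3 : ℕ) * (12299904) + r3 ^
    (4 : ℕ) * (3109056))) + r1 ^ (4 : ℕ) * (p2 ^ (4 : ℕ) * (p3 ^ (4 : ℕ) * (20224) + p3 ^ (3 : ℕ) * r3 * (80896) + p3 ^ (2 : ℕ) * r3
    ^ (2 : ℕ) * (121344) + p3 * r3 ^ (3 : ℕ) * (80896) + r3 ^ (4 : ℕ) * (20224)) + p2 ^ (3 : ℕ) * r2 * (p3 ^ (4 : ℕ) *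
    (605696) + p3 ^ (3 : ℕ) * r3 * (2453504) + p3 ^ (2 : ℕ) * r3 ^ (2 : ℕ) * (3726336) + p3 * r3 ^ (3 : ℕ) * (2514944) +
    r3 ^ (4 : ℕ) * (636416)) + p2 ^ (2 : ℕ) * r2 ^ (2 : ℕ) * (p3 ^ (4 : ℕ) * (1649024) + p3 ^ (3 : ℕ) * r3 * (6777536) + p3 ^
    (2 : ℕ) * r3 ^ (2 : ℕ) * (10400064) + p3 * r3 ^ (3 : ℕ) * (7063616) + r3 ^ (4 : ℕ) * (1792064)) + p2 * r2 ^ (3 : ℕ) * (p3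
    ^ (4 : ℕ) * (1561856) + p3 ^ (3 : ℕ) * r3 * (6518144) + p3 ^ (2 : ℕ) * r3 ^ (2 : ℕ) * (10106496) + p3 * r3 ^ (3 : ℕ) *
    (6905984) + r3 ^ (4 : ℕ) * (1755776)) + r2 ^ (4 : ℕ) * (p3 ^ (4 : ℕ) * (498304) + p3 ^ (3 : ℕ) * r3 * (2113216) + p3
    ^ (2 : ℕ) * r3 ^ (2 : ℕ) * (3311424) + p3 * r3 ^ (3 : ℕ) * (2276416) + r3 ^ (4 : ℕ) * (579904)))

theorem bernhN1_nonneg {p1 r1 p2 r2 p3 r3 : ℝ} (h2 : 0 ≤ p1) (h3 : 0 ≤ r1) (h4 : 0 ≤ p2)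
    (h5 : 0 ≤ r2) (h6 : 0 ≤ p3) (h7 : 0 ≤ r3) : 0 ≤ bernhN1 p1 r1 p2 r2 p3 r3 := by
  unfold bernhN1
  positivity

/-- Part of the Bernstein form. -/
def bernhN2 (p1 r1 p2 r2 p3 r3 : ℝ) : ℝ :=
    p1 ^ (4 : ℕ) * (p2 ^ (4 : ℕ) * (p3 ^ (4 : ℕ) * (920232) + p3 ^ (3 : ℕ) * r3 * (3680928) + p3 ^ (2 : ℕ) * r3 ^ (2 : ℕ) *
    (5521392) + p3 * r3 ^ (3 : ℕ) * (3680928) + r3 ^ (4 : ℕ) * (920232)) + p2 ^ (3 : ℕ) * r2 * (p3 ^ (4 : ℕ) * (4384228)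
    + p3 ^ (3 : ℕ) * r3 * (17548840) + p3 ^ (2 : ℕ) * r3 ^ (2 : ℕ) * (26341152) + p3 * r3 ^ (3 : ℕ) * (17572696) + r3 ^
    (4 : ℕ) * (4396156)) + p2 ^ (2 : ℕ) * r2 ^ (2 : ℕ) * (p3 ^ (4 : ℕ) * (7513331) + p3 ^ (3 : ℕ) * r3 * (30335072) + p3 ^ (2 : ℕ) *
    r3 ^ (2 : ℕ) * (45810042) + p3 * r3 ^ (3 : ℕ) * (30668192) + r3 ^ (4 : ℕ) * (7679891)) + p2 * r2 ^ (3 : ℕ) * (p3 ^ (4 : ℕ)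
    * (5556951) + p3 ^ (3 : ℕ) * r3 * (22752621) + p3 ^ (2 : ℕ) * r3 ^ (2 : ℕ) * (34687761) + p3 * r3 ^ (3 : ℕ) *
    (23345411) + r3 ^ (4 : ℕ) * (5853320)) + r2 ^ (4 : ℕ) * (p3 ^ (4 : ℕ) * (1507616) + p3 ^ (3 : ℕ) * r3 * (6285461) +
    p3 ^ (2 : ℕ) * r3 ^ (2 : ℕ) * (9697479) + p3 * r3 ^ (3 : ℕ) * (6568987) + r3 ^ (4 : ℕ) * (1649353))) + p1 ^ (3 : ℕ) * r1 *
    (p2 ^ (4 : ℕ) * (p3 ^ (4 : ℕ) * (2992392) + p3 ^ (3 : ℕ) * r3 * (11969568) + p3 ^ (2 : ℕ) * r3 ^ (2 : ℕ) * (17954352) + p3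
    * r3 ^ (3 : ℕ) * (11969568) + r3 ^ (4 : ℕ) * (2992392)) + p2 ^ (3 : ℕ) * r2 * (p3 ^ (4 : ℕ) * (14699688) + p3 ^ (3 : ℕ) *
    r3 * (58965648) + p3 ^ (2 : ℕ) * r3 ^ (2 : ℕ) * (88698816) + p3 * r3 ^ (3 : ℕ) * (59299440) + r3 ^ (4 : ℕ) *
    (14866584)) + p2 ^ (2 : ℕ) * r2 ^ (2 : ℕ) * (p3 ^ (4 : ℕ) * (25663857) + p3 ^ (3 : ℕ) * r3 * (104145576) + p3 ^ (2 : ℕ) *
    r3 ^ (2 : ℕ) * (157991142) + p3 * r3 ^ (3 : ℕ) * (106200984) + r3 ^ (4 : ℕ) * (26691561)) + p2 * r2 ^ (3 : ℕ) * (p3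
    ^ (4 : ℕ) * (19206398) + p3 ^ (3 : ℕ) * r3 * (79293620) + p3 ^ (2 : ℕ) * r3 ^ (2 : ℕ) * (121725504) + p3 * r3 ^ (3 : ℕ) *
    (82395532) + r3 ^ (4 : ℕ) * (20757250)) + r2 ^ (4 : ℕ) * (p3 ^ (4 : ℕ) * (5249837) + p3 ^ (3 : ℕ) * r3 * (22144124)
    + p3 ^ (2 : ℕ) * r3 ^ (2 : ℕ) * (34478826) + p3 * r3 ^ (3 : ℕ) * (23524420) + r3 ^ (4 : ℕ) * (5939881))) + p1 ^ (2 : ℕ) *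
    r1 ^ (2 : ℕ) * (p2 ^ (4 : ℕ) * (p3 ^ (4 : ℕ) * (3277472) + p3 ^ (3 : ℕ) * r3 * (13109888) + p3 ^ (2 : ℕ) * r3 ^ (2 : ℕ) *
    (19664832) + p3 * r3 ^ (3 : ℕ) * (13109888) + r3 ^ (4 : ℕ) * (3277472)) + p2 ^ (3 : ℕ) * r2 * (p3 ^ (4 : ℕ) *
    (17083556) + p3 ^ (3 : ℕ) * r3 * (68761064) + p3 ^ (2 : ℕ) * r3 ^ (2 : ℕ) * (103781856) + p3 * r3 ^ (3 : ℕ) *
    (69614744) + r3 ^ (4 : ℕ) * (17510396)) + p2 ^ (2 : ℕ) * r2 ^ (2 : ℕ) * (p3 ^ (4 : ℕ) * (30851037) + p3 ^ (3 : ℕ) * r3 *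
    (126177264) + p3 ^ (2 : ℕ) * r3 ^ (2 : ℕ) * (192729366) + p3 * r3 ^ (3 : ℕ) * (130331088) + r3 ^ (4 : ℕ) *
    (32927949)) + p2 * r2 ^ (3 : ℕ) * (p3 ^ (4 : ℕ) * (23573564) + p3 ^ (3 : ℕ) * r3 * (98542598) + p3 ^ (2 : ℕ) * r3 ^
    (2 : ℕ) * (152805882) + p3 * r3 ^ (3 : ℕ) * (104277914) + r3 ^ (4 : ℕ) * (26441066)) + r2 ^ (4 : ℕ) * (p3 ^ (4 : ℕ) *
    (6528611) + p3 ^ (3 : ℕ) * r3 * (28016510) + p3 ^ (2 : ℕ) * r3 ^ (2 : ℕ) * (44193540) + p3 * r3 ^ (3 : ℕ) *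
    (30451682) + r3 ^ (4 : ℕ) * (7746041))) + p1 * r1 ^ (3 : ℕ) * (p2 ^ (4 : ℕ) * (p3 ^ (4 : ℕ) * (1261760) + p3 ^ (3 : ℕ) *
    r3 * (5047040) + p3 ^ (2 : ℕ) * r3 ^ (2 : ℕ) * (7570560) + p3 * r3 ^ (3 : ℕ) * (5047040) + r3 ^ (4 : ℕ) * (1261760))
    + p2 ^ (3 : ℕ) * r2 * (p3 ^ (4 : ℕ) * (7617216) + p3 ^ (3 : ℕ) * r3 * (30869568) + p3 ^ (2 : ℕ) * r3 ^ (2 : ℕ) *
    (46905408) + p3 * r3 ^ (3 : ℕ) * (31670976) + r3 ^ (4 : ℕ) * (8017920)) + p2 ^ (2 : ℕ) * r2 ^ (2 : ℕ) * (p3 ^ (4 : ℕ) *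
    (14782211) + p3 ^ (3 : ℕ) * r3 * (61331624) + p3 ^ (2 : ℕ) * r3 ^ (2 : ℕ) * (94835778) + p3 * r3 ^ (3 : ℕ) *
    (64805528) + r3 ^ (4 : ℕ) * (16519163)) + p2 * r2 ^ (3 : ℕ) * (p3 ^ (4 : ℕ) * (11767994) + p3 ^ (3 : ℕ) * r3 *
    (50263844) + p3 ^ (2 : ℕ) * r3 ^ (2 : ℕ) * (79259832) + p3 * r3 ^ (3 : ℕ) * (54799900) + r3 ^ (4 : ℕ) * (14035918))
    + r2 ^ (4 : ℕ) * (p3 ^ (4 : ℕ) * (3341239) + p3 ^ (3 : ℕ) * r3 * (14754748) + p3 ^ (2 : ℕ) * r3 ^ (2 : ℕ) * (23758902) +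
    p3 * r3 ^ (3 : ℕ) * (16618308) + r3 ^ (4 : ℕ) * (4272915))) + r1 ^ (4 : ℕ) * (p2 ^ (4 : ℕ) * (p3 ^ (4 : ℕ) * (56448) + p3
    ^ (3 : ℕ) * r3 * (225792) + p3 ^ (2 : ℕ) * r3 ^ (2 : ℕ) * (338688) + p3 * r3 ^ (3 : ℕ) * (225792) + r3 ^ (4 : ℕ) *
    (56448)) + p2 ^ (3 : ℕ) * r2 * (p3 ^ (4 : ℕ) * (849120) + p3 ^ (3 : ℕ) * r3 * (3525312) + p3 ^ (2 : ℕ) * r3 ^ (2 : ℕ) *
    (5481216) + p3 * r3 ^ (3 : ℕ) * (3782976) + r3 ^ (4 : ℕ) * (977952)) + p2 ^ (2 : ℕ) * r2 ^ (2 : ℕ) * (p3 ^ (4 : ℕ) *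
    (2081700) + p3 ^ (3 : ℕ) * r3 * (8964864) + p3 ^ (2 : ℕ) * r3 ^ (2 : ℕ) * (14287512) + p3 * r3 ^ (3 : ℕ) *
    (10007232) + r3 ^ (4 : ℕ) * (2602884)) + p2 * r2 ^ (3 : ℕ) * (p3 ^ (4 : ℕ) * (1843877) + p3 ^ (3 : ℕ) * r3 *
    (8262245) + p3 ^ (2 : ℕ) * r3 ^ (2 : ℕ) * (13491693) + p3 * r3 ^ (3 : ℕ) * (9572107) + r3 ^ (4 : ℕ) * (2498782)) +
    r2 ^ (4 : ℕ) * (p3 ^ (4 : ℕ) * (554849) + p3 ^ (3 : ℕ) * r3 * (2596901) + p3 ^ (2 : ℕ) * r3 ^ (2 : ℕ) * (4346709) + p3 *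
    r3 ^ (3 : ℕ) * (3122059) + r3 ^ (4 : ℕ) * (817402)))

theorem bernhN2_nonneg {p1 r1 p2 r2 p3 r3 : ℝ} (h2 : 0 ≤ p1) (h3 : 0 ≤ r1) (h4 : 0 ≤ p2)
    (h5 : 0 ≤ r2) (h6 : 0 ≤ p3) (h7 : 0 ≤ r3) : 0 ≤ bernhN2 p1 r1 p2 r2 p3 r3 := by
  unfold bernhN2
  positivity

/-- Part of the Bernstein form. -/
def bernhN3 (p1 r1 p2 r2 p3 r3 : ℝ) : ℝ :=
    p1 ^ (4 : ℕ) * (p2 ^ (4 : ℕ) * (p3 ^ (4 : ℕ) * ((28526351 / 60)) + p3 ^ (3 : ℕ) * r3 * ((28526351 / 15)) + p3 ^ (2 : ℕ) *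
    r3 ^ (2 : ℕ) * ((28526351 / 10)) + p3 * r3 ^ (3 : ℕ) * ((28526351 / 15)) + r3 ^ (4 : ℕ) * ((28526351 / 60))) +
    p2 ^ (3 : ℕ) * r2 * (p3 ^ (4 : ℕ) * ((22453599 / 10)) + p3 ^ (3 : ℕ) * r3 * (9022881) + p3 ^ (2 : ℕ) * r3 ^ (2 : ℕ) *
    ((67982418 / 5)) + p3 * r3 ^ (3 : ℕ) * ((45528819 / 5)) + r3 ^ (4 : ℕ) * ((22868013 / 10))) + p2 ^ (2 : ℕ) *
    r2 ^ (2 : ℕ) * (p3 ^ (4 : ℕ) * ((60584811 / 16)) + p3 ^ (3 : ℕ) * r3 * ((30989793 / 2)) + p3 ^ (2 : ℕ) * r3 ^ (2 : ℕ) *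
    ((945968301 / 40)) + p3 * r3 ^ (3 : ℕ) * ((159599283 / 10)) + r3 ^ (4 : ℕ) * ((321525327 / 80))) + p2 *
    r2 ^ (3 : ℕ) * (p3 ^ (4 : ℕ) * ((1316497483 / 480)) + p3 ^ (3 : ℕ) * r3 * ((553841815 / 48)) + p3 ^ (2 : ℕ) * r3 ^ (2 : ℕ)
    * ((717221927 / 40)) + p3 * r3 ^ (3 : ℕ) * ((2932027469 / 240)) + r3 ^ (4 : ℕ) * ((1479312481 / 480))) +
    r2 ^ (4 : ℕ) * (p3 ^ (4 : ℕ) * ((116161447 / 160)) + p3 ^ (3 : ℕ) * r3 * ((506316787 / 160)) + p3 ^ (2 : ℕ) * r3 ^ (2 : ℕ)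
    * ((804015891 / 160)) + p3 * r3 ^ (3 : ℕ) * ((553729141 / 160)) + r3 ^ (4 : ℕ) * ((69933671 / 80)))) +
    p1 ^ (3 : ℕ) * r1 * (p2 ^ (4 : ℕ) * (p3 ^ (4 : ℕ) * ((25106252 / 15)) + p3 ^ (3 : ℕ) * r3 * ((100425008 / 15)) + p3
    ^ (2 : ℕ) * r3 ^ (2 : ℕ) * ((50212504 / 5)) + p3 * r3 ^ (3 : ℕ) * ((100425008 / 15)) + r3 ^ (4 : ℕ) * ((25106252 /
    15))) + p2 ^ (3 : ℕ) * r2 * (p3 ^ (4 : ℕ) * ((80096077 / 10)) + p3 ^ (3 : ℕ) * r3 * ((161679821 / 5)) + p3 ^ (2 : ℕ)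
    * r3 ^ (2 : ℕ) * ((244751232 / 5)) + p3 * r3 ^ (3 : ℕ) * (32931031) + r3 ^ (4 : ℕ) * ((83071411 / 10))) + p2 ^
    (2 : ℕ) * r2 ^ (2 : ℕ) * (p3 ^ (4 : ℕ) * ((543247983 / 40)) + p3 ^ (3 : ℕ) * r3 * ((280626522 / 5)) + p3 ^ (2 : ℕ) * r3 ^
    (2 : ℕ) * ((1728413673 / 20)) + p3 * r3 ^ (3 : ℕ) * ((293951262 / 5)) + r3 ^ (4 : ℕ) * ((596546943 / 40))) +
    p2 * r2 ^ (3 : ℕ) * (p3 ^ (4 : ℕ) * ((4725294457 / 480)) + p3 ^ (3 : ℕ) * r3 * ((10095292997 / 240)) + p3 ^ (2 : ℕ)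
    * r3 ^ (2 : ℕ) * ((2648202383 / 40)) + p3 * r3 ^ (3 : ℕ) * ((10943124539 / 240)) + r3 ^ (4 : ℕ) * ((5573112019
    / 480))) + r2 ^ (4 : ℕ) * (p3 ^ (4 : ℕ) * ((415802423 / 160)) + p3 ^ (3 : ℕ) * r3 * ((926312329 / 80)) + p3 ^
    (2 : ℕ) * r3 ^ (2 : ℕ) * ((93458811 / 5)) + p3 * r3 ^ (3 : ℕ) * ((1043353543 / 80)) + r3 ^ (4 : ℕ) * ((532842377 /
    160)))) + p1 ^ (2 : ℕ) * r1 ^ (2 : ℕ) * (p2 ^ (4 : ℕ) * (p3 ^ (4 : ℕ) * ((9796468 / 5)) + p3 ^ (3 : ℕ) * r3 * ((39185872 /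
    5)) + p3 ^ (2 : ℕ) * r3 ^ (2 : ℕ) * ((58778808 / 5)) + p3 * r3 ^ (3 : ℕ) * ((39185872 / 5)) + r3 ^ (4 : ℕ) *
    ((9796468 / 5))) + p2 ^ (3 : ℕ) * r2 * (p3 ^ (4 : ℕ) * ((48624944 / 5)) + p3 ^ (3 : ℕ) * r3 * ((197693564 /
    5)) + p3 ^ (2 : ℕ) * r3 ^ (2 : ℕ) * ((301331028 / 5)) + p3 * r3 ^ (3 : ℕ) * (40816228) + r3 ^ (4 : ℕ) * ((51818732 /
    5))) + p2 ^ (2 : ℕ) * r2 ^ (2 : ℕ) * (p3 ^ (4 : ℕ) * ((268562347 / 16)) + p3 ^ (3 : ℕ) * r3 * ((704344003 / 10)) +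
    p3 ^ (2 : ℕ) * r3 ^ (2 : ℕ) * ((4395409173 / 40)) + p3 * r3 ^ (3 : ℕ) * ((151215689 / 2)) + r3 ^ (4 : ℕ) *
    ((1549749503 / 80))) + p2 * r2 ^ (3 : ℕ) * (p3 ^ (4 : ℕ) * ((1961010223 / 160)) + p3 ^ (3 : ℕ) * r3 *
    ((4293056159 / 80)) + p3 ^ (2 : ℕ) * r3 ^ (2 : ℕ) * ((3442476477 / 40)) + p3 * r3 ^ (3 : ℕ) * ((4812750689 /
    80)) + r3 ^ (4 : ℕ) * ((496139513 / 32))) + r2 ^ (4 : ℕ) * (p3 ^ (4 : ℕ) * ((517836473 / 160)) + p3 ^ (3 : ℕ) * r3 *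
    ((119437009 / 8)) + p3 ^ (2 : ℕ) * r3 ^ (2 : ℕ) * ((1974927009 / 80)) + p3 * r3 ^ (3 : ℕ) * ((701211047 / 40))
    + r3 ^ (4 : ℕ) * ((725886389 / 160)))) + p1 * r1 ^ (3 : ℕ) * (p2 ^ (4 : ℕ) * (p3 ^ (4 : ℕ) * ((4038288 / 5)) + p3 ^
    (3 : ℕ) * r3 * ((16153152 / 5)) + p3 ^ (2 : ℕ) * r3 ^ (2 : ℕ) * ((24229728 / 5)) + p3 * r3 ^ (3 : ℕ) * ((16153152 /
    5)) + r3 ^ (4 : ℕ) * ((4038288 / 5))) + p2 ^ (3 : ℕ) * r2 * (p3 ^ (4 : ℕ) * ((22184604 / 5)) + p3 ^ (3 : ℕ) * r3 *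
    (18298512) + p3 ^ (2 : ℕ) * r3 ^ (2 : ℕ) * ((141370056 / 5)) + p3 * r3 ^ (3 : ℕ) * ((97000848 / 5)) + r3 ^ (4 : ℕ) *
    ((24938748 / 5))) + p2 ^ (2 : ℕ) * r2 ^ (2 : ℕ) * (p3 ^ (4 : ℕ) * ((80244931 / 10)) + p3 ^ (3 : ℕ) * r3 *
    ((173396504 / 5)) + p3 ^ (2 : ℕ) * r3 ^ (2 : ℕ) * ((277080729 / 5)) + p3 * r3 ^ (3 : ℕ) * ((194461808 / 5)) +
    r3 ^ (4 : ℕ) * ((20262047 / 2))) + p2 * r2 ^ (3 : ℕ) * (p3 ^ (4 : ℕ) * ((957570777 / 160)) + p3 ^ (3 : ℕ) * r3 *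
    ((2194163277 / 80)) + p3 ^ (2 : ℕ) * r3 ^ (2 : ℕ) * ((1817559081 / 40)) + p3 * r3 ^ (3 : ℕ) * ((2602883123 /
    80)) + r3 ^ (4 : ℕ) * ((1366285699 / 160))) + r2 ^ (4 : ℕ) * (p3 ^ (4 : ℕ) * ((50858597 / 32)) + p3 ^ (3 : ℕ) * r3 *
    ((625211663 / 80)) + p3 ^ (2 : ℕ) * r3 ^ (2 : ℕ) * ((26901075 / 2)) + p3 * r3 ^ (3 : ℕ) * ((785040449 / 80)) +
    r3 ^ (4 : ℕ) * ((414120247 / 160)))) + r1 ^ (4 : ℕ) * (p2 ^ (4 : ℕ) * (p3 ^ (4 : ℕ) * ((231808 / 5)) + p3 ^ (3 : ℕ) * r3 *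
    ((927232 / 5)) + p3 ^ (2 : ℕ) * r3 ^ (2 : ℕ) * ((1390848 / 5)) + p3 * r3 ^ (3 : ℕ) * ((927232 / 5)) + r3 ^ (4 : ℕ) *
    ((231808 / 5))) + p2 ^ (3 : ℕ) * r2 * (p3 ^ (4 : ℕ) * ((2374632 / 5)) + p3 ^ (3 : ℕ) * r3 * ((10339344 / 5)) +
    p3 ^ (2 : ℕ) * r3 ^ (2 : ℕ) * (3354048) + p3 * r3 ^ (3 : ℕ) * ((12020976 / 5)) + r3 ^ (4 : ℕ) * ((3215448 / 5))) +
    p2 ^ (2 : ℕ) * r2 ^ (2 : ℕ) * (p3 ^ (4 : ℕ) * ((5160576 / 5)) + p3 ^ (3 : ℕ) * r3 * (4867788) + p3 ^ (2 : ℕ) * r3 ^ (2 : ℕ) *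
    (8291112) + p3 * r3 ^ (3 : ℕ) * ((30536604 / 5)) + r3 ^ (4 : ℕ) * ((8259408 / 5))) + p2 * r2 ^ (3 : ℕ) * (p3 ^
    (4 : ℕ) * ((33156417 / 40)) + p3 ^ (3 : ℕ) * r3 * ((85683501 / 20)) + p3 ^ (2 : ℕ) * r3 ^ (2 : ℕ) * ((76440561 /
    10)) + p3 * r3 ^ (3 : ℕ) * ((115024259 / 20)) + r3 ^ (4 : ℕ) * ((62496859 / 40))) + r2 ^ (4 : ℕ) * (p3 ^ (4 : ℕ) *
    ((4505919 / 20)) + p3 ^ (3 : ℕ) * r3 * ((207790473 / 160)) + p3 ^ (2 : ℕ) * r3 ^ (2 : ℕ) * ((388597227 / 160))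
    + p3 * r3 ^ (3 : ℕ) * ((298014111 / 160)) + r3 ^ (4 : ℕ) * ((81158757 / 160))))

theorem bernhN3_nonneg {p1 r1 p2 r2 p3 r3 : ℝ} (h2 : 0 ≤ p1) (h3 : 0 ≤ r1) (h4 : 0 ≤ p2)
    (h5 : 0 ≤ r2) (h6 : 0 ≤ p3) (h7 : 0 ≤ r3) : 0 ≤ bernhN3 p1 r1 p2 r2 p3 r3 := by
  unfold bernhN3
  positivity

/-- Part of the Bernstein form. -/
def bernhN4 (p1 r1 p2 r2 p3 r3 : ℝ) : ℝ :=
    p1 ^ (4 : ℕ) * (p2 ^ (4 : ℕ) * (p3 ^ (4 : ℕ) * ((366937315631 / 4608000)) + p3 ^ (3 : ℕ) * r3 * ((366937315631 /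
    1152000)) + p3 ^ (2 : ℕ) * r3 ^ (2 : ℕ) * ((366937315631 / 768000)) + p3 * r3 ^ (3 : ℕ) * ((366937315631 /
    1152000)) + r3 ^ (4 : ℕ) * ((366937315631 / 4608000))) + p2 ^ (3 : ℕ) * r2 * (p3 ^ (4 : ℕ) * ((420370723631 /
    1152000)) + p3 ^ (3 : ℕ) * r3 * ((427211702831 / 288000)) + p3 ^ (2 : ℕ) * r3 ^ (2 : ℕ) * ((434052682031 /
    192000)) + p3 * r3 ^ (3 : ℕ) * ((440893661231 / 288000)) + r3 ^ (4 : ℕ) * ((447734640431 / 1152000))) +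
    p2 ^ (2 : ℕ) * r2 ^ (2 : ℕ) * (p3 ^ (4 : ℕ) * ((454102694831 / 768000)) + p3 ^ (3 : ℕ) * r3 * ((480780278831 /
    192000)) + p3 ^ (2 : ℕ) * r3 ^ (2 : ℕ) * ((502415962031 / 128000)) + p3 * r3 ^ (3 : ℕ) * ((519009744431 /
    192000)) + r3 ^ (4 : ℕ) * ((530561626031 / 768000))) + p2 * r2 ^ (3 : ℕ) * (p3 ^ (4 : ℕ) * ((470298622031 /
    1152000)) + p3 ^ (3 : ℕ) * r3 * ((529056896831 / 288000)) + p3 ^ (2 : ℕ) * r3 ^ (2 : ℕ) * ((573079032431 /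
    192000)) + p3 * r3 ^ (3 : ℕ) * ((602375929631 / 288000)) + r3 ^ (4 : ℕ) * ((616958489231 / 1152000))) +
    r2 ^ (4 : ℕ) * (p3 ^ (4 : ℕ) * ((470828640431 / 4608000)) + p3 ^ (3 : ℕ) * r3 * ((573318329231 / 1152000)) +
    p3 ^ (2 : ℕ) * r3 ^ (2 : ℕ) * ((647024779631 / 768000)) + p3 * r3 ^ (3 : ℕ) * ((692021806031 / 1152000)) + r3
    ^ (4 : ℕ) * ((708347280431 / 4608000)))) + p1 ^ (3 : ℕ) * r1 * (p2 ^ (4 : ℕ) * (p3 ^ (4 : ℕ) * ((370311984431 /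
    1152000)) + p3 ^ (3 : ℕ) * r3 * ((370311984431 / 288000)) + p3 ^ (2 : ℕ) * r3 ^ (2 : ℕ) * ((370311984431 /
    192000)) + p3 * r3 ^ (3 : ℕ) * ((370311984431 / 288000)) + r3 ^ (4 : ℕ) * ((370311984431 / 1152000))) +
    p2 ^ (3 : ℕ) * r2 * (p3 ^ (4 : ℕ) * ((420403008431 / 288000)) + p3 ^ (3 : ℕ) * r3 * ((430776581231 / 72000)) +
    p3 ^ (2 : ℕ) * r3 ^ (2 : ℕ) * ((441150154031 / 48000)) + p3 * r3 ^ (3 : ℕ) * ((451523726831 / 72000)) + r3 ^ (4 : ℕ)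
    * ((461897299631 / 288000))) + p2 ^ (2 : ℕ) * r2 ^ (2 : ℕ) * (p3 ^ (4 : ℕ) * ((449153669231 / 192000)) + p3 ^
    (3 : ℕ) * r3 * ((483127978031 / 48000)) + p3 ^ (2 : ℕ) * r3 ^ (2 : ℕ) * ((512008267631 / 32000)) + p3 * r3 ^ (3 : ℕ)
    * ((535794538031 / 48000)) + r3 ^ (4 : ℕ) * ((554486789231 / 192000))) + p2 * r2 ^ (3 : ℕ) * (p3 ^ (4 : ℕ) *
    ((458754745031 / 288000)) + p3 ^ (3 : ℕ) * r3 * ((528796273931 / 72000)) + p3 ^ (2 : ℕ) * r3 ^ (2 : ℕ) *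
    ((583950402431 / 48000)) + p3 * r3 ^ (3 : ℕ) * ((624227912531 / 72000)) + r3 ^ (4 : ℕ) * ((649639586231
    / 288000))) + r2 ^ (4 : ℕ) * (p3 ^ (4 : ℕ) * ((451101756431 / 1152000)) + p3 ^ (3 : ℕ) * r3 * ((569074487231 /
    288000)) + p3 ^ (2 : ℕ) * r3 ^ (2 : ℕ) * ((657971645231 / 192000)) + p3 * r3 ^ (3 : ℕ) * ((717866569631 /
    288000)) + r3 ^ (4 : ℕ) * ((748796657231 / 1152000)))) + p1 ^ (2 : ℕ) * r1 ^ (2 : ℕ) * (p2 ^ (4 : ℕ) * (p3 ^ (4 : ℕ) *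
    ((310303843631 / 768000)) + p3 ^ (3 : ℕ) * r3 * ((310303843631 / 192000)) + p3 ^ (2 : ℕ) * r3 ^ (2 : ℕ) *
    ((310303843631 / 128000)) + p3 * r3 ^ (3 : ℕ) * ((310303843631 / 192000)) + r3 ^ (4 : ℕ) *
    ((310303843631 / 768000))) + p2 ^ (3 : ℕ) * r2 * (p3 ^ (4 : ℕ) * ((357533232431 / 192000)) + p3 ^ (3 : ℕ) * r3
    * ((371299517231 / 48000)) + p3 ^ (2 : ℕ) * r3 ^ (2 : ℕ) * ((385065802031 / 32000)) + p3 * r3 ^ (3 : ℕ) *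
    ((398832086831 / 48000)) + r3 ^ (4 : ℕ) * ((412598371631 / 192000))) + p2 ^ (2 : ℕ) * r2 ^ (2 : ℕ) * (p3 ^ (4 : ℕ) *
    ((381776494831 / 128000)) + p3 ^ (3 : ℕ) * r3 * ((422769056431 / 32000)) + p3 ^ (2 : ℕ) * r3 ^ (2 : ℕ) *
    ((1375842457293 / 64000)) + p3 * r3 ^ (3 : ℕ) * ((489311782831 / 32000)) + r3 ^ (4 : ℕ) * ((514861947631
    / 128000))) + p2 * r2 ^ (3 : ℕ) * (p3 ^ (4 : ℕ) * ((385249794431 / 192000)) + p3 ^ (3 : ℕ) * r3 *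
    ((466158806231 / 48000)) + p3 ^ (2 : ℕ) * r3 ^ (2 : ℕ) * ((532025172431 / 32000)) + p3 * r3 ^ (3 : ℕ) *
    ((582859556231 / 48000)) + r3 ^ (4 : ℕ) * ((618672620831 / 192000))) + r2 ^ (4 : ℕ) * (p3 ^ (4 : ℕ) *
    ((369874037231 / 768000)) + p3 ^ (3 : ℕ) * r3 * ((502778030831 / 192000)) + p3 ^ (2 : ℕ) * r3 ^ (2 : ℕ) *
    ((606306149231 / 128000)) + p3 * r3 ^ (3 : ℕ) * ((680531256431 / 192000)) + r3 ^ (4 : ℕ) *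
    ((725490274031 / 768000)))) + p1 * r1 ^ (3 : ℕ) * (p2 ^ (4 : ℕ) * (p3 ^ (4 : ℕ) * ((193248970031 / 1152000)) +
    p3 ^ (3 : ℕ) * r3 * ((193248970031 / 288000)) + p3 ^ (2 : ℕ) * r3 ^ (2 : ℕ) * ((193248970031 / 192000)) + p3 *
    r3 ^ (3 : ℕ) * ((193248970031 / 288000)) + r3 ^ (4 : ℕ) * ((193248970031 / 1152000))) + p2 ^ (3 : ℕ) * r2 *
    (p3 ^ (4 : ℕ) * ((238117757231 / 288000)) + p3 ^ (3 : ℕ) * r3 * ((255147542831 / 72000)) + p3 ^ (2 : ℕ) * r3 ^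
    (2 : ℕ) * ((272177328431 / 48000)) + p3 * r3 ^ (3 : ℕ) * ((289207114031 / 72000)) + r3 ^ (4 : ℕ) *
    ((306236899631 / 288000))) + p2 ^ (2 : ℕ) * r2 ^ (2 : ℕ) * (p3 ^ (4 : ℕ) * ((258347818031 / 192000)) + p3 ^ (3 : ℕ)
    * r3 * ((306101501231 / 48000)) + p3 ^ (2 : ℕ) * r3 ^ (2 : ℕ) * ((348652944431 / 32000)) + p3 * r3 ^ (3 : ℕ) *
    ((386002147631 / 48000)) + r3 ^ (4 : ℕ) * ((418149110831 / 192000))) + p2 * r2 ^ (3 : ℕ) * (p3 ^ (4 : ℕ) *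
    ((256180701431 / 288000)) + p3 ^ (3 : ℕ) * r3 * ((347573436131 / 72000)) + p3 ^ (2 : ℕ) * r3 ^ (2 : ℕ) *
    ((423764296031 / 48000)) + p3 * r3 ^ (3 : ℕ) * ((484763825531 / 72000)) + r3 ^ (4 : ℕ) * ((530582569031
    / 288000))) + r2 ^ (4 : ℕ) * (p3 ^ (4 : ℕ) * ((233562698831 / 1152000)) + p3 ^ (3 : ℕ) * r3 * ((380888857631 /
    288000)) + p3 ^ (2 : ℕ) * r3 ^ (2 : ℕ) * ((498530870831 / 192000)) + p3 * r3 ^ (3 : ℕ) * ((586561127231 /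
    288000)) + r3 ^ (4 : ℕ) * ((645016073231 / 1152000)))) + r1 ^ (4 : ℕ) * (p2 ^ (4 : ℕ) * (p3 ^ (4 : ℕ) *
    ((24039523631 / 4608000)) + p3 ^ (3 : ℕ) * r3 * ((24039523631 / 1152000)) + p3 ^ (2 : ℕ) * r3 ^ (2 : ℕ) *
    ((24039523631 / 768000)) + p3 * r3 ^ (3 : ℕ) * ((24039523631 / 1152000)) + r3 ^ (4 : ℕ) * ((24039523631
    / 4608000))) + p2 ^ (3 : ℕ) * r2 * (p3 ^ (4 : ℕ) * ((67069027631 / 1152000)) + p3 ^ (3 : ℕ) * r3 *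
    ((87243773231 / 288000)) + p3 ^ (2 : ℕ) * r3 ^ (2 : ℕ) * ((107418518831 / 192000)) + p3 * r3 ^ (3 : ℕ) *
    ((127593264431 / 288000)) + r3 ^ (4 : ℕ) * ((147768010031 / 1152000))) + p2 ^ (2 : ℕ) * r2 ^ (2 : ℕ) * (p3 ^ (4 : ℕ)
    * ((83800368431 / 768000)) + p3 ^ (3 : ℕ) * r3 * ((138079382831 / 192000)) + p3 ^ (2 : ℕ) * r3 ^ (2 : ℕ) *
    ((187100054831 / 128000)) + p3 * r3 ^ (3 : ℕ) * ((230862384431 / 192000)) + r3 ^ (4 : ℕ) *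
    ((269366371631 / 768000))) + p2 * r2 ^ (3 : ℕ) * (p3 ^ (4 : ℕ) * ((76500480431 / 1152000)) + p3 ^ (3 : ℕ) * r3
    * ((178025189231 / 288000)) + p3 ^ (2 : ℕ) * r3 ^ (2 : ℕ) * ((264184810031 / 192000)) + p3 * r3 ^ (3 : ℕ) *
    ((334989768431 / 288000)) + r3 ^ (4 : ℕ) * ((390450490031 / 1152000))) + r2 ^ (4 : ℕ) * (p3 ^ (4 : ℕ) *
    ((47141040431 / 4608000)) + p3 ^ (3 : ℕ) * r3 * ((208422948431 / 1152000)) + p3 ^ (2 : ℕ) * r3 ^ (2 : ℕ) *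
    ((339704472431 / 768000)) + p3 * r3 ^ (3 : ℕ) * ((441057526031 / 1152000)) + r3 ^ (4 : ℕ) *
    ((512518080431 / 4608000))))

theorem bernhN4_nonneg {p1 r1 p2 r2 p3 r3 : ℝ} (h2 : 0 ≤ p1) (h3 : 0 ≤ r1) (h4 : 0 ≤ p2)
    (h5 : 0 ≤ r2) (h6 : 0 ≤ p3) (h7 : 0 ≤ r3) : 0 ≤ bernhN4 p1 r1 p2 r2 p3 r3 := by
  unfold bernhN4
  positivity

/-- Bernstein form of the certificate. -/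
def bernhN (p0 r0 p1 r1 p2 r2 p3 r3 : ℝ) : ℝ :=
    p0 ^ (4 : ℕ) * bernhN0 p1 r1 p2 r2 p3 r3 + p0 ^ (3 : ℕ) * r0 * bernhN1 p1 r1 p2 r2 p3 r3 + p0 ^ (2 : ℕ) * r0 ^
    (2 : ℕ) * bernhN2 p1 r1 p2 r2 p3 r3 + p0 * r0 ^ (3 : ℕ) * bernhN3 p1 r1 p2 r2 p3 r3 + r0 ^ (4 : ℕ) * bernhN4
    p1 r1 p2 r2 p3 r3

theorem bernhN_nonneg {p0 r0 p1 r1 p2 r2 p3 r3 : ℝ} (h0 : 0 ≤ p0) (h1 : 0 ≤ r0) (h2 : 0 ≤ p1)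
    (h3 : 0 ≤ r1) (h4 : 0 ≤ p2) (h5 : 0 ≤ r2) (h6 : 0 ≤ p3) (h7 : 0 ≤ r3) :
    0 ≤ bernhN p0 r0 p1 r1 p2 r2 p3 r3 := by
  have e0 := bernhN0_nonneg h2 h3 h4 h5 h6 h7
  have e1 := bernhN1_nonneg h2 h3 h4 h5 h6 h7
  have e2 := bernhN2_nonneg h2 h3 h4 h5 h6 h7
  have e3 := bernhN3_nonneg h2 h3 h4 h5 h6 h7
  have e4 := bernhN4_nonneg h2 h3 h4 h5 h6 h7
  unfold bernhN
  positivity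

theorem casehN {u a o g : ℝ} (u0 : 0 ≤ u) (u1 : u ≤ 1 / 10) (a0 : (-1 / 2) ≤ a) (a1 : a ≤ 0)
    (o0 : 0 ≤ o) (o1 : o ≤ 1 / 2) (g0 : -(1 / 2) ≤ g) (g1 : g ≤ 1 / 2) :
    qX u a o g + 1 / 25 * qW u a o g + 3 / 50 * qH u a o g + 1 / 1000 * u - 3 / 25 * o + 9 / 50 * a ≤ 0 := by
  have h := bernhN_nonneg (p0 := ((1 / 10) - u)) (r0 := (u - 0)) (p1 := (0 - a)) (r1 := (a - (-1 / 2)))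
    (p2 := ((1 / 2) - o)) (r2 := (o - 0)) (p3 := ((1 / 2) - g)) (r3 := (g - (-1 / 2)))
    (by linarith) (by linarith) (by linarith) (by linarith) (by linarith) (by linarith)
    (by linarith) (by linarith)
  refine neg_nonneg.1 (h.trans_eq ?_)
  unfold bernhN bernhN0 bernhN1 bernhN2 bernhN3 bernhN4 qX qW qH
  ring

end Vale.P154.PS
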