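import Vale.Agent.P154.Pois.Forms

/-!
# Three states: certificate lP on its box
-/

noncomputable section

namespace Vale.P154.PS

set_option maxHeartbeats 4000000

/-- Part of the Bernstein form. -/
def bernlP0 (p1 r1 p2 r2 p3 r3 : ℝ) : ℝ :=
    p1 ^ (4 : ℕ) * (p2 ^ (3 : ℕ) * r2 * (p3 ^ (4 : ℕ) * (153600) + p3 ^ (3 : ℕ) * r3 * (614400) + p3 ^ (2 : ℕ) * r3 ^ (2 : ℕ) *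
    (921600) + p3 * r3 ^ (3 : ℕ) * (614400) + r3 ^ (4 : ℕ) * (153600)) + p2 ^ (2 : ℕ) * r2 ^ (2 : ℕ) * (p3 ^ (4 : ℕ) *
    (460800) + p3 ^ (3 : ℕ) * r3 * (1843200) + p3 ^ (2 : ℕ) * r3 ^ (2 : ℕ) * (2764800) + p3 * r3 ^ (3 : ℕ) * (1843200) +
    r3 ^ (4 : ℕ) * (460800)) + p2 * r2 ^ (3 : ℕ) * (p3 ^ (4 : ℕ) * (460800) + p3 ^ (3 : ℕ) * r3 * (1843200) + p3 ^ (2 : ℕ) *
    r3 ^ (2 : ℕ) * (2764800) + p3 * r3 ^ (3 : ℕ) * (1843200) + r3 ^ (4 : ℕ) * (460800)) + r2 ^ (4 : ℕ) * (p3 ^ (4 : ℕ) *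
    (153600) + p3 ^ (3 : ℕ) * r3 * (614400) + p3 ^ (2 : ℕ) * r3 ^ (2 : ℕ) * (921600) + p3 * r3 ^ (3 : ℕ) * (614400) + r3
    ^ (4 : ℕ) * (153600))) + p1 ^ (3 : ℕ) * r1 * (p2 ^ (4 : ℕ) * (p3 ^ (4 : ℕ) * (153600) + p3 ^ (3 : ℕ) * r3 * (614400) + p3
    ^ (2 : ℕ) * r3 ^ (2 : ℕ) * (921600) + p3 * r3 ^ (3 : ℕ) * (614400) + r3 ^ (4 : ℕ) * (153600)) + p2 ^ (3 : ℕ) * r2 * (p3 ^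
    (4 : ℕ) * (1228800) + p3 ^ (3 : ℕ) * r3 * (4915200) + p3 ^ (2 : ℕ) * r3 ^ (2 : ℕ) * (7372800) + p3 * r3 ^ (3 : ℕ) *
    (4915200) + r3 ^ (4 : ℕ) * (1228800)) + p2 ^ (2 : ℕ) * r2 ^ (2 : ℕ) * (p3 ^ (4 : ℕ) * (2764800) + p3 ^ (3 : ℕ) * r3 *
    (11059200) + p3 ^ (2 : ℕ) * r3 ^ (2 : ℕ) * (16588800) + p3 * r3 ^ (3 : ℕ) * (11059200) + r3 ^ (4 : ℕ) * (2764800)) +
    p2 * r2 ^ (3 : ℕ) * (p3 ^ (4 : ℕ) * (2457600) + p3 ^ (3 : ℕ) * r3 * (9830400) + p3 ^ (2 : ℕ) * r3 ^ (2 : ℕ) * (14745600) +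
    p3 * r3 ^ (3 : ℕ) * (9830400) + r3 ^ (4 : ℕ) * (2457600)) + r2 ^ (4 : ℕ) * (p3 ^ (4 : ℕ) * (768000) + p3 ^ (3 : ℕ) * r3 *
    (3072000) + p3 ^ (2 : ℕ) * r3 ^ (2 : ℕ) * (4608000) + p3 * r3 ^ (3 : ℕ) * (3072000) + r3 ^ (4 : ℕ) * (768000))) + p1
    ^ (2 : ℕ) * r1 ^ (2 : ℕ) * (p2 ^ (4 : ℕ) * (p3 ^ (4 : ℕ) * (460800) + p3 ^ (3 : ℕ) * r3 * (1843200) + p3 ^ (2 : ℕ) * r3 ^ (2 : ℕ) *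
    (2764800) + p3 * r3 ^ (3 : ℕ) * (1843200) + r3 ^ (4 : ℕ) * (460800)) + p2 ^ (3 : ℕ) * r2 * (p3 ^ (4 : ℕ) * (2764800)
    + p3 ^ (3 : ℕ) * r3 * (11059200) + p3 ^ (2 : ℕ) * r3 ^ (2 : ℕ) * (16588800) + p3 * r3 ^ (3 : ℕ) * (11059200) + r3 ^
    (4 : ℕ) * (2764800)) + p2 ^ (2 : ℕ) * r2 ^ (2 : ℕ) * (p3 ^ (4 : ℕ) * (5529600) + p3 ^ (3 : ℕ) * r3 * (22118400) + p3 ^ (2 : ℕ) *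
    r3 ^ (2 : ℕ) * (33177600) + p3 * r3 ^ (3 : ℕ) * (22118400) + r3 ^ (4 : ℕ) * (5529600)) + p2 * r2 ^ (3 : ℕ) * (p3 ^ (4 : ℕ)
    * (4608000) + p3 ^ (3 : ℕ) * r3 * (18432000) + p3 ^ (2 : ℕ) * r3 ^ (2 : ℕ) * (27648000) + p3 * r3 ^ (3 : ℕ) *
    (18432000) + r3 ^ (4 : ℕ) * (4608000)) + r2 ^ (4 : ℕ) * (p3 ^ (4 : ℕ) * (1382400) + p3 ^ (3 : ℕ) * r3 * (5529600) +
    p3 ^ (2 : ℕ) * r3 ^ (2 : ℕ) * (8294400) + p3 * r3 ^ (3 : ℕ) * (5529600) + r3 ^ (4 : ℕ) * (1382400))) + p1 * r1 ^ (3 : ℕ) *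
    (p2 ^ (4 : ℕ) * (p3 ^ (4 : ℕ) * (460800) + p3 ^ (3 : ℕ) * r3 * (1843200) + p3 ^ (2 : ℕ) * r3 ^ (2 : ℕ) * (2764800) + p3 *
    r3 ^ (3 : ℕ) * (1843200) + r3 ^ (4 : ℕ) * (460800)) + p2 ^ (3 : ℕ) * r2 * (p3 ^ (4 : ℕ) * (2457600) + p3 ^ (3 : ℕ) * r3 *
    (9830400) + p3 ^ (2 : ℕ) * r3 ^ (2 : ℕ) * (14745600) + p3 * r3 ^ (3 : ℕ) * (9830400) + r3 ^ (4 : ℕ) * (2457600)) +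
    p2 ^ (2 : ℕ) * r2 ^ (2 : ℕ) * (p3 ^ (4 : ℕ) * (4608000) + p3 ^ (3 : ℕ) * r3 * (18432000) + p3 ^ (2 : ℕ) * r3 ^ (2 : ℕ) *
    (27648000) + p3 * r3 ^ (3 : ℕ) * (18432000) + r3 ^ (4 : ℕ) * (4608000)) + p2 * r2 ^ (3 : ℕ) * (p3 ^ (4 : ℕ) *
    (3686400) + p3 ^ (3 : ℕ) * r3 * (14745600) + p3 ^ (2 : ℕ) * r3 ^ (2 : ℕ) * (22118400) + p3 * r3 ^ (3 : ℕ) *
    (14745600) + r3 ^ (4 : ℕ) * (3686400)) + r2 ^ (4 : ℕ) * (p3 ^ (4 : ℕ) * (1075200) + p3 ^ (3 : ℕ) * r3 * (4300800) +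
    p3 ^ (2 : ℕ) * r3 ^ (2 : ℕ) * (6451200) + p3 * r3 ^ (3 : ℕ) * (4300800) + r3 ^ (4 : ℕ) * (1075200))) + r1 ^ (4 : ℕ) * (p2
    ^ (4 : ℕ) * (p3 ^ (4 : ℕ) * (153600) + p3 ^ (3 : ℕ) * r3 * (614400) + p3 ^ (2 : ℕ) * r3 ^ (2 : ℕ) * (921600) + p3 * r3 ^ (3 : ℕ)
    * (614400) + r3 ^ (4 : ℕ) * (153600)) + p2 ^ (3 : ℕ) * r2 * (p3 ^ (4 : ℕ) * (768000) + p3 ^ (3 : ℕ) * r3 * (3072000)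
    + p3 ^ (2 : ℕ) * r3 ^ (2 : ℕ) * (4608000) + p3 * r3 ^ (3 : ℕ) * (3072000) + r3 ^ (4 : ℕ) * (768000)) + p2 ^ (2 : ℕ) * r2 ^
    (2 : ℕ) * (p3 ^ (4 : ℕ) * (1382400) + p3 ^ (3 : ℕ) * r3 * (5529600) + p3 ^ (2 : ℕ) * r3 ^ (2 : ℕ) * (8294400) + p3 * r3 ^
    (3 : ℕ) * (5529600) + r3 ^ (4 : ℕ) * (1382400)) + p2 * r2 ^ (3 : ℕ) * (p3 ^ (4 : ℕ) * (1075200) + p3 ^ (3 : ℕ) * r3 *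
    (4300800) + p3 ^ (2 : ℕ) * r3 ^ (2 : ℕ) * (6451200) + p3 * r3 ^ (3 : ℕ) * (4300800) + r3 ^ (4 : ℕ) * (1075200)) + r2
    ^ (4 : ℕ) * (p3 ^ (4 : ℕ) * (307200) + p3 ^ (3 : ℕ) * r3 * (1228800) + p3 ^ (2 : ℕ) * r3 ^ (2 : ℕ) * (1843200) + p3 * r3 ^
    (3 : ℕ) * (1228800) + r3 ^ (4 : ℕ) * (307200)))

theorem bernlP0_nonneg {p1 r1 p2 r2 p3 r3 : ℝ} (h2 : 0 ≤ p1) (h3 : 0 ≤ r1) (h4 : 0 ≤ p2)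
    (h5 : 0 ≤ r2) (h6 : 0 ≤ p3) (h7 : 0 ≤ r3) : 0 ≤ bernlP0 p1 r1 p2 r2 p3 r3 := by
  unfold bernlP0
  positivity

/-- Part of the Bernstein form. -/
def bernlP1 (p1 r1 p2 r2 p3 r3 : ℝ) : ℝ :=
    p1 ^ (4 : ℕ) * (p2 ^ (4 : ℕ) * (p3 ^ (4 : ℕ) * (58624) + p3 ^ (3 : ℕ) * r3 * (234496) + p3 ^ (2 : ℕ) * r3 ^ (2 : ℕ) * (351744) +
    p3 * r3 ^ (3 : ℕ) * (234496) + r3 ^ (4 : ℕ) * (58624)) + p2 ^ (3 : ℕ) * r2 * (p3 ^ (4 : ℕ) * (743936) + p3 ^ (3 : ℕ) * r3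
    * (3006464) + p3 ^ (2 : ℕ) * r3 ^ (2 : ℕ) * (4555776) + p3 * r3 ^ (3 : ℕ) * (3067904) + r3 ^ (4 : ℕ) * (774656)) +
    p2 ^ (2 : ℕ) * r2 ^ (2 : ℕ) * (p3 ^ (4 : ℕ) * (1834464) + p3 ^ (3 : ℕ) * r3 * (7517696) + p3 ^ (2 : ℕ) * r3 ^ (2 : ℕ) *
    (11508544) + p3 * r3 ^ (3 : ℕ) * (7801856) + r3 ^ (4 : ℕ) * (1976544)) + p2 * r2 ^ (3 : ℕ) * (p3 ^ (4 : ℕ) *
    (1671616) + p3 ^ (3 : ℕ) * r3 * (6953984) + p3 ^ (2 : ℕ) * r3 ^ (2 : ℕ) * (10756736) + p3 * r3 ^ (3 : ℕ) * (7337984)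
    + r3 ^ (4 : ℕ) * (1863616)) + r2 ^ (4 : ℕ) * (p3 ^ (4 : ℕ) * (522464) + p3 ^ (3 : ℕ) * r3 * (2208256) + p3 ^ (2 : ℕ) * r3
    ^ (2 : ℕ) * (3452224) + p3 * r3 ^ (3 : ℕ) * (2369536) + r3 ^ (4 : ℕ) * (603104))) + p1 ^ (3 : ℕ) * r1 * (p2 ^ (4 : ℕ) *
    (p3 ^ (4 : ℕ) * (941056) + p3 ^ (3 : ℕ) * r3 * (3764224) + p3 ^ (2 : ℕ) * r3 ^ (2 : ℕ) * (5646336) + p3 * r3 ^ (3 : ℕ) *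
    (3764224) + r3 ^ (4 : ℕ) * (941056)) + p2 ^ (3 : ℕ) * r2 * (p3 ^ (4 : ℕ) * (5759744) + p3 ^ (3 : ℕ) * r3 *
    (23197696) + p3 ^ (2 : ℕ) * r3 ^ (2 : ℕ) * (35034624) + p3 * r3 ^ (3 : ℕ) * (23515136) + r3 ^ (4 : ℕ) * (5918464)) +
    p2 ^ (2 : ℕ) * r2 ^ (2 : ℕ) * (p3 ^ (4 : ℕ) * (11450496) + p3 ^ (3 : ℕ) * r3 * (46628864) + p3 ^ (2 : ℕ) * r3 ^ (2 : ℕ) *
    (71032576) + p3 * r3 ^ (3 : ℕ) * (47980544) + r3 ^ (4 : ℕ) * (12126336)) + p2 * r2 ^ (3 : ℕ) * (p3 ^ (4 : ℕ) *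
    (9385984) + p3 ^ (3 : ℕ) * r3 * (38721536) + p3 ^ (2 : ℕ) * r3 ^ (2 : ℕ) * (59546624) + p3 * r3 ^ (3 : ℕ) *
    (40472576) + r3 ^ (4 : ℕ) * (10261504)) + r2 ^ (4 : ℕ) * (p3 ^ (4 : ℕ) * (2754176) + p3 ^ (3 : ℕ) * r3 * (11526144)
    + p3 ^ (2 : ℕ) * r3 ^ (2 : ℕ) * (17902336) + p3 * r3 ^ (3 : ℕ) * (12242944) + r3 ^ (4 : ℕ) * (3112576))) + p1 ^ (2 : ℕ) *
    r1 ^ (2 : ℕ) * (p2 ^ (4 : ℕ) * (p3 ^ (4 : ℕ) * (2423424) + p3 ^ (3 : ℕ) * r3 * (9693696) + p3 ^ (2 : ℕ) * r3 ^ (2 : ℕ) *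
    (14540544) + p3 * r3 ^ (3 : ℕ) * (9693696) + r3 ^ (4 : ℕ) * (2423424)) + p2 ^ (3 : ℕ) * r2 * (p3 ^ (4 : ℕ) *
    (12623616) + p3 ^ (3 : ℕ) * r3 * (50786304) + p3 ^ (2 : ℕ) * r3 ^ (2 : ℕ) * (76617216) + p3 * r3 ^ (3 : ℕ) *
    (51369984) + r3 ^ (4 : ℕ) * (12915456)) + p2 ^ (2 : ℕ) * r2 ^ (2 : ℕ) * (p3 ^ (4 : ℕ) * (23056704) + p3 ^ (3 : ℕ) * r3 *
    (93628416) + p3 ^ (2 : ℕ) * r3 ^ (2 : ℕ) * (142318464) + p3 * r3 ^ (3 : ℕ) * (95978496) + r3 ^ (4 : ℕ) * (24231744))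
    + p2 * r2 ^ (3 : ℕ) * (p3 ^ (4 : ℕ) * (17936256) + p3 ^ (3 : ℕ) * r3 * (73672704) + p3 ^ (2 : ℕ) * r3 ^ (2 : ℕ) *
    (112947456) + p3 * r3 ^ (3 : ℕ) * (76621824) + r3 ^ (4 : ℕ) * (19410816)) + r2 ^ (4 : ℕ) * (p3 ^ (4 : ℕ) * (5079744)
    + p3 ^ (3 : ℕ) * r3 * (21136896) + p3 ^ (2 : ℕ) * r3 ^ (2 : ℕ) * (32705664) + p3 * r3 ^ (3 : ℕ) * (22319616) + r3 ^
    (4 : ℕ) * (5671104))) + p1 * r1 ^ (3 : ℕ) * (p2 ^ (4 : ℕ) * (p3 ^ (4 : ℕ) * (2258176) + p3 ^ (3 : ℕ) * r3 * (9032704) + p3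
    ^ (2 : ℕ) * r3 ^ (2 : ℕ) * (13549056) + p3 * r3 ^ (3 : ℕ) * (9032704) + r3 ^ (4 : ℕ) * (2258176)) + p2 ^ (3 : ℕ) * r2 *
    (p3 ^ (4 : ℕ) * (10943744) + p3 ^ (3 : ℕ) * r3 * (44005376) + p3 ^ (2 : ℕ) * r3 ^ (2 : ℕ) * (66353664) + p3 * r3 ^ (3 : ℕ)
    * (44466176) + r3 ^ (4 : ℕ) * (11174144)) + p2 ^ (2 : ℕ) * r2 ^ (2 : ℕ) * (p3 ^ (4 : ℕ) * (19099776) + p3 ^ (3 : ℕ) * r3 *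
    (77441024) + p3 ^ (2 : ℕ) * r3 ^ (2 : ℕ) * (117573376) + p3 * r3 ^ (3 : ℕ) * (79222784) + r3 ^ (4 : ℕ) * (19990656))
    + p2 * r2 ^ (3 : ℕ) * (p3 ^ (4 : ℕ) * (14401024) + p3 ^ (3 : ℕ) * r3 * (58996736) + p3 ^ (2 : ℕ) * r3 ^ (2 : ℕ) *
    (90281984) + p3 * r3 ^ (3 : ℕ) * (61177856) + r3 ^ (4 : ℕ) * (15491584)) + r2 ^ (4 : ℕ) * (p3 ^ (4 : ℕ) * (3986816)
    + p3 ^ (3 : ℕ) * r3 * (16528384) + p3 ^ (2 : ℕ) * r3 ^ (2 : ℕ) * (25513216) + p3 * r3 ^ (3 : ℕ) * (17388544) + r3 ^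
    (4 : ℕ) * (4416896))) + r1 ^ (4 : ℕ) * (p2 ^ (4 : ℕ) * (p3 ^ (4 : ℕ) * (717184) + p3 ^ (3 : ℕ) * r3 * (2868736) + p3 ^ (2 : ℕ) *
    r3 ^ (2 : ℕ) * (4303104) + p3 * r3 ^ (3 : ℕ) * (2868736) + r3 ^ (4 : ℕ) * (717184)) + p2 ^ (3 : ℕ) * r2 * (p3 ^ (4 : ℕ) *
    (3335936) + p3 ^ (3 : ℕ) * r3 * (13410304) + p3 ^ (2 : ℕ) * r3 ^ (2 : ℕ) * (20215296) + p3 * r3 ^ (3 : ℕ) *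
    (13543424) + r3 ^ (4 : ℕ) * (3402496)) + p2 ^ (2 : ℕ) * r2 ^ (2 : ℕ) * (p3 ^ (4 : ℕ) * (5659104) + p3 ^ (3 : ℕ) * r3 *
    (22923776) + p3 ^ (2 : ℕ) * r3 ^ (2 : ℕ) * (34778944) + p3 * r3 ^ (3 : ℕ) * (23422976) + r3 ^ (4 : ℕ) * (5908704)) +
    p2 * r2 ^ (3 : ℕ) * (p3 ^ (4 : ℕ) * (4179136) + p3 ^ (3 : ℕ) * r3 * (17091584) + p3 ^ (2 : ℕ) * r3 ^ (2 : ℕ) * (26124416)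
    + p3 * r3 ^ (3 : ℕ) * (17690624) + r3 ^ (4 : ℕ) * (4478656)) + r2 ^ (4 : ℕ) * (p3 ^ (4 : ℕ) * (1138784) + p3 ^ (3 : ℕ) *
    r3 * (4709376) + p3 ^ (2 : ℕ) * r3 ^ (2 : ℕ) * (7257664) + p3 * r3 ^ (3 : ℕ) * (4942336) + r3 ^ (4 : ℕ) *
    (1255264)))

theorem bernlP1_nonneg {p1 r1 p2 r2 p3 r3 : ℝ} (h2 : 0 ≤ p1) (h3 : 0 ≤ r1) (h4 : 0 ≤ p2)
    (h5 : 0 ≤ r2) (h6 : 0 ≤ p3) (h7 : 0 ≤ r3) : 0 ≤ bernlP1 p1 r1 p2 r2 p3 r3 := by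
  unfold bernlP1
  positivity

/-- Part of the Bernstein form. -/
def bernlP2 (p1 r1 p2 r2 p3 r3 : ℝ) : ℝ :=
    p1 ^ (4 : ℕ) * (p2 ^ (4 : ℕ) * (p3 ^ (4 : ℕ) * (165760) + p3 ^ (3 : ℕ) * r3 * (663040) + p3 ^ (2 : ℕ) * r3 ^ (2 : ℕ) * (994560)
    + p3 * r3 ^ (3 : ℕ) * (663040) + r3 ^ (4 : ℕ) * (165760)) + p2 ^ (3 : ℕ) * r2 * (p3 ^ (4 : ℕ) * (1236544) + p3 ^ (3 : ℕ) *
    r3 * (5074432) + p3 ^ (2 : ℕ) * r3 ^ (2 : ℕ) * (7804032) + p3 * r3 ^ (3 : ℕ) * (5330944) + r3 ^ (4 : ℕ) * (1364800))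
    + p2 ^ (2 : ℕ) * r2 ^ (2 : ℕ) * (p3 ^ (4 : ℕ) * (2590768) + p3 ^ (3 : ℕ) * r3 * (10994880) + p3 ^ (2 : ℕ) * r3 ^ (2 : ℕ) *
    (17325088) + p3 * r3 ^ (3 : ℕ) * (12028608) + r3 ^ (4 : ℕ) * (3107632)) + p2 * r2 ^ (3 : ℕ) * (p3 ^ (4 : ℕ) *
    ((6410815 / 3)) + p3 ^ (3 : ℕ) * r3 * ((28271266 / 3)) + p3 ^ (2 : ℕ) * r3 ^ (2 : ℕ) * (15221696) + p3 * r3 ^
    (3 : ℕ) * ((32159486 / 3)) + r3 ^ (4 : ℕ) * ((8354849 / 3))) + r2 ^ (4 : ℕ) * (p3 ^ (4 : ℕ) * ((1850863 / 3)) + p3 ^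
    (3 : ℕ) * r3 * ((8520802 / 3)) + p3 ^ (2 : ℕ) * r3 ^ (2 : ℕ) * (4706080) + p3 * r3 ^ (3 : ℕ) * ((10077374 / 3)) + r3
    ^ (4 : ℕ) * ((2629073 / 3)))) + p1 ^ (3 : ℕ) * r1 * (p2 ^ (4 : ℕ) * (p3 ^ (4 : ℕ) * (1809920) + p3 ^ (3 : ℕ) * r3 *
    (7239680) + p3 ^ (2 : ℕ) * r3 ^ (2 : ℕ) * (10859520) + p3 * r3 ^ (3 : ℕ) * (7239680) + r3 ^ (4 : ℕ) * (1809920)) +
    p2 ^ (3 : ℕ) * r2 * (p3 ^ (4 : ℕ) * (9431616) + p3 ^ (3 : ℕ) * r3 * (38352128) + p3 ^ (2 : ℕ) * r3 ^ (2 : ℕ) * (58466688)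
    + p3 * r3 ^ (3 : ℕ) * (39603456) + r3 ^ (4 : ℕ) * (10057280)) + p2 ^ (2 : ℕ) * r2 ^ (2 : ℕ) * (p3 ^ (4 : ℕ) * (16929000) +
    p3 ^ (3 : ℕ) * r3 * (70586656) + p3 ^ (2 : ℕ) * r3 ^ (2 : ℕ) * (109724528) + p3 * r3 ^ (3 : ℕ) * (75405088) + r3 ^ (4 : ℕ)
    * (19338216)) + p2 * r2 ^ (3 : ℕ) * (p3 ^ (4 : ℕ) * ((38432428 / 3)) + p3 ^ (3 : ℕ) * r3 * ((165288520 / 3)) +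
    p3 ^ (2 : ℕ) * r3 ^ (2 : ℕ) * (87508576) + p3 * r3 ^ (3 : ℕ) * ((182915000 / 3)) + r3 ^ (4 : ℕ) * ((47245364 / 3)))
    + r2 ^ (4 : ℕ) * (p3 ^ (4 : ℕ) * ((10510516 / 3)) + p3 ^ (3 : ℕ) * r3 * ((46865896 / 3)) + p3 ^ (2 : ℕ) * r3 ^ (2 : ℕ) *
    (25391216) + p3 * r3 ^ (3 : ℕ) * ((53791064 / 3)) + r3 ^ (4 : ℕ) * ((13972796 / 3)))) + p1 ^ (2 : ℕ) * r1 ^ (2 : ℕ)
    * (p2 ^ (4 : ℕ) * (p3 ^ (4 : ℕ) * (4273344) + p3 ^ (3 : ℕ) * r3 * (17093376) + p3 ^ (2 : ℕ) * r3 ^ (2 : ℕ) * (25640064) +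
    p3 * r3 ^ (3 : ℕ) * (17093376) + r3 ^ (4 : ℕ) * (4273344)) + p2 ^ (3 : ℕ) * r2 * (p3 ^ (4 : ℕ) * (20230960) + p3 ^ (3 : ℕ)
    * r3 * (82029056) + p3 ^ (2 : ℕ) * r3 ^ (2 : ℕ) * (124701408) + p3 * r3 ^ (3 : ℕ) * (84239488) + r3 ^ (4 : ℕ) *
    (21336176)) + p2 ^ (2 : ℕ) * r2 ^ (2 : ℕ) * (p3 ^ (4 : ℕ) * (34279656) + p3 ^ (3 : ℕ) * r3 * (141933024) + p3 ^ (2 : ℕ) *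
    r3 ^ (2 : ℕ) * (219426480) + p3 * r3 ^ (3 : ℕ) * (150172512) + r3 ^ (4 : ℕ) * (38399400)) + p2 * r2 ^ (3 : ℕ) * (p3
    ^ (4 : ℕ) * (24971774) + p3 ^ (3 : ℕ) * r3 * (106183172) + p3 ^ (2 : ℕ) * r3 ^ (2 : ℕ) * (167341248) + p3 * r3 ^ (3 : ℕ) *
    (116019772) + r3 ^ (4 : ℕ) * (29889922)) + r2 ^ (4 : ℕ) * (p3 ^ (4 : ℕ) * (6649734) + p3 ^ (3 : ℕ) * r3 * (29185828)
    + p3 ^ (2 : ℕ) * r3 ^ (2 : ℕ) * (46976112) + p3 * r3 ^ (3 : ℕ) * (32993372) + r3 ^ (4 : ℕ) * (8553354))) + p1 * r1 ^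
    (3 : ℕ) * (p2 ^ (4 : ℕ) * (p3 ^ (4 : ℕ) * (3782480) + p3 ^ (3 : ℕ) * r3 * (15129920) + p3 ^ (2 : ℕ) * r3 ^ (2 : ℕ) * (22694880)
    + p3 * r3 ^ (3 : ℕ) * (15129920) + r3 ^ (4 : ℕ) * (3782480)) + p2 ^ (3 : ℕ) * r2 * (p3 ^ (4 : ℕ) * (17123296) + p3 ^
    (3 : ℕ) * r3 * (69339648) + p3 ^ (2 : ℕ) * r3 ^ (2 : ℕ) * (105279168) + p3 * r3 ^ (3 : ℕ) * (71032576) + r3 ^ (4 : ℕ) *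
    (17969760)) + p2 ^ (2 : ℕ) * r2 ^ (2 : ℕ) * (p3 ^ (4 : ℕ) * (28150456) + p3 ^ (3 : ℕ) * r3 * (116145888) + p3 ^ (2 : ℕ) *
    r3 ^ (2 : ℕ) * (179070160) + p3 * r3 ^ (3 : ℕ) * (122304480) + r3 ^ (4 : ℕ) * (31229752)) + p2 * r2 ^ (3 : ℕ) * (p3
    ^ (4 : ℕ) * ((60206764 / 3)) + p3 ^ (3 : ℕ) * r3 * ((254439112 / 3)) + p3 ^ (2 : ℕ) * r3 ^ (2 : ℕ) * (133103840) +
    p3 * r3 ^ (3 : ℕ) * ((276132152 / 3)) + r3 ^ (4 : ℕ) * ((71052980 / 3))) + r2 ^ (4 : ℕ) * (p3 ^ (4 : ℕ) * ((15777844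
    / 3)) + p3 ^ (3 : ℕ) * r3 * ((68630632 / 3)) + p3 ^ (2 : ℕ) * r3 ^ (2 : ℕ) * (36617968) + p3 * r3 ^ (3 : ℕ) *
    ((76926680 / 3)) + r3 ^ (4 : ℕ) * ((19925564 / 3)))) + r1 ^ (4 : ℕ) * (p2 ^ (4 : ℕ) * (p3 ^ (4 : ℕ) * (1153296) + p3
    ^ (3 : ℕ) * r3 * (4613184) + p3 ^ (2 : ℕ) * r3 ^ (2 : ℕ) * (6919776) + p3 * r3 ^ (3 : ℕ) * (4613184) + r3 ^ (4 : ℕ) *
    (1153296)) + p2 ^ (3 : ℕ) * r2 * (p3 ^ (4 : ℕ) * (5087408) + p3 ^ (3 : ℕ) * r3 * (20588288) + p3 ^ (2 : ℕ) * r3 ^ (2 : ℕ)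
    * (31240416) + p3 * r3 ^ (3 : ℕ) * (21065600) + r3 ^ (4 : ℕ) * (5326064)) + p2 ^ (2 : ℕ) * r2 ^ (2 : ℕ) * (p3 ^ (4 : ℕ) *
    (8209032) + p3 ^ (3 : ℕ) * r3 * (33804640) + p3 ^ (2 : ℕ) * r3 ^ (2 : ℕ) * (52043120) + p3 * r3 ^ (3 : ℕ) *
    (35508448) + r3 ^ (4 : ℕ) * (9060936)) + p2 * r2 ^ (3 : ℕ) * (p3 ^ (4 : ℕ) * ((17313055 / 3)) + p3 ^ (3 : ℕ) * r3 *
    ((72906850 / 3)) + p3 ^ (2 : ℕ) * r3 ^ (2 : ℕ) * (38049472) + p3 * r3 ^ (3 : ℕ) * ((78828350 / 3)) + r3 ^ (4 : ℕ) *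
    ((20273729 / 3))) + r2 ^ (4 : ℕ) * (p3 ^ (4 : ℕ) * ((4488295 / 3)) + p3 ^ (3 : ℕ) * r3 * ((19418242 / 3)) + p3
    ^ (2 : ℕ) * r3 ^ (2 : ℕ) * (10326992) + p3 * r3 ^ (3 : ℕ) * ((21660254 / 3)) + r3 ^ (4 : ℕ) * ((5609225 / 3))))

theorem bernlP2_nonneg {p1 r1 p2 r2 p3 r3 : ℝ} (h2 : 0 ≤ p1) (h3 : 0 ≤ r1) (h4 : 0 ≤ p2)
    (h5 : 0 ≤ r2) (h6 : 0 ≤ p3) (h7 : 0 ≤ r3) : 0 ≤ bernlP2 p1 r1 p2 r2 p3 r3 := by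
  unfold bernlP2
  positivity

/-- Part of the Bernstein form. -/
def bernlP3 (p1 r1 p2 r2 p3 r3 : ℝ) : ℝ :=
    p1 ^ (4 : ℕ) * (p2 ^ (4 : ℕ) * (p3 ^ (4 : ℕ) * ((743784 / 5)) + p3 ^ (3 : ℕ) * r3 * ((2975136 / 5)) + p3 ^ (2 : ℕ) * r3 ^
    (2 : ℕ) * ((4462704 / 5)) + p3 * r3 ^ (3 : ℕ) * ((2975136 / 5)) + r3 ^ (4 : ℕ) * ((743784 / 5))) + p2 ^ (3 : ℕ) * r2
    * (p3 ^ (4 : ℕ) * (830064) + p3 ^ (3 : ℕ) * r3 * (3487232) + p3 ^ (2 : ℕ) * r3 ^ (2 : ℕ) * (5481312) + p3 * r3 ^ (3 : ℕ) *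
    (3821184) + r3 ^ (4 : ℕ) * (997040)) + p2 ^ (2 : ℕ) * r2 ^ (2 : ℕ) * (p3 ^ (4 : ℕ) * ((7424978 / 5)) + p3 ^ (3 : ℕ) * r3 *
    (6671496) + p3 ^ (2 : ℕ) * r3 ^ (2 : ℕ) * ((54934604 / 5)) + p3 * r3 ^ (3 : ℕ) * (7899336) + r3 ^ (4 : ℕ) *
    ((10494578 / 5))) + p2 * r2 ^ (3 : ℕ) * (p3 ^ (4 : ℕ) * ((5393628 / 5)) + p3 ^ (3 : ℕ) * r3 * (5271466) + p3 ^
    (2 : ℕ) * r3 ^ (2 : ℕ) * (9110906) + p3 * r3 ^ (3 : ℕ) * (6722302) + r3 ^ (4 : ℕ) * ((9020682 / 5))) + r2 ^ (4 : ℕ) * (p3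
    ^ (4 : ℕ) * ((175983333 / 640)) + p3 ^ (3 : ℕ) * r3 * ((238729083 / 160)) + p3 ^ (2 : ℕ) * r3 ^ (2 : ℕ) *
    ((868053263 / 320)) + p3 * r3 ^ (3 : ℕ) * ((327851163 / 160)) + r3 ^ (4 : ℕ) * ((354226213 / 640)))) +
    p1 ^ (3 : ℕ) * r1 * (p2 ^ (4 : ℕ) * (p3 ^ (4 : ℕ) * ((6898912 / 5)) + p3 ^ (3 : ℕ) * r3 * ((27595648 / 5)) + p3 ^ (2 : ℕ)
    * r3 ^ (2 : ℕ) * ((41393472 / 5)) + p3 * r3 ^ (3 : ℕ) * ((27595648 / 5)) + r3 ^ (4 : ℕ) * ((6898912 / 5))) +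
    p2 ^ (3 : ℕ) * r2 * (p3 ^ (4 : ℕ) * ((31908664 / 5)) + p3 ^ (3 : ℕ) * r3 * ((131572896 / 5)) + p3 ^ (2 : ℕ) * r3 ^ (2 : ℕ)
    * ((203266704 / 5)) + p3 * r3 ^ (3 : ℕ) * ((139449376 / 5)) + r3 ^ (4 : ℕ) * ((35846904 / 5))) + p2 ^ (2 : ℕ)
    * r2 ^ (2 : ℕ) * (p3 ^ (4 : ℕ) * ((51989574 / 5)) + p3 ^ (3 : ℕ) * r3 * ((224436328 / 5)) + p3 ^ (2 : ℕ) * r3 ^ (2 : ℕ) *
    ((359002724 / 5)) + p3 * r3 ^ (3 : ℕ) * (50530952) + r3 ^ (4 : ℕ) * (13219758)) + p2 * r2 ^ (3 : ℕ) * (p3 ^ (4 : ℕ)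
    * ((35927196 / 5)) + p3 ^ (3 : ℕ) * r3 * ((164738792 / 5)) + p3 ^ (2 : ℕ) * r3 ^ (2 : ℕ) * ((273997066 / 5)) +
    p3 * r3 ^ (3 : ℕ) * ((197486244 / 5)) + r3 ^ (4 : ℕ) * ((52300774 / 5))) + r2 ^ (4 : ℕ) * (p3 ^ (4 : ℕ) *
    ((286275493 / 160)) + p3 ^ (3 : ℕ) * r3 * ((354218811 / 40)) + p3 ^ (2 : ℕ) * r3 ^ (2 : ℕ) * ((1229852399 /
    80)) + p3 * r3 ^ (3 : ℕ) * ((453473211 / 40)) + r3 ^ (4 : ℕ) * ((96956577 / 32)))) + p1 ^ (2 : ℕ) * r1 ^ (2 : ℕ) *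
    (p2 ^ (4 : ℕ) * (p3 ^ (4 : ℕ) * ((15321576 / 5)) + p3 ^ (3 : ℕ) * r3 * ((61286304 / 5)) + p3 ^ (2 : ℕ) * r3 ^ (2 : ℕ) *
    ((91929456 / 5)) + p3 * r3 ^ (3 : ℕ) * ((61286304 / 5)) + r3 ^ (4 : ℕ) * ((15321576 / 5))) + p2 ^ (3 : ℕ) * r2
    * (p3 ^ (4 : ℕ) * ((67198948 / 5)) + p3 ^ (3 : ℕ) * r3 * ((275577904 / 5)) + p3 ^ (2 : ℕ) * r3 ^ (2 : ℕ) *
    ((423540024 / 5)) + p3 * r3 ^ (3 : ℕ) * ((289142128 / 5)) + r3 ^ (4 : ℕ) * (14796212)) + p2 ^ (2 : ℕ) * r2 ^ (2 : ℕ)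
    * (p3 ^ (4 : ℕ) * (21203578) + p3 ^ (3 : ℕ) * r3 * ((451490462 / 5)) + p3 ^ (2 : ℕ) * r3 ^ (2 : ℕ) * (142957020) +
    p3 * r3 ^ (3 : ℕ) * ((499170374 / 5)) + r3 ^ (4 : ℕ) * ((129857846 / 5))) + p2 * r2 ^ (3 : ℕ) * (p3 ^ (4 : ℕ) *
    (14368688) + p3 ^ (3 : ℕ) * r3 * ((321697288 / 5)) + p3 ^ (2 : ℕ) * r3 ^ (2 : ℕ) * ((526996362 / 5)) + p3 * r3
    ^ (3 : ℕ) * ((376274164 / 5)) + r3 ^ (4 : ℕ) * (19826330)) + r2 ^ (4 : ℕ) * (p3 ^ (4 : ℕ) * ((1132865583 / 320)) +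
    p3 ^ (3 : ℕ) * r3 * ((1351918161 / 80)) + p3 ^ (2 : ℕ) * r3 ^ (2 : ℕ) * ((920442441 / 32)) + p3 * r3 ^ (3 : ℕ) *
    ((1679328369 / 80)) + r3 ^ (4 : ℕ) * ((1787681391 / 320)))) + p1 * r1 ^ (3 : ℕ) * (p2 ^ (4 : ℕ) * (p3 ^ (4 : ℕ) *
    ((12951272 / 5)) + p3 ^ (3 : ℕ) * r3 * ((51805088 / 5)) + p3 ^ (2 : ℕ) * r3 ^ (2 : ℕ) * ((77707632 / 5)) + p3
    * r3 ^ (3 : ℕ) * ((51805088 / 5)) + r3 ^ (4 : ℕ) * ((12951272 / 5))) + p2 ^ (3 : ℕ) * r2 * (p3 ^ (4 : ℕ) *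
    ((166176674 / 15)) + p3 ^ (3 : ℕ) * r3 * ((679975952 / 15)) + p3 ^ (2 : ℕ) * r3 ^ (2 : ℕ) * ((347622604 / 5))
    + p3 * r3 ^ (3 : ℕ) * ((710514464 / 15)) + r3 ^ (4 : ℕ) * ((36289186 / 3))) + p2 ^ (2 : ℕ) * r2 ^ (2 : ℕ) * (p3 ^ (4 : ℕ)
    * ((85945772 / 5)) + p3 ^ (3 : ℕ) * r3 * ((363819252 / 5)) + p3 ^ (2 : ℕ) * r3 ^ (2 : ℕ) * ((573379808 / 5)) +
    p3 * r3 ^ (3 : ℕ) * ((399084948 / 5)) + r3 ^ (4 : ℕ) * (20715724)) + p2 * r2 ^ (3 : ℕ) * (p3 ^ (4 : ℕ) * ((57599166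
    / 5)) + p3 ^ (3 : ℕ) * r3 * ((255087152 / 5)) + p3 ^ (2 : ℕ) * r3 ^ (2 : ℕ) * (82988474) + p3 * r3 ^ (3 : ℕ) *
    ((295019636 / 5)) + r3 ^ (4 : ℕ) * ((77565252 / 5))) + r2 ^ (4 : ℕ) * (p3 ^ (4 : ℕ) * ((270587171 / 96)) + p3
    ^ (3 : ℕ) * r3 * ((1586858449 / 120)) + p3 ^ (2 : ℕ) * r3 ^ (2 : ℕ) * ((1783611759 / 80)) + p3 * r3 ^ (3 : ℕ) *
    ((1943200657 / 120)) + r3 ^ (4 : ℕ) * ((2065615279 / 480)))) + r1 ^ (4 : ℕ) * (p2 ^ (4 : ℕ) * (p3 ^ (4 : ℕ) *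
    ((4539853 / 6)) + p3 ^ (3 : ℕ) * r3 * ((9079706 / 3)) + p3 ^ (2 : ℕ) * r3 ^ (2 : ℕ) * (4539853) + p3 * r3 ^ (3 : ℕ)
    * ((9079706 / 3)) + r3 ^ (4 : ℕ) * ((4539853 / 6))) + p2 ^ (3 : ℕ) * r2 * (p3 ^ (4 : ℕ) * ((15945168 / 5)) +
    p3 ^ (3 : ℕ) * r3 * ((65191672 / 5)) + p3 ^ (2 : ℕ) * r3 ^ (2 : ℕ) * ((99904008 / 5)) + p3 * r3 ^ (3 : ℕ) *
    ((68013672 / 5)) + r3 ^ (4 : ℕ) * ((17356168 / 5))) + p2 ^ (2 : ℕ) * r2 ^ (2 : ℕ) * (p3 ^ (4 : ℕ) * ((24482799 / 5))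
    + p3 ^ (3 : ℕ) * r3 * ((103368922 / 5)) + p3 ^ (2 : ℕ) * r3 ^ (2 : ℕ) * ((162604754 / 5)) + p3 * r3 ^ (3 : ℕ) *
    ((113033938 / 5)) + r3 ^ (4 : ℕ) * ((29315307 / 5))) + p2 * r2 ^ (3 : ℕ) * (p3 ^ (4 : ℕ) * ((48848524 / 15)) +
    p3 ^ (3 : ℕ) * r3 * ((215236546 / 15)) + p3 ^ (2 : ℕ) * r3 ^ (2 : ℕ) * ((116349828 / 5)) + p3 * r3 ^ (3 : ℕ) *
    ((247783186 / 15)) + r3 ^ (4 : ℕ) * ((65121724 / 15))) + r2 ^ (4 : ℕ) * (p3 ^ (4 : ℕ) * ((507095461 / 640)) +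
    p3 ^ (3 : ℕ) * r3 * ((589914619 / 160)) + p3 ^ (2 : ℕ) * r3 ^ (2 : ℕ) * ((1980759503 / 320)) + p3 * r3 ^ (3 : ℕ) *
    ((718112667 / 160)) + r3 ^ (4 : ℕ) * ((152697953 / 128))))

theorem bernlP3_nonneg {p1 r1 p2 r2 p3 r3 : ℝ} (h2 : 0 ≤ p1) (h3 : 0 ≤ r1) (h4 : 0 ≤ p2)
    (h5 : 0 ≤ r2) (h6 : 0 ≤ p3) (h7 : 0 ≤ r3) : 0 ≤ bernlP3 p1 r1 p2 r2 p3 r3 := by
  unfold bernlP3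
  positivity

/-- Part of the Bernstein form. -/
def bernlP4 (p1 r1 p2 r2 p3 r3 : ℝ) : ℝ :=
    p1 ^ (4 : ℕ) * (p2 ^ (4 : ℕ) * (p3 ^ (4 : ℕ) * ((9001920191 / 256000)) + p3 ^ (3 : ℕ) * r3 * ((9001920191 / 64000))
    + p3 ^ (2 : ℕ) * r3 ^ (2 : ℕ) * ((27005760573 / 128000)) + p3 * r3 ^ (3 : ℕ) * ((9001920191 / 64000)) + r3 ^ (4 : ℕ)
    * ((9001920191 / 256000))) + p2 ^ (3 : ℕ) * r2 * (p3 ^ (4 : ℕ) * ((10113779391 / 64000)) + p3 ^ (3 : ℕ) * r3 *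
    ((11224819391 / 16000)) + p3 ^ (2 : ℕ) * r3 ^ (2 : ℕ) * ((37007578173 / 32000)) + p3 * r3 ^ (3 : ℕ) *
    ((13446899391 / 16000)) + r3 ^ (4 : ℕ) * ((14557939391 / 64000))) + p2 ^ (2 : ℕ) * r2 ^ (2 : ℕ) * (p3 ^ (4 : ℕ) *
    ((29331110973 / 128000)) + p3 ^ (3 : ℕ) * r3 * ((38276570173 / 32000)) + p3 ^ (2 : ℕ) * r3 ^ (2 : ℕ) *
    ((139079873719 / 64000)) + p3 * r3 ^ (3 : ℕ) * ((53581274173 / 32000)) + r3 ^ (4 : ℕ) * ((59940518973 /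
    128000))) + p2 * r2 ^ (3 : ℕ) * (p3 ^ (4 : ℕ) * ((24340813373 / 192000)) + p3 ^ (3 : ℕ) * r3 * ((41048730173 /
    48000)) + p3 ^ (2 : ℕ) * r3 ^ (2 : ℕ) * ((55237658173 / 32000)) + p3 * r3 ^ (3 : ℕ) * ((66909338173 / 48000))
    + r3 ^ (4 : ℕ) * ((76065510973 / 192000))) + r2 ^ (4 : ℕ) * (p3 ^ (4 : ℕ) * ((15687609773 / 768000)) + p3 ^ (3 : ℕ)
    * r3 * ((42204909773 / 192000)) + p3 ^ (2 : ℕ) * r3 ^ (2 : ℕ) * ((63803923373 / 128000)) + p3 * r3 ^ (3 : ℕ) *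
    ((80496557773 / 192000)) + r3 ^ (4 : ℕ) * ((92288825773 / 768000)))) + p1 ^ (3 : ℕ) * r1 * (p2 ^ (4 : ℕ) * (p3
    ^ (4 : ℕ) * ((21215372991 / 64000)) + p3 ^ (3 : ℕ) * r3 * ((21215372991 / 16000)) + p3 ^ (2 : ℕ) * r3 ^ (2 : ℕ) *
    ((63646118973 / 32000)) + p3 * r3 ^ (3 : ℕ) * ((21215372991 / 16000)) + r3 ^ (4 : ℕ) * ((21215372991 /
    64000))) + p2 ^ (3 : ℕ) * r2 * (p3 ^ (4 : ℕ) * ((22043968191 / 16000)) + p3 ^ (3 : ℕ) * r3 * ((23326784191 /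
    4000)) + p3 ^ (2 : ℕ) * r3 ^ (2 : ℕ) * ((73828800573 / 8000)) + p3 * r3 ^ (3 : ℕ) * ((25892416191 / 4000)) +
    r3 ^ (4 : ℕ) * ((27175232191 / 16000))) + p2 ^ (2 : ℕ) * r2 ^ (2 : ℕ) * (p3 ^ (4 : ℕ) * ((63988531773 / 32000)) + p3
    ^ (3 : ℕ) * r3 * ((74003174973 / 8000)) + p3 ^ (2 : ℕ) * r3 ^ (2 : ℕ) * ((249439643319 / 16000)) + p3 * r3 ^ (3 : ℕ)
    * ((91418650173 / 8000)) + r3 ^ (4 : ℕ) * ((98819482173 / 32000))) + p2 * r2 ^ (3 : ℕ) * (p3 ^ (4 : ℕ) *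
    ((57585651773 / 48000)) + p3 ^ (3 : ℕ) * r3 * ((75953638973 / 12000)) + p3 ^ (2 : ℕ) * r3 ^ (2 : ℕ) *
    ((91775875773 / 8000)) + p3 * r3 ^ (3 : ℕ) * ((105054083773 / 12000)) + r3 ^ (4 : ℕ) * ((115789984573 /
    48000))) + r2 ^ (4 : ℕ) * (p3 ^ (4 : ℕ) * ((47244345773 / 192000)) + p3 ^ (3 : ℕ) * r3 * ((76048135373 /
    48000)) + p3 ^ (2 : ℕ) * r3 ^ (2 : ℕ) * ((99881785773 / 32000)) + p3 * r3 ^ (3 : ℕ) * ((118757127373 / 48000))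
    + r3 ^ (4 : ℕ) * ((132680096173 / 192000)))) + p1 ^ (2 : ℕ) * r1 ^ (2 : ℕ) * (p2 ^ (4 : ℕ) * (p3 ^ (4 : ℕ) * ((91501171773
    / 128000)) + p3 ^ (3 : ℕ) * r3 * ((91501171773 / 32000)) + p3 ^ (2 : ℕ) * r3 ^ (2 : ℕ) * ((274503515319 /
    64000)) + p3 * r3 ^ (3 : ℕ) * ((91501171773 / 32000)) + r3 ^ (4 : ℕ) * ((91501171773 / 128000))) + p2 ^
    (3 : ℕ) * r2 * (p3 ^ (4 : ℕ) * ((93205645373 / 32000)) + p3 ^ (3 : ℕ) * r3 * ((97550016573 / 8000)) + p3 ^ (2 : ℕ) *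
    r3 ^ (2 : ℕ) * ((305683163319 / 16000)) + p3 * r3 ^ (3 : ℕ) * ((106238758973 / 8000)) + r3 ^ (4 : ℕ) *
    ((110583130173 / 32000))) + p2 ^ (2 : ℕ) * r2 ^ (2 : ℕ) * (p3 ^ (4 : ℕ) * ((269988622519 / 64000)) + p3 ^ (3 : ℕ) *
    r3 * ((303124308919 / 16000)) + p3 ^ (2 : ℕ) * r3 ^ (2 : ℕ) * ((1000853803557 / 32000)) + p3 * r3 ^ (3 : ℕ) *
    ((361469499319 / 16000)) + r3 ^ (4 : ℕ) * ((386679003319 / 64000))) + p2 * r2 ^ (3 : ℕ) * (p3 ^ (4 : ℕ) *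
    ((82246426173 / 32000)) + p3 ^ (3 : ℕ) * r3 * ((102216902973 / 8000)) + p3 ^ (2 : ℕ) * r3 ^ (2 : ℕ) *
    ((358842644919 / 16000)) + p3 * r3 ^ (3 : ℕ) * ((134440064573 / 8000)) + r3 ^ (4 : ℕ) * ((146696154173 /
    32000))) + r2 ^ (4 : ℕ) * (p3 ^ (4 : ℕ) * ((70281299373 / 128000)) + p3 ^ (3 : ℕ) * r3 * ((101295226573 /
    32000)) + p3 ^ (2 : ℕ) * r3 ^ (2 : ℕ) * ((381857568519 / 64000)) + p3 * r3 ^ (3 : ℕ) * ((148264941773 /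
    32000)) + r3 ^ (4 : ℕ) * ((164238342573 / 128000)))) + p1 * r1 ^ (3 : ℕ) * (p2 ^ (4 : ℕ) * (p3 ^ (4 : ℕ) *
    ((37076620991 / 64000)) + p3 ^ (3 : ℕ) * r3 * ((37076620991 / 16000)) + p3 ^ (2 : ℕ) * r3 ^ (2 : ℕ) *
    ((111229862973 / 32000)) + p3 * r3 ^ (3 : ℕ) * ((37076620991 / 16000)) + r3 ^ (4 : ℕ) * ((37076620991 /
    64000))) + p2 ^ (3 : ℕ) * r2 * (p3 ^ (4 : ℕ) * ((112223046973 / 48000)) + p3 ^ (3 : ℕ) * r3 * ((117045683773 /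
    12000)) + p3 ^ (2 : ℕ) * r3 ^ (2 : ℕ) * ((121868320573 / 8000)) + p3 * r3 ^ (3 : ℕ) * ((126690957373 / 12000))
    + r3 ^ (4 : ℕ) * ((131513594173 / 48000))) + p2 ^ (2 : ℕ) * r2 ^ (2 : ℕ) * (p3 ^ (4 : ℕ) * ((108016166973 / 32000))
    + p3 ^ (3 : ℕ) * r3 * ((120056877373 / 8000)) + p3 ^ (2 : ℕ) * r3 ^ (2 : ℕ) * ((393621800119 / 16000)) + p3 *
    r3 ^ (3 : ℕ) * ((141467334973 / 8000)) + r3 ^ (4 : ℕ) * ((150837082173 / 32000))) + p2 * r2 ^ (3 : ℕ) * (p3 ^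
    (4 : ℕ) * ((98986707773 / 48000)) + p3 ^ (3 : ℕ) * r3 * ((120507334973 / 12000)) + p3 ^ (2 : ℕ) * r3 ^ (2 : ℕ) *
    ((139426730173 / 8000)) + p3 * r3 ^ (3 : ℕ) * ((155746576573 / 12000)) + r3 ^ (4 : ℕ) * ((169468557373 /
    48000))) + r2 ^ (4 : ℕ) * (p3 ^ (4 : ℕ) * ((28487861391 / 64000)) + p3 ^ (3 : ℕ) * r3 * ((39539428591 /
    16000)) + p3 ^ (2 : ℕ) * r3 ^ (2 : ℕ) * ((146695225773 / 32000)) + p3 * r3 ^ (3 : ℕ) * ((169706080973 /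
    48000)) + r3 ^ (4 : ℕ) * ((187656633773 / 192000)))) + r1 ^ (4 : ℕ) * (p2 ^ (4 : ℕ) * (p3 ^ (4 : ℕ) * ((123243354173
    / 768000)) + p3 ^ (3 : ℕ) * r3 * ((123243354173 / 192000)) + p3 ^ (2 : ℕ) * r3 ^ (2 : ℕ) * ((123243354173 /
    128000)) + p3 * r3 ^ (3 : ℕ) * ((123243354173 / 192000)) + r3 ^ (4 : ℕ) * ((123243354173 / 768000))) +
    p2 ^ (3 : ℕ) * r2 * (p3 ^ (4 : ℕ) * ((41198937791 / 64000)) + p3 ^ (3 : ℕ) * r3 * ((42960601791 / 16000)) + p3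
    ^ (2 : ℕ) * r3 ^ (2 : ℕ) * ((134166797373 / 32000)) + p3 * r3 ^ (3 : ℕ) * ((46483929791 / 16000)) + r3 ^ (4 : ℕ) *
    ((48245593791 / 64000))) + p2 ^ (2 : ℕ) * r2 ^ (2 : ℕ) * (p3 ^ (4 : ℕ) * ((118462656573 / 128000)) + p3 ^ (3 : ℕ) *
    r3 * ((131467238973 / 32000)) + p3 ^ (2 : ℕ) * r3 ^ (2 : ℕ) * ((430714945719 / 64000)) + p3 * r3 ^ (3 : ℕ) *
    ((154775885373 / 32000)) + r3 ^ (4 : ℕ) * ((165079949373 / 128000))) + p2 * r2 ^ (3 : ℕ) * (p3 ^ (4 : ℕ) *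
    ((108222285373 / 192000)) + p3 ^ (3 : ℕ) * r3 * ((131245965373 / 48000)) + p3 ^ (2 : ℕ) * r3 ^ (2 : ℕ) *
    ((151639693373 / 32000)) + p3 * r3 ^ (3 : ℕ) * ((56468377791 / 16000)) + r3 ^ (4 : ℕ) * ((61514649791 /
    64000))) + r2 ^ (4 : ℕ) * (p3 ^ (4 : ℕ) * ((93208531373 / 768000)) + p3 ^ (3 : ℕ) * r3 * ((128441632973 /
    192000)) + p3 ^ (2 : ℕ) * r3 ^ (2 : ℕ) * ((158541203373 / 128000)) + p3 * r3 ^ (3 : ℕ) * ((183518842573 /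
    192000)) + r3 ^ (4 : ℕ) * ((203380256173 / 768000))))

theorem bernlP4_nonneg {p1 r1 p2 r2 p3 r3 : ℝ} (h2 : 0 ≤ p1) (h3 : 0 ≤ r1) (h4 : 0 ≤ p2)
    (h5 : 0 ≤ r2) (h6 : 0 ≤ p3) (h7 : 0 ≤ r3) : 0 ≤ bernlP4 p1 r1 p2 r2 p3 r3 := by
  unfold bernlP4
  positivity

/-- Bernstein form of the certificate. -/
def bernlP (p0 r0 p1 r1 p2 r2 p3 r3 : ℝ) : ℝ :=
    p0 ^ (4 : ℕ) * bernlP0 p1 r1 p2 r2 p3 r3 + p0 ^ (3 : ℕ) * r0 * bernlP1 p1 r1 p2 r2 p3 r3 + p0 ^ (2 : ℕ) * r0 ^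
    (2 : ℕ) * bernlP2 p1 r1 p2 r2 p3 r3 + p0 * r0 ^ (3 : ℕ) * bernlP3 p1 r1 p2 r2 p3 r3 + r0 ^ (4 : ℕ) * bernlP4
    p1 r1 p2 r2 p3 r3

theorem bernlP_nonneg {p0 r0 p1 r1 p2 r2 p3 r3 : ℝ} (h0 : 0 ≤ p0) (h1 : 0 ≤ r0) (h2 : 0 ≤ p1)
    (h3 : 0 ≤ r1) (h4 : 0 ≤ p2) (h5 : 0 ≤ r2) (h6 : 0 ≤ p3) (h7 : 0 ≤ r3) :
    0 ≤ bernlP p0 r0 p1 r1 p2 r2 p3 r3 := by
  have e0 := bernlP0_nonneg h2 h3 h4 h5 h6 h7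
  have e1 := bernlP1_nonneg h2 h3 h4 h5 h6 h7
  have e2 := bernlP2_nonneg h2 h3 h4 h5 h6 h7
  have e3 := bernlP3_nonneg h2 h3 h4 h5 h6 h7
  have e4 := bernlP4_nonneg h2 h3 h4 h5 h6 h7
  unfold bernlP
  positivity

theorem caselP {u a o g : ℝ} (u0 : 0 ≤ u) (u1 : u ≤ 1 / 10) (a0 : 0 ≤ a) (a1 : a ≤ (1 / 2))
    (o0 : 0 ≤ o) (o1 : o ≤ 1 / 2) (g0 : -(1 / 2) ≤ g) (g1 : g ≤ 1 / 2) :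
    qX u a o g + 1 / 25 * qW u a o g + 1 / 25 * qL u a o g + 1 / 1000 * u - 3 / 25 * o - 3 / 25 * a ≤ 0 := by
  have h := bernlP_nonneg (p0 := ((1 / 10) - u)) (r0 := (u - 0)) (p1 := ((1 / 2) - a)) (r1 := (a - 0))
    (p2 := ((1 / 2) - o)) (r2 := (o - 0)) (p3 := ((1 / 2) - g)) (r3 := (g - (-1 / 2)))
    (by linarith) (by linarith) (by linarith) (by linarith) (by linarith) (by linarith)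
    (by linarith) (by linarith)
  refine neg_nonneg.1 (h.trans_eq ?_)
  unfold bernlP bernlP0 bernlP1 bernlP2 bernlP3 bernlP4 qX qW qL
  ring

end Vale.P154.PS
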