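import Vale.Agent.P154.Pois.Forms

/-!
# Three states: certificate lN on its box
-/

noncomputable section

namespace Vale.P154.PS

set_option maxHeartbeats 4000000

/-- Part of the Bernstein form. -/
def bernlN0 (p1 r1 p2 r2 p3 r3 : ℝ) : ℝ :=
    p1 ^ (4 : ℕ) * (p2 ^ (4 : ℕ) * (p3 ^ (4 : ℕ) * (102400) + p3 ^ (3 : ℕ) * r3 * (409600) + p3 ^ (2 : ℕ) * r3 ^ (2 : ℕ) * (614400)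
    + p3 * r3 ^ (3 : ℕ) * (409600) + r3 ^ (4 : ℕ) * (102400)) + p2 ^ (3 : ℕ) * r2 * (p3 ^ (4 : ℕ) * (563200) + p3 ^ (3 : ℕ) *
    r3 * (2252800) + p3 ^ (2 : ℕ) * r3 ^ (2 : ℕ) * (3379200) + p3 * r3 ^ (3 : ℕ) * (2252800) + r3 ^ (4 : ℕ) * (563200))
    + p2 ^ (2 : ℕ) * r2 ^ (2 : ℕ) * (p3 ^ (4 : ℕ) * (1075200) + p3 ^ (3 : ℕ) * r3 * (4300800) + p3 ^ (2 : ℕ) * r3 ^ (2 : ℕ) *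
    (6451200) + p3 * r3 ^ (3 : ℕ) * (4300800) + r3 ^ (4 : ℕ) * (1075200)) + p2 * r2 ^ (3 : ℕ) * (p3 ^ (4 : ℕ) * (870400)
    + p3 ^ (3 : ℕ) * r3 * (3481600) + p3 ^ (2 : ℕ) * r3 ^ (2 : ℕ) * (5222400) + p3 * r3 ^ (3 : ℕ) * (3481600) + r3 ^ (4 : ℕ) *
    (870400)) + r2 ^ (4 : ℕ) * (p3 ^ (4 : ℕ) * (256000) + p3 ^ (3 : ℕ) * r3 * (1024000) + p3 ^ (2 : ℕ) * r3 ^ (2 : ℕ) *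
    (1536000) + p3 * r3 ^ (3 : ℕ) * (1024000) + r3 ^ (4 : ℕ) * (256000))) + p1 ^ (3 : ℕ) * r1 * (p2 ^ (4 : ℕ) * (p3 ^ (4 : ℕ)
    * (307200) + p3 ^ (3 : ℕ) * r3 * (1228800) + p3 ^ (2 : ℕ) * r3 ^ (2 : ℕ) * (1843200) + p3 * r3 ^ (3 : ℕ) * (1228800)
    + r3 ^ (4 : ℕ) * (307200)) + p2 ^ (3 : ℕ) * r2 * (p3 ^ (4 : ℕ) * (1843200) + p3 ^ (3 : ℕ) * r3 * (7372800) + p3 ^ (2 : ℕ)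
    * r3 ^ (2 : ℕ) * (11059200) + p3 * r3 ^ (3 : ℕ) * (7372800) + r3 ^ (4 : ℕ) * (1843200)) + p2 ^ (2 : ℕ) * r2 ^ (2 : ℕ) *
    (p3 ^ (4 : ℕ) * (3686400) + p3 ^ (3 : ℕ) * r3 * (14745600) + p3 ^ (2 : ℕ) * r3 ^ (2 : ℕ) * (22118400) + p3 * r3 ^ (3 : ℕ)
    * (14745600) + r3 ^ (4 : ℕ) * (3686400)) + p2 * r2 ^ (3 : ℕ) * (p3 ^ (4 : ℕ) * (3072000) + p3 ^ (3 : ℕ) * r3 *
    (12288000) + p3 ^ (2 : ℕ) * r3 ^ (2 : ℕ) * (18432000) + p3 * r3 ^ (3 : ℕ) * (12288000) + r3 ^ (4 : ℕ) * (3072000)) +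
    r2 ^ (4 : ℕ) * (p3 ^ (4 : ℕ) * (921600) + p3 ^ (3 : ℕ) * r3 * (3686400) + p3 ^ (2 : ℕ) * r3 ^ (2 : ℕ) * (5529600) + p3 *
    r3 ^ (3 : ℕ) * (3686400) + r3 ^ (4 : ℕ) * (921600))) + p1 ^ (2 : ℕ) * r1 ^ (2 : ℕ) * (p2 ^ (4 : ℕ) * (p3 ^ (4 : ℕ) * (307200) +
    p3 ^ (3 : ℕ) * r3 * (1228800) + p3 ^ (2 : ℕ) * r3 ^ (2 : ℕ) * (1843200) + p3 * r3 ^ (3 : ℕ) * (1228800) + r3 ^ (4 : ℕ) *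
    (307200)) + p2 ^ (3 : ℕ) * r2 * (p3 ^ (4 : ℕ) * (2150400) + p3 ^ (3 : ℕ) * r3 * (8601600) + p3 ^ (2 : ℕ) * r3 ^ (2 : ℕ) *
    (12902400) + p3 * r3 ^ (3 : ℕ) * (8601600) + r3 ^ (4 : ℕ) * (2150400)) + p2 ^ (2 : ℕ) * r2 ^ (2 : ℕ) * (p3 ^ (4 : ℕ) *
    (4608000) + p3 ^ (3 : ℕ) * r3 * (18432000) + p3 ^ (2 : ℕ) * r3 ^ (2 : ℕ) * (27648000) + p3 * r3 ^ (3 : ℕ) *
    (18432000) + r3 ^ (4 : ℕ) * (4608000)) + p2 * r2 ^ (3 : ℕ) * (p3 ^ (4 : ℕ) * (3993600) + p3 ^ (3 : ℕ) * r3 *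
    (15974400) + p3 ^ (2 : ℕ) * r3 ^ (2 : ℕ) * (23961600) + p3 * r3 ^ (3 : ℕ) * (15974400) + r3 ^ (4 : ℕ) * (3993600)) +
    r2 ^ (4 : ℕ) * (p3 ^ (4 : ℕ) * (1228800) + p3 ^ (3 : ℕ) * r3 * (4915200) + p3 ^ (2 : ℕ) * r3 ^ (2 : ℕ) * (7372800) + p3 *
    r3 ^ (3 : ℕ) * (4915200) + r3 ^ (4 : ℕ) * (1228800))) + p1 * r1 ^ (3 : ℕ) * (p2 ^ (4 : ℕ) * (p3 ^ (4 : ℕ) * (102400) + p3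
    ^ (3 : ℕ) * r3 * (409600) + p3 ^ (2 : ℕ) * r3 ^ (2 : ℕ) * (614400) + p3 * r3 ^ (3 : ℕ) * (409600) + r3 ^ (4 : ℕ) *
    (102400)) + p2 ^ (3 : ℕ) * r2 * (p3 ^ (4 : ℕ) * (1024000) + p3 ^ (3 : ℕ) * r3 * (4096000) + p3 ^ (2 : ℕ) * r3 ^ (2 : ℕ) *
    (6144000) + p3 * r3 ^ (3 : ℕ) * (4096000) + r3 ^ (4 : ℕ) * (1024000)) + p2 ^ (2 : ℕ) * r2 ^ (2 : ℕ) * (p3 ^ (4 : ℕ) *
    (2457600) + p3 ^ (3 : ℕ) * r3 * (9830400) + p3 ^ (2 : ℕ) * r3 ^ (2 : ℕ) * (14745600) + p3 * r3 ^ (3 : ℕ) * (9830400)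
    + r3 ^ (4 : ℕ) * (2457600)) + p2 * r2 ^ (3 : ℕ) * (p3 ^ (4 : ℕ) * (2252800) + p3 ^ (3 : ℕ) * r3 * (9011200) + p3 ^ (2 : ℕ)
    * r3 ^ (2 : ℕ) * (13516800) + p3 * r3 ^ (3 : ℕ) * (9011200) + r3 ^ (4 : ℕ) * (2252800)) + r2 ^ (4 : ℕ) * (p3 ^ (4 : ℕ) *
    (716800) + p3 ^ (3 : ℕ) * r3 * (2867200) + p3 ^ (2 : ℕ) * r3 ^ (2 : ℕ) * (4300800) + p3 * r3 ^ (3 : ℕ) * (2867200) +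
    r3 ^ (4 : ℕ) * (716800))) + r1 ^ (4 : ℕ) * (p2 ^ (3 : ℕ) * r2 * (p3 ^ (4 : ℕ) * (153600) + p3 ^ (3 : ℕ) * r3 * (614400) +
    p3 ^ (2 : ℕ) * r3 ^ (2 : ℕ) * (921600) + p3 * r3 ^ (3 : ℕ) * (614400) + r3 ^ (4 : ℕ) * (153600)) + p2 ^ (2 : ℕ) * r2 ^ (2 : ℕ) *
    (p3 ^ (4 : ℕ) * (460800) + p3 ^ (3 : ℕ) * r3 * (1843200) + p3 ^ (2 : ℕ) * r3 ^ (2 : ℕ) * (2764800) + p3 * r3 ^ (3 : ℕ) *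
    (1843200) + r3 ^ (4 : ℕ) * (460800)) + p2 * r2 ^ (3 : ℕ) * (p3 ^ (4 : ℕ) * (460800) + p3 ^ (3 : ℕ) * r3 * (1843200)
    + p3 ^ (2 : ℕ) * r3 ^ (2 : ℕ) * (2764800) + p3 * r3 ^ (3 : ℕ) * (1843200) + r3 ^ (4 : ℕ) * (460800)) + r2 ^ (4 : ℕ) * (p3
    ^ (4 : ℕ) * (153600) + p3 ^ (3 : ℕ) * r3 * (614400) + p3 ^ (2 : ℕ) * r3 ^ (2 : ℕ) * (921600) + p3 * r3 ^ (3 : ℕ) *
    (614400) + r3 ^ (4 : ℕ) * (153600)))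

theorem bernlN0_nonneg {p1 r1 p2 r2 p3 r3 : ℝ} (h2 : 0 ≤ p1) (h3 : 0 ≤ r1) (h4 : 0 ≤ p2)
    (h5 : 0 ≤ r2) (h6 : 0 ≤ p3) (h7 : 0 ≤ r3) : 0 ≤ bernlN0 p1 r1 p2 r2 p3 r3 := by
  unfold bernlN0
  positivity

/-- Part of the Bernstein form. -/
def bernlN1 (p1 r1 p2 r2 p3 r3 : ℝ) : ℝ :=
    p1 ^ (4 : ℕ) * (p2 ^ (4 : ℕ) * (p3 ^ (4 : ℕ) * (328064) + p3 ^ (3 : ℕ) * r3 * (1312256) + p3 ^ (2 : ℕ) * r3 ^ (2 : ℕ) *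
    (1968384) + p3 * r3 ^ (3 : ℕ) * (1312256) + r3 ^ (4 : ℕ) * (328064)) + p2 ^ (3 : ℕ) * r2 * (p3 ^ (4 : ℕ) * (1863936)
    + p3 ^ (3 : ℕ) * r3 * (7450624) + p3 ^ (2 : ℕ) * r3 ^ (2 : ℕ) * (11168256) + p3 * r3 ^ (3 : ℕ) * (7440384) + r3 ^ (4 : ℕ)
    * (1858816)) + p2 ^ (2 : ℕ) * r2 ^ (2 : ℕ) * (p3 ^ (4 : ℕ) * (3577824) + p3 ^ (3 : ℕ) * r3 * (14383616) + p3 ^ (2 : ℕ) *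
    r3 ^ (2 : ℕ) * (21646144) + p3 * r3 ^ (3 : ℕ) * (14452736) + r3 ^ (4 : ℕ) * (3612384)) + p2 * r2 ^ (3 : ℕ) * (p3 ^ (4 : ℕ)
    * (2876096) + p3 ^ (3 : ℕ) * r3 * (11664384) + p3 ^ (2 : ℕ) * r3 ^ (2 : ℕ) * (17661056) + p3 * r3 ^ (3 : ℕ) *
    (11833344) + r3 ^ (4 : ℕ) * (2960576)) + r2 ^ (4 : ℕ) * (p3 ^ (4 : ℕ) * (834144) + p3 ^ (3 : ℕ) * r3 * (3419136) +
    p3 ^ (2 : ℕ) * r3 ^ (2 : ℕ) * (5214784) + p3 * r3 ^ (3 : ℕ) * (3508736) + r3 ^ (4 : ℕ) * (878944))) + p1 ^ (3 : ℕ) * r1 *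
    (p2 ^ (4 : ℕ) * (p3 ^ (4 : ℕ) * (1090816) + p3 ^ (3 : ℕ) * r3 * (4363264) + p3 ^ (2 : ℕ) * r3 ^ (2 : ℕ) * (6544896) + p3 *
    r3 ^ (3 : ℕ) * (4363264) + r3 ^ (4 : ℕ) * (1090816)) + p2 ^ (3 : ℕ) * r2 * (p3 ^ (4 : ℕ) * (6527744) + p3 ^ (3 : ℕ) * r3 *
    (26126336) + p3 ^ (2 : ℕ) * r3 ^ (2 : ℕ) * (39212544) + p3 * r3 ^ (3 : ℕ) * (26157056) + r3 ^ (4 : ℕ) * (6543104)) +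
    p2 ^ (2 : ℕ) * r2 ^ (2 : ℕ) * (p3 ^ (4 : ℕ) * (12855936) + p3 ^ (3 : ℕ) * r3 * (51820544) + p3 ^ (2 : ℕ) * r3 ^ (2 : ℕ) *
    (78174976) + p3 * r3 ^ (3 : ℕ) * (52312064) + r3 ^ (4 : ℕ) * (13101696)) + p2 * r2 ^ (3 : ℕ) * (p3 ^ (4 : ℕ) *
    (10491904) + p3 ^ (3 : ℕ) * r3 * (42715136) + p3 ^ (2 : ℕ) * r3 ^ (2 : ℕ) * (64891904) + p3 * r3 ^ (3 : ℕ) *
    (43606016) + r3 ^ (4 : ℕ) * (10937344)) + r2 ^ (4 : ℕ) * (p3 ^ (4 : ℕ) * (3072896) + p3 ^ (3 : ℕ) * r3 * (12657664)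
    + p3 ^ (2 : ℕ) * r3 ^ (2 : ℕ) * (19384576) + p3 * r3 ^ (3 : ℕ) * (13087744) + r3 ^ (4 : ℕ) * (3287936))) + p1 ^ (2 : ℕ) *
    r1 ^ (2 : ℕ) * (p2 ^ (4 : ℕ) * (p3 ^ (4 : ℕ) * (1256064) + p3 ^ (3 : ℕ) * r3 * (5024256) + p3 ^ (2 : ℕ) * r3 ^ (2 : ℕ) *
    (7536384) + p3 * r3 ^ (3 : ℕ) * (5024256) + r3 ^ (4 : ℕ) * (1256064)) + p2 ^ (3 : ℕ) * r2 * (p3 ^ (4 : ℕ) *
    (8207616) + p3 ^ (3 : ℕ) * r3 * (32907264) + p3 ^ (2 : ℕ) * r3 ^ (2 : ℕ) * (49476096) + p3 * r3 ^ (3 : ℕ) *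
    (33060864) + r3 ^ (4 : ℕ) * (8284416)) + p2 ^ (2 : ℕ) * r2 ^ (2 : ℕ) * (p3 ^ (4 : ℕ) * (16812864) + p3 ^ (3 : ℕ) * r3 *
    (68007936) + p3 ^ (2 : ℕ) * r3 ^ (2 : ℕ) * (102920064) + p3 * r3 ^ (3 : ℕ) * (69067776) + r3 ^ (4 : ℕ) * (17342784))
    + p2 * r2 ^ (3 : ℕ) * (p3 ^ (4 : ℕ) * (14027136) + p3 ^ (3 : ℕ) * r3 * (57391104) + p3 ^ (2 : ℕ) * r3 ^ (2 : ℕ) *
    (87557376) + p3 * r3 ^ (3 : ℕ) * (59049984) + r3 ^ (4 : ℕ) * (14856576)) + r2 ^ (4 : ℕ) * (p3 ^ (4 : ℕ) * (4165824)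
    + p3 ^ (3 : ℕ) * r3 * (17266176) + p3 ^ (2 : ℕ) * r3 ^ (2 : ℕ) * (26577024) + p3 * r3 ^ (3 : ℕ) * (18018816) + r3 ^
    (4 : ℕ) * (4542144))) + p1 * r1 ^ (3 : ℕ) * (p2 ^ (4 : ℕ) * (p3 ^ (4 : ℕ) * (551936) + p3 ^ (3 : ℕ) * r3 * (2207744) + p3
    ^ (2 : ℕ) * r3 ^ (2 : ℕ) * (3311616) + p3 * r3 ^ (3 : ℕ) * (2207744) + r3 ^ (4 : ℕ) * (551936)) + p2 ^ (3 : ℕ) * r2 * (p3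
    ^ (4 : ℕ) * (4287744) + p3 ^ (3 : ℕ) * r3 * (17238016) + p3 ^ (2 : ℕ) * r3 ^ (2 : ℕ) * (25987584) + p3 * r3 ^ (3 : ℕ) *
    (17412096) + r3 ^ (4 : ℕ) * (4374784)) + p2 ^ (2 : ℕ) * r2 ^ (2 : ℕ) * (p3 ^ (4 : ℕ) * (9369216) + p3 ^ (3 : ℕ) * r3 *
    (38088704) + p3 ^ (2 : ℕ) * r3 ^ (2 : ℕ) * (57899776) + p3 * r3 ^ (3 : ℕ) * (39010304) + r3 ^ (4 : ℕ) * (9830016)) +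
    p2 * r2 ^ (3 : ℕ) * (p3 ^ (4 : ℕ) * (8082944) + p3 ^ (3 : ℕ) * r3 * (33294336) + p3 ^ (2 : ℕ) * r3 ^ (2 : ℕ) * (51083264)
    + p3 * r3 ^ (3 : ℕ) * (34615296) + r3 ^ (4 : ℕ) * (8743424)) + r2 ^ (4 : ℕ) * (p3 ^ (4 : ℕ) * (2449536) + p3 ^ (3 : ℕ) *
    r3 * (10235904) + p3 ^ (2 : ℕ) * r3 ^ (2 : ℕ) * (15859456) + p3 * r3 ^ (3 : ℕ) * (10809344) + r3 ^ (4 : ℕ) *
    (2736256))) + r1 ^ (4 : ℕ) * (p2 ^ (4 : ℕ) * (p3 ^ (4 : ℕ) * (58624) + p3 ^ (3 : ℕ) * r3 * (234496) + p3 ^ (2 : ℕ) * r3 ^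
    (2 : ℕ) * (351744) + p3 * r3 ^ (3 : ℕ) * (234496) + r3 ^ (4 : ℕ) * (58624)) + p2 ^ (3 : ℕ) * r2 * (p3 ^ (4 : ℕ) * (743936)
    + p3 ^ (3 : ℕ) * r3 * (3006464) + p3 ^ (2 : ℕ) * r3 ^ (2 : ℕ) * (4555776) + p3 * r3 ^ (3 : ℕ) * (3067904) + r3 ^ (4 : ℕ) *
    (774656)) + p2 ^ (2 : ℕ) * r2 ^ (2 : ℕ) * (p3 ^ (4 : ℕ) * (1834464) + p3 ^ (3 : ℕ) * r3 * (7517696) + p3 ^ (2 : ℕ) * r3 ^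
    (2 : ℕ) * (11508544) + p3 * r3 ^ (3 : ℕ) * (7801856) + r3 ^ (4 : ℕ) * (1976544)) + p2 * r2 ^ (3 : ℕ) * (p3 ^ (4 : ℕ) *
    (1671616) + p3 ^ (3 : ℕ) * r3 * (6953984) + p3 ^ (2 : ℕ) * r3 ^ (2 : ℕ) * (10756736) + p3 * r3 ^ (3 : ℕ) * (7337984)
    + r3 ^ (4 : ℕ) * (1863616)) + r2 ^ (4 : ℕ) * (p3 ^ (4 : ℕ) * (522464) + p3 ^ (3 : ℕ) * r3 * (2208256) + p3 ^ (2 : ℕ) * r3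
    ^ (2 : ℕ) * (3452224) + p3 * r3 ^ (3 : ℕ) * (2369536) + r3 ^ (4 : ℕ) * (603104)))

theorem bernlN1_nonneg {p1 r1 p2 r2 p3 r3 : ℝ} (h2 : 0 ≤ p1) (h3 : 0 ≤ r1) (h4 : 0 ≤ p2)
    (h5 : 0 ≤ r2) (h6 : 0 ≤ p3) (h7 : 0 ≤ r3) : 0 ≤ bernlN1 p1 r1 p2 r2 p3 r3 := by
  unfold bernlN1
  positivity

/-- Part of the Bernstein form. -/
def bernlN2 (p1 r1 p2 r2 p3 r3 : ℝ) : ℝ :=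
    p1 ^ (4 : ℕ) * (p2 ^ (4 : ℕ) * (p3 ^ (4 : ℕ) * (390512) + p3 ^ (3 : ℕ) * r3 * (1562048) + p3 ^ (2 : ℕ) * r3 ^ (2 : ℕ) *
    (2343072) + p3 * r3 ^ (3 : ℕ) * (1562048) + r3 ^ (4 : ℕ) * (390512)) + p2 ^ (3 : ℕ) * r2 * (p3 ^ (4 : ℕ) * (2240432)
    + p3 ^ (3 : ℕ) * r3 * (8975104) + p3 ^ (2 : ℕ) * r3 ^ (2 : ℕ) * (13482720) + p3 * r3 ^ (3 : ℕ) * (9001856) + r3 ^ (4 : ℕ)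
    * (2253808)) + p2 ^ (2 : ℕ) * r2 ^ (2 : ℕ) * (p3 ^ (4 : ℕ) * (4263032) + p3 ^ (3 : ℕ) * r3 * (17333792) + p3 ^ (2 : ℕ) *
    r3 ^ (2 : ℕ) * (26309904) + p3 * r3 ^ (3 : ℕ) * (17670560) + r3 ^ (4 : ℕ) * (4431416)) + p2 * r2 ^ (3 : ℕ) * (p3 ^ (4 : ℕ)
    * ((10106431 / 3)) + p3 ^ (3 : ℕ) * r3 * ((41986786 / 3)) + p3 ^ (2 : ℕ) * r3 ^ (2 : ℕ) * (21549312) + p3 * r3
    ^ (3 : ℕ) * ((43761086 / 3)) + r3 ^ (4 : ℕ) * ((10993505 / 3))) + r2 ^ (4 : ℕ) * (p3 ^ (4 : ℕ) * ((2867095 / 3)) +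
    p3 ^ (3 : ℕ) * r3 * ((12224578 / 3)) + p3 ^ (2 : ℕ) * r3 ^ (2 : ℕ) * (6379056) + p3 * r3 ^ (3 : ℕ) * ((13068830 /
    3)) + r3 ^ (4 : ℕ) * ((3289145 / 3)))) + p1 ^ (3 : ℕ) * r1 * (p2 ^ (4 : ℕ) * (p3 ^ (4 : ℕ) * (1504176) + p3 ^ (3 : ℕ) * r3
    * (6016704) + p3 ^ (2 : ℕ) * r3 ^ (2 : ℕ) * (9025056) + p3 * r3 ^ (3 : ℕ) * (6016704) + r3 ^ (4 : ℕ) * (1504176)) +
    p2 ^ (3 : ℕ) * r2 * (p3 ^ (4 : ℕ) * (8622560) + p3 ^ (3 : ℕ) * r3 * (34660864) + p3 ^ (2 : ℕ) * r3 ^ (2 : ℕ) * (52247232)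
    + p3 * r3 ^ (3 : ℕ) * (35002112) + r3 ^ (4 : ℕ) * (8793184)) + p2 ^ (2 : ℕ) * r2 ^ (2 : ℕ) * (p3 ^ (4 : ℕ) * (16372744) +
    p3 ^ (3 : ℕ) * r3 * (66974496) + p3 ^ (2 : ℕ) * r3 ^ (2 : ℕ) * (102232240) + p3 * r3 ^ (3 : ℕ) * (69031968) + r3 ^ (4 : ℕ)
    * (17401480)) + p2 * r2 ^ (3 : ℕ) * (p3 ^ (4 : ℕ) * ((38707468 / 3)) + p3 ^ (3 : ℕ) * r3 * ((162161224 / 3)) +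
    p3 ^ (2 : ℕ) * r3 ^ (2 : ℕ) * (83844512) + p3 * r3 ^ (3 : ℕ) * ((171412664 / 3)) + r3 ^ (4 : ℕ) * ((43332884 / 3)))
    + r2 ^ (4 : ℕ) * (p3 ^ (4 : ℕ) * ((10944388 / 3)) + p3 ^ (3 : ℕ) * r3 * ((47170216 / 3)) + p3 ^ (2 : ℕ) * r3 ^ (2 : ℕ) *
    (24834448) + p3 * r3 ^ (3 : ℕ) * ((51272984 / 3)) + r3 ^ (4 : ℕ) * ((12995468 / 3)))) + p1 ^ (2 : ℕ) * r1 ^ (2 : ℕ)
    * (p2 ^ (4 : ℕ) * (p3 ^ (4 : ℕ) * (2000064) + p3 ^ (3 : ℕ) * r3 * (8000256) + p3 ^ (2 : ℕ) * r3 ^ (2 : ℕ) * (12000384) +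
    p3 * r3 ^ (3 : ℕ) * (8000256) + r3 ^ (4 : ℕ) * (2000064)) + p2 ^ (3 : ℕ) * r2 * (p3 ^ (4 : ℕ) * (11750320) + p3 ^ (3 : ℕ)
    * r3 * (47430656) + p3 ^ (2 : ℕ) * r3 ^ (2 : ℕ) * (71790048) + p3 * r3 ^ (3 : ℕ) * (48289408) + r3 ^ (4 : ℕ) *
    (12179696)) + p2 ^ (2 : ℕ) * r2 ^ (2 : ℕ) * (p3 ^ (4 : ℕ) * (22532088) + p3 ^ (3 : ℕ) * r3 * (92882208) + p3 ^ (2 : ℕ) *
    r3 ^ (2 : ℕ) * (142769424) + p3 * r3 ^ (3 : ℕ) * (97020576) + r3 ^ (4 : ℕ) * (24601272)) + p2 * r2 ^ (3 : ℕ) * (p3 ^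
    (4 : ℕ) * (17825438) + p3 ^ (3 : ℕ) * r3 * (75504260) + p3 ^ (2 : ℕ) * r3 ^ (2 : ℕ) * (118202496) + p3 * r3 ^ (3 : ℕ) *
    (81193660) + r3 ^ (4 : ℕ) * (20669986)) + r2 ^ (4 : ℕ) * (p3 ^ (4 : ℕ) * (5043606) + p3 ^ (3 : ℕ) * r3 * (22052452)
    + p3 ^ (2 : ℕ) * r3 ^ (2 : ℕ) * (35222736) + p3 * r3 ^ (3 : ℕ) * (24462236) + r3 ^ (4 : ℕ) * (6248346))) + p1 * r1 ^
    (3 : ℕ) * (p2 ^ (4 : ℕ) * (p3 ^ (4 : ℕ) * (1052160) + p3 ^ (3 : ℕ) * r3 * (4208640) + p3 ^ (2 : ℕ) * r3 ^ (2 : ℕ) * (6312960) +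
    p3 * r3 ^ (3 : ℕ) * (4208640) + r3 ^ (4 : ℕ) * (1052160)) + p2 ^ (3 : ℕ) * r2 * (p3 ^ (4 : ℕ) * (6604736) + p3 ^ (3 : ℕ) *
    r3 * (26819328) + p3 ^ (2 : ℕ) * r3 ^ (2 : ℕ) * (40829568) + p3 * r3 ^ (3 : ℕ) * (27620096) + r3 ^ (4 : ℕ) *
    (7005120)) + p2 ^ (2 : ℕ) * r2 ^ (2 : ℕ) * (p3 ^ (4 : ℕ) * (13013144) + p3 ^ (3 : ℕ) * r3 * (54236384) + p3 ^ (2 : ℕ) * r3
    ^ (2 : ℕ) * (84172176) + p3 * r3 ^ (3 : ℕ) * (57687776) + r3 ^ (4 : ℕ) * (14738840)) + p2 * r2 ^ (3 : ℕ) * (p3 ^ (4 : ℕ) *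
    ((31286092 / 3)) + p3 ^ (3 : ℕ) * r3 * ((134609608 / 3)) + p3 ^ (2 : ℕ) * r3 ^ (2 : ℕ) * (71128992) + p3 * r3
    ^ (3 : ℕ) * ((148088888 / 3)) + r3 ^ (4 : ℕ) * ((38025428 / 3))) + r2 ^ (4 : ℕ) * (p3 ^ (4 : ℕ) * ((8904388 / 3)) +
    p3 ^ (3 : ℕ) * r3 * ((39732520 / 3)) + p3 ^ (2 : ℕ) * r3 ^ (2 : ℕ) * (21473424) + p3 * r3 ^ (3 : ℕ) * ((45259928 /
    3)) + r3 ^ (4 : ℕ) * ((11667788 / 3)))) + r1 ^ (4 : ℕ) * (p2 ^ (4 : ℕ) * (p3 ^ (4 : ℕ) * (165760) + p3 ^ (3 : ℕ) * r3 *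
    (663040) + p3 ^ (2 : ℕ) * r3 ^ (2 : ℕ) * (994560) + p3 * r3 ^ (3 : ℕ) * (663040) + r3 ^ (4 : ℕ) * (165760)) + p2 ^ (3 : ℕ)
    * r2 * (p3 ^ (4 : ℕ) * (1236544) + p3 ^ (3 : ℕ) * r3 * (5074432) + p3 ^ (2 : ℕ) * r3 ^ (2 : ℕ) * (7804032) + p3 * r3
    ^ (3 : ℕ) * (5330944) + r3 ^ (4 : ℕ) * (1364800)) + p2 ^ (2 : ℕ) * r2 ^ (2 : ℕ) * (p3 ^ (4 : ℕ) * (2590768) + p3 ^ (3 : ℕ) * r3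
    * (10994880) + p3 ^ (2 : ℕ) * r3 ^ (2 : ℕ) * (17325088) + p3 * r3 ^ (3 : ℕ) * (12028608) + r3 ^ (4 : ℕ) * (3107632))
    + p2 * r2 ^ (3 : ℕ) * (p3 ^ (4 : ℕ) * ((6410815 / 3)) + p3 ^ (3 : ℕ) * r3 * ((28271266 / 3)) + p3 ^ (2 : ℕ) * r3 ^ (2 : ℕ)
    * (15221696) + p3 * r3 ^ (3 : ℕ) * ((32159486 / 3)) + r3 ^ (4 : ℕ) * ((8354849 / 3))) + r2 ^ (4 : ℕ) * (p3 ^ (4 : ℕ)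
    * ((1850863 / 3)) + p3 ^ (3 : ℕ) * r3 * ((8520802 / 3)) + p3 ^ (2 : ℕ) * r3 ^ (2 : ℕ) * (4706080) + p3 * r3 ^
    (3 : ℕ) * ((10077374 / 3)) + r3 ^ (4 : ℕ) * ((2629073 / 3))))

theorem bernlN2_nonneg {p1 r1 p2 r2 p3 r3 : ℝ} (h2 : 0 ≤ p1) (h3 : 0 ≤ r1) (h4 : 0 ≤ p2)
    (h5 : 0 ≤ r2) (h6 : 0 ≤ p3) (h7 : 0 ≤ r3) : 0 ≤ bernlN2 p1 r1 p2 r2 p3 r3 := by
  unfold bernlN2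
  positivity

/-- Part of the Bernstein form. -/
def bernlN3 (p1 r1 p2 r2 p3 r3 : ℝ) : ℝ :=
    p1 ^ (4 : ℕ) * (p2 ^ (4 : ℕ) * (p3 ^ (4 : ℕ) * ((5977313 / 30)) + p3 ^ (3 : ℕ) * r3 * ((11954626 / 15)) + p3 ^ (2 : ℕ) *
    r3 ^ (2 : ℕ) * ((5977313 / 5)) + p3 * r3 ^ (3 : ℕ) * ((11954626 / 15)) + r3 ^ (4 : ℕ) * ((5977313 / 30))) + p2
    ^ (3 : ℕ) * r2 * (p3 ^ (4 : ℕ) * ((16716956 / 15)) + p3 ^ (3 : ℕ) * r3 * ((67504136 / 15)) + p3 ^ (2 : ℕ) * r3 ^ (2 : ℕ) *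
    ((34070224 / 5)) + p3 * r3 ^ (3 : ℕ) * ((13755352 / 3)) + r3 ^ (4 : ℕ) * ((17353268 / 15))) + p2 ^ (2 : ℕ) *
    r2 ^ (2 : ℕ) * (p3 ^ (4 : ℕ) * ((10265871 / 5)) + p3 ^ (3 : ℕ) * r3 * ((42801322 / 5)) + p3 ^ (2 : ℕ) * r3 ^ (2 : ℕ) *
    (13247482) + p3 * r3 ^ (3 : ℕ) * ((45134338 / 5)) + r3 ^ (4 : ℕ) * ((11432379 / 5))) + p2 * r2 ^ (3 : ℕ) * (p3
    ^ (4 : ℕ) * ((23456248 / 15)) + p3 ^ (3 : ℕ) * r3 * ((102261922 / 15)) + p3 ^ (2 : ℕ) * r3 ^ (2 : ℕ) * ((54226488 /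
    5)) + p3 * r3 ^ (3 : ℕ) * ((112397962 / 15)) + r3 ^ (4 : ℕ) * ((28524172 / 15))) + r2 ^ (4 : ℕ) * (p3 ^ (4 : ℕ) *
    ((817406191 / 1920)) + p3 ^ (3 : ℕ) * r3 * ((940982257 / 480)) + p3 ^ (2 : ℕ) * r3 ^ (2 : ℕ) * ((1029218511 /
    320)) + p3 * r3 ^ (3 : ℕ) * ((1082121169 / 480)) + r3 ^ (4 : ℕ) * ((1099681711 / 1920)))) + p1 ^ (3 : ℕ) * r1
    * (p2 ^ (4 : ℕ) * (p3 ^ (4 : ℕ) * ((4709176 / 5)) + p3 ^ (3 : ℕ) * r3 * ((18836704 / 5)) + p3 ^ (2 : ℕ) * r3 ^ (2 : ℕ) *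
    ((28255056 / 5)) + p3 * r3 ^ (3 : ℕ) * ((18836704 / 5)) + r3 ^ (4 : ℕ) * ((4709176 / 5))) + p2 ^ (3 : ℕ) * r2
    * (p3 ^ (4 : ℕ) * ((74249518 / 15)) + p3 ^ (3 : ℕ) * r3 * ((60297200 / 3)) + p3 ^ (2 : ℕ) * r3 ^ (2 : ℕ) *
    ((152986964 / 5)) + p3 * r3 ^ (3 : ℕ) * ((310461856 / 15)) + r3 ^ (4 : ℕ) * ((78737446 / 15))) + p2 ^ (2 : ℕ)
    * r2 ^ (2 : ℕ) * (p3 ^ (4 : ℕ) * ((44010196 / 5)) + p3 ^ (3 : ℕ) * r3 * (36997204) + p3 ^ (2 : ℕ) * r3 ^ (2 : ℕ) *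
    ((288595232 / 5)) + p3 * r3 ^ (3 : ℕ) * ((198273188 / 5)) + r3 ^ (4 : ℕ) * (10130756)) + p2 * r2 ^ (3 : ℕ) *
    (p3 ^ (4 : ℕ) * ((32684338 / 5)) + p3 ^ (3 : ℕ) * r3 * ((144031056 / 5)) + p3 ^ (2 : ℕ) * r3 ^ (2 : ℕ) * ((231463246
    / 5)) + p3 * r3 ^ (3 : ℕ) * ((161570412 / 5)) + r3 ^ (4 : ℕ) * ((41453884 / 5))) + r2 ^ (4 : ℕ) * (p3 ^ (4 : ℕ) *
    ((836499887 / 480)) + p3 ^ (3 : ℕ) * r3 * ((976831313 / 120)) + p3 ^ (2 : ℕ) * r3 ^ (2 : ℕ) * ((1081569967 /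
    80)) + p3 * r3 ^ (3 : ℕ) * ((1150721873 / 120)) + r3 ^ (4 : ℕ) * ((1184278319 / 480)))) + p1 ^ (2 : ℕ) * r1 ^
    (2 : ℕ) * (p2 ^ (4 : ℕ) * (p3 ^ (4 : ℕ) * (1427784) + p3 ^ (3 : ℕ) * r3 * (5711136) + p3 ^ (2 : ℕ) * r3 ^ (2 : ℕ) * (8566704) +
    p3 * r3 ^ (3 : ℕ) * (5711136) + r3 ^ (4 : ℕ) * (1427784)) + p2 ^ (3 : ℕ) * r2 * (p3 ^ (4 : ℕ) * ((36794644 / 5)) +
    p3 ^ (3 : ℕ) * r3 * ((150368368 / 5)) + p3 ^ (2 : ℕ) * r3 ^ (2 : ℕ) * (46067448) + p3 * r3 ^ (3 : ℕ) * ((156747952 /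
    5)) + r3 ^ (4 : ℕ) * ((39984436 / 5))) + p2 ^ (2 : ℕ) * r2 ^ (2 : ℕ) * (p3 ^ (4 : ℕ) * ((64439918 / 5)) + p3 ^ (3 : ℕ) *
    r3 * ((274092014 / 5)) + p3 ^ (2 : ℕ) * r3 ^ (2 : ℕ) * ((432159252 / 5)) + p3 * r3 ^ (3 : ℕ) * ((299802134 /
    5)) + r3 ^ (4 : ℕ) * ((77294978 / 5))) + p2 * r2 ^ (3 : ℕ) * (p3 ^ (4 : ℕ) * ((47167336 / 5)) + p3 ^ (3 : ℕ) * r3 *
    ((211600456 / 5)) + p3 ^ (2 : ℕ) * r3 ^ (2 : ℕ) * ((344962686 / 5)) + p3 * r3 ^ (3 : ℕ) * (48758588) + r3 ^ (4 : ℕ)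
    * ((63263374 / 5))) + r2 ^ (4 : ℕ) * (p3 ^ (4 : ℕ) * ((792399663 / 320)) + p3 ^ (3 : ℕ) * r3 * ((189816285 /
    16)) + p3 ^ (2 : ℕ) * r3 ^ (2 : ℕ) * ((3209742573 / 160)) + p3 * r3 ^ (3 : ℕ) * ((1154903793 / 80)) + r3 ^ (4 : ℕ) *
    ((1204041327 / 320)))) + p1 * r1 ^ (3 : ℕ) * (p2 ^ (4 : ℕ) * (p3 ^ (4 : ℕ) * (834272) + p3 ^ (3 : ℕ) * r3 *
    (3337088) + p3 ^ (2 : ℕ) * r3 ^ (2 : ℕ) * (5005632) + p3 * r3 ^ (3 : ℕ) * (3337088) + r3 ^ (4 : ℕ) * (834272)) + p2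
    ^ (3 : ℕ) * r2 * (p3 ^ (4 : ℕ) * ((21773896 / 5)) + p3 ^ (3 : ℕ) * r3 * ((89836384 / 5)) + p3 ^ (2 : ℕ) * r3 ^ (2 : ℕ) *
    ((138865776 / 5)) + p3 * r3 ^ (3 : ℕ) * ((95317984 / 5)) + r3 ^ (4 : ℕ) * ((24514696 / 5))) + p2 ^ (2 : ℕ) *
    r2 ^ (2 : ℕ) * (p3 ^ (4 : ℕ) * (7626050) + p3 ^ (3 : ℕ) * r3 * ((165303512 / 5)) + p3 ^ (2 : ℕ) * r3 ^ (2 : ℕ) *
    ((264794108 / 5)) + p3 * r3 ^ (3 : ℕ) * (37239736) + r3 ^ (4 : ℕ) * ((48577834 / 5))) + p2 * r2 ^ (3 : ℕ) *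
    (p3 ^ (4 : ℕ) * ((27701828 / 5)) + p3 ^ (3 : ℕ) * r3 * ((128039848 / 5)) + p3 ^ (2 : ℕ) * r3 ^ (2 : ℕ) * ((213319174
    / 5)) + p3 * r3 ^ (3 : ℕ) * ((153325836 / 5)) + r3 ^ (4 : ℕ) * ((40344682 / 5))) + r2 ^ (4 : ℕ) * (p3 ^ (4 : ℕ) *
    ((229531173 / 160)) + p3 ^ (3 : ℕ) * r3 * ((57415871 / 8)) + p3 ^ (2 : ℕ) * r3 ^ (2 : ℕ) * ((997774127 / 80))
    + p3 * r3 ^ (3 : ℕ) * ((73213823 / 8)) + r3 ^ (4 : ℕ) * ((387509541 / 160)))) + r1 ^ (4 : ℕ) * (p2 ^ (4 : ℕ) * (p3 ^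
    (4 : ℕ) * ((743784 / 5)) + p3 ^ (3 : ℕ) * r3 * ((2975136 / 5)) + p3 ^ (2 : ℕ) * r3 ^ (2 : ℕ) * ((4462704 / 5)) + p3
    * r3 ^ (3 : ℕ) * ((2975136 / 5)) + r3 ^ (4 : ℕ) * ((743784 / 5))) + p2 ^ (3 : ℕ) * r2 * (p3 ^ (4 : ℕ) * (830064) +
    p3 ^ (3 : ℕ) * r3 * (3487232) + p3 ^ (2 : ℕ) * r3 ^ (2 : ℕ) * (5481312) + p3 * r3 ^ (3 : ℕ) * (3821184) + r3 ^ (4 : ℕ) *
    (997040)) + p2 ^ (2 : ℕ) * r2 ^ (2 : ℕ) * (p3 ^ (4 : ℕ) * ((7424978 / 5)) + p3 ^ (3 : ℕ) * r3 * (6671496) + p3 ^ (2 : ℕ) *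
    r3 ^ (2 : ℕ) * ((54934604 / 5)) + p3 * r3 ^ (3 : ℕ) * (7899336) + r3 ^ (4 : ℕ) * ((10494578 / 5))) + p2 * r2 ^
    (3 : ℕ) * (p3 ^ (4 : ℕ) * ((5393628 / 5)) + p3 ^ (3 : ℕ) * r3 * (5271466) + p3 ^ (2 : ℕ) * r3 ^ (2 : ℕ) * (9110906) + p3 *
    r3 ^ (3 : ℕ) * (6722302) + r3 ^ (4 : ℕ) * ((9020682 / 5))) + r2 ^ (4 : ℕ) * (p3 ^ (4 : ℕ) * ((175983333 / 640)) + p3
    ^ (3 : ℕ) * r3 * ((238729083 / 160)) + p3 ^ (2 : ℕ) * r3 ^ (2 : ℕ) * ((868053263 / 320)) + p3 * r3 ^ (3 : ℕ) *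
    ((327851163 / 160)) + r3 ^ (4 : ℕ) * ((354226213 / 640))))

theorem bernlN3_nonneg {p1 r1 p2 r2 p3 r3 : ℝ} (h2 : 0 ≤ p1) (h3 : 0 ≤ r1) (h4 : 0 ≤ p2)
    (h5 : 0 ≤ r2) (h6 : 0 ≤ p3) (h7 : 0 ≤ r3) : 0 ≤ bernlN3 p1 r1 p2 r2 p3 r3 := by
  unfold bernlN3
  positivity

/-- Part of the Bernstein form. -/
def bernlN4 (p1 r1 p2 r2 p3 r3 : ℝ) : ℝ :=
    p1 ^ (4 : ℕ) * (p2 ^ (4 : ℕ) * (p3 ^ (4 : ℕ) * ((21456934973 / 768000)) + p3 ^ (3 : ℕ) * r3 * ((21456934973 /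
    192000)) + p3 ^ (2 : ℕ) * r3 ^ (2 : ℕ) * ((21456934973 / 128000)) + p3 * r3 ^ (3 : ℕ) * ((21456934973 /
    192000)) + r3 ^ (4 : ℕ) * ((21456934973 / 768000))) + p2 ^ (3 : ℕ) * r2 * (p3 ^ (4 : ℕ) * ((28596390973 /
    192000)) + p3 ^ (3 : ℕ) * r3 * ((29744781373 / 48000)) + p3 ^ (2 : ℕ) * r3 ^ (2 : ℕ) * ((30893171773 / 32000))
    + p3 * r3 ^ (3 : ℕ) * ((32041562173 / 48000)) + r3 ^ (4 : ℕ) * ((33189952573 / 192000))) + p2 ^ (2 : ℕ) * r2 ^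
    (2 : ℕ) * (p3 ^ (4 : ℕ) * ((32515059773 / 128000)) + p3 ^ (3 : ℕ) * r3 * ((36938214973 / 32000)) + p3 ^ (2 : ℕ) * r3
    ^ (2 : ℕ) * ((121604366519 / 64000)) + p3 * r3 ^ (3 : ℕ) * ((43304781373 / 32000)) + r3 ^ (4 : ℕ) *
    ((45248192573 / 128000))) + p2 * r2 ^ (3 : ℕ) * (p3 ^ (4 : ℕ) * ((33563008573 / 192000)) + p3 ^ (3 : ℕ) * r3 *
    ((43264192573 / 48000)) + p3 ^ (2 : ℕ) * r3 ^ (2 : ℕ) * ((50549517373 / 32000)) + p3 * r3 ^ (3 : ℕ) *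
    ((18473600191 / 16000)) + r3 ^ (4 : ℕ) * ((19293286591 / 64000))) + r2 ^ (4 : ℕ) * (p3 ^ (4 : ℕ) *
    ((10680578191 / 256000)) + p3 ^ (3 : ℕ) * r3 * ((16309002991 / 64000)) + p3 ^ (2 : ℕ) * r3 ^ (2 : ℕ) *
    ((61093574573 / 128000)) + p3 * r3 ^ (3 : ℕ) * ((68553645773 / 192000)) + r3 ^ (4 : ℕ) * ((71313542573 /
    768000)))) + p1 ^ (3 : ℕ) * r1 * (p2 ^ (4 : ℕ) * (p3 ^ (4 : ℕ) * ((12508608191 / 64000)) + p3 ^ (3 : ℕ) * r3 *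
    ((12508608191 / 16000)) + p3 ^ (2 : ℕ) * r3 ^ (2 : ℕ) * ((37525824573 / 32000)) + p3 * r3 ^ (3 : ℕ) *
    ((12508608191 / 16000)) + r3 ^ (4 : ℕ) * ((12508608191 / 64000))) + p2 ^ (3 : ℕ) * r2 * (p3 ^ (4 : ℕ) *
    ((43614675773 / 48000)) + p3 ^ (3 : ℕ) * r3 * ((45341850173 / 12000)) + p3 ^ (2 : ℕ) * r3 ^ (2 : ℕ) *
    ((47069024573 / 8000)) + p3 * r3 ^ (3 : ℕ) * ((48796198973 / 12000)) + r3 ^ (4 : ℕ) * ((50523373373 /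
    48000))) + p2 ^ (2 : ℕ) * r2 ^ (2 : ℕ) * (p3 ^ (4 : ℕ) * ((46203584573 / 32000)) + p3 ^ (3 : ℕ) * r3 * ((51822202173
    / 8000)) + p3 ^ (2 : ℕ) * r3 ^ (2 : ℕ) * ((169817076919 / 16000)) + p3 * r3 ^ (3 : ℕ) * ((60554054973 / 8000))
    + r3 ^ (4 : ℕ) * ((63667290173 / 32000))) + p2 * r2 ^ (3 : ℕ) * (p3 ^ (4 : ℕ) * ((45646534973 / 48000)) + p3 ^
    (3 : ℕ) * r3 * ((57196256573 / 12000)) + p3 ^ (2 : ℕ) * r3 ^ (2 : ℕ) * ((66305315773 / 8000)) + p3 * r3 ^ (3 : ℕ) *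
    ((72975510973 / 12000)) + r3 ^ (4 : ℕ) * ((77208640573 / 48000))) + r2 ^ (4 : ℕ) * (p3 ^ (4 : ℕ) *
    ((42248940973 / 192000)) + p3 ^ (3 : ℕ) * r3 * ((61670727373 / 48000)) + p3 ^ (2 : ℕ) * r3 ^ (2 : ℕ) *
    ((76325868973 / 32000)) + p3 * r3 ^ (3 : ℕ) * ((28742167791 / 16000)) + r3 ^ (4 : ℕ) * ((30459624591 /
    64000)))) + p1 ^ (2 : ℕ) * r1 ^ (2 : ℕ) * (p2 ^ (4 : ℕ) * (p3 ^ (4 : ℕ) * ((43243738173 / 128000)) + p3 ^ (3 : ℕ) * r3 *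
    ((43243738173 / 32000)) + p3 ^ (2 : ℕ) * r3 ^ (2 : ℕ) * ((129731214519 / 64000)) + p3 * r3 ^ (3 : ℕ) *
    ((43243738173 / 32000)) + r3 ^ (4 : ℕ) * ((43243738173 / 128000))) + p2 ^ (3 : ℕ) * r2 * (p3 ^ (4 : ℕ) *
    ((48347379773 / 32000)) + p3 ^ (3 : ℕ) * r3 * ((50630438973 / 8000)) + p3 ^ (2 : ℕ) * r3 ^ (2 : ℕ) *
    ((158740494519 / 16000)) + p3 * r3 ^ (3 : ℕ) * ((55196557373 / 8000)) + r3 ^ (4 : ℕ) * ((57479616573 /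
    32000))) + p2 ^ (2 : ℕ) * r2 ^ (2 : ℕ) * (p3 ^ (4 : ℕ) * ((149011572919 / 64000)) + p3 ^ (3 : ℕ) * r3 *
    ((169317051319 / 16000)) + p3 ^ (2 : ℕ) * r3 ^ (2 : ℕ) * ((561272568357 / 32000)) + p3 * r3 ^ (3 : ℕ) *
    ((202332987319 / 16000)) + r3 ^ (4 : ℕ) * ((215043444919 / 64000))) + p2 * r2 ^ (3 : ℕ) * (p3 ^ (4 : ℕ) *
    ((47571072573 / 32000)) + p3 ^ (3 : ℕ) * r3 * ((60901267773 / 8000)) + p3 ^ (2 : ℕ) * r3 ^ (2 : ℕ) *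
    ((215296033719 / 16000)) + p3 * r3 ^ (3 : ℕ) * ((80165082173 / 8000)) + r3 ^ (4 : ℕ) * ((86102259773 /
    32000))) + r2 ^ (4 : ℕ) * (p3 ^ (4 : ℕ) * ((42358355373 / 128000)) + p3 ^ (3 : ℕ) * r3 * ((64226324173 /
    32000)) + p3 ^ (2 : ℕ) * r3 ^ (2 : ℕ) * ((243835219719 / 64000)) + p3 * r3 ^ (3 : ℕ) * ((93526663373 / 32000))
    + r3 ^ (4 : ℕ) * ((100977260973 / 128000)))) + p1 * r1 ^ (3 : ℕ) * (p2 ^ (4 : ℕ) * (p3 ^ (4 : ℕ) * ((13172467391 /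
    64000)) + p3 ^ (3 : ℕ) * r3 * ((13172467391 / 16000)) + p3 ^ (2 : ℕ) * r3 ^ (2 : ℕ) * ((39517402173 / 32000))
    + p3 * r3 ^ (3 : ℕ) * ((13172467391 / 16000)) + r3 ^ (4 : ℕ) * ((13172467391 / 64000))) + p2 ^ (3 : ℕ) * r2 *
    (p3 ^ (4 : ℕ) * ((14567590591 / 16000)) + p3 ^ (3 : ℕ) * r3 * ((15506854591 / 4000)) + p3 ^ (2 : ℕ) * r3 ^ (2 : ℕ) *
    ((49338355773 / 8000)) + p3 * r3 ^ (3 : ℕ) * ((17385382591 / 4000)) + r3 ^ (4 : ℕ) * ((18324646591 /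
    16000))) + p2 ^ (2 : ℕ) * r2 ^ (2 : ℕ) * (p3 ^ (4 : ℕ) * ((43825690173 / 32000)) + p3 ^ (3 : ℕ) * r3 * ((51701965373
    / 8000)) + p3 ^ (2 : ℕ) * r3 ^ (2 : ℕ) * ((176176104119 / 16000)) + p3 * r3 ^ (3 : ℕ) * ((64895898173 / 8000))
    + r3 ^ (4 : ℕ) * ((70213555773 / 32000))) + p2 * r2 ^ (3 : ℕ) * (p3 ^ (4 : ℕ) * ((40247974973 / 48000)) + p3 ^
    (3 : ℕ) * r3 * ((55295821373 / 12000)) + p3 ^ (2 : ℕ) * r3 ^ (2 : ℕ) * ((67851440573 / 8000)) + p3 * r3 ^ (3 : ℕ) *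
    ((77916592573 / 12000)) + r3 ^ (4 : ℕ) * ((85493037373 / 48000))) + r2 ^ (4 : ℕ) * (p3 ^ (4 : ℕ) *
    ((33282873773 / 192000)) + p3 ^ (3 : ℕ) * r3 * ((57513684173 / 48000)) + p3 ^ (2 : ℕ) * r3 ^ (2 : ℕ) *
    ((76878060973 / 32000)) + p3 * r3 ^ (3 : ℕ) * ((91387988173 / 48000)) + r3 ^ (4 : ℕ) * ((101049555373 /
    192000)))) + r1 ^ (4 : ℕ) * (p2 ^ (4 : ℕ) * (p3 ^ (4 : ℕ) * ((9001920191 / 256000)) + p3 ^ (3 : ℕ) * r3 *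
    ((9001920191 / 64000)) + p3 ^ (2 : ℕ) * r3 ^ (2 : ℕ) * ((27005760573 / 128000)) + p3 * r3 ^ (3 : ℕ) *
    ((9001920191 / 64000)) + r3 ^ (4 : ℕ) * ((9001920191 / 256000))) + p2 ^ (3 : ℕ) * r2 * (p3 ^ (4 : ℕ) *
    ((10113779391 / 64000)) + p3 ^ (3 : ℕ) * r3 * ((11224819391 / 16000)) + p3 ^ (2 : ℕ) * r3 ^ (2 : ℕ) *
    ((37007578173 / 32000)) + p3 * r3 ^ (3 : ℕ) * ((13446899391 / 16000)) + r3 ^ (4 : ℕ) * ((14557939391 /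
    64000))) + p2 ^ (2 : ℕ) * r2 ^ (2 : ℕ) * (p3 ^ (4 : ℕ) * ((29331110973 / 128000)) + p3 ^ (3 : ℕ) * r3 *
    ((38276570173 / 32000)) + p3 ^ (2 : ℕ) * r3 ^ (2 : ℕ) * ((139079873719 / 64000)) + p3 * r3 ^ (3 : ℕ) *
    ((53581274173 / 32000)) + r3 ^ (4 : ℕ) * ((59940518973 / 128000))) + p2 * r2 ^ (3 : ℕ) * (p3 ^ (4 : ℕ) *
    ((24340813373 / 192000)) + p3 ^ (3 : ℕ) * r3 * ((41048730173 / 48000)) + p3 ^ (2 : ℕ) * r3 ^ (2 : ℕ) *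
    ((55237658173 / 32000)) + p3 * r3 ^ (3 : ℕ) * ((66909338173 / 48000)) + r3 ^ (4 : ℕ) * ((76065510973 /
    192000))) + r2 ^ (4 : ℕ) * (p3 ^ (4 : ℕ) * ((15687609773 / 768000)) + p3 ^ (3 : ℕ) * r3 * ((42204909773 /
    192000)) + p3 ^ (2 : ℕ) * r3 ^ (2 : ℕ) * ((63803923373 / 128000)) + p3 * r3 ^ (3 : ℕ) * ((80496557773 /
    192000)) + r3 ^ (4 : ℕ) * ((92288825773 / 768000))))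

theorem bernlN4_nonneg {p1 r1 p2 r2 p3 r3 : ℝ} (h2 : 0 ≤ p1) (h3 : 0 ≤ r1) (h4 : 0 ≤ p2)
    (h5 : 0 ≤ r2) (h6 : 0 ≤ p3) (h7 : 0 ≤ r3) : 0 ≤ bernlN4 p1 r1 p2 r2 p3 r3 := by
  unfold bernlN4
  positivity

/-- Bernstein form of the certificate. -/
def bernlN (p0 r0 p1 r1 p2 r2 p3 r3 : ℝ) : ℝ :=
    p0 ^ (4 : ℕ) * bernlN0 p1 r1 p2 r2 p3 r3 + p0 ^ (3 : ℕ) * r0 * bernlN1 p1 r1 p2 r2 p3 r3 + p0 ^ (2 : ℕ) * r0 ^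
    (2 : ℕ) * bernlN2 p1 r1 p2 r2 p3 r3 + p0 * r0 ^ (3 : ℕ) * bernlN3 p1 r1 p2 r2 p3 r3 + r0 ^ (4 : ℕ) * bernlN4
    p1 r1 p2 r2 p3 r3

theorem bernlN_nonneg {p0 r0 p1 r1 p2 r2 p3 r3 : ℝ} (h0 : 0 ≤ p0) (h1 : 0 ≤ r0) (h2 : 0 ≤ p1)
    (h3 : 0 ≤ r1) (h4 : 0 ≤ p2) (h5 : 0 ≤ r2) (h6 : 0 ≤ p3) (h7 : 0 ≤ r3) :
    0 ≤ bernlN p0 r0 p1 r1 p2 r2 p3 r3 := by
  have e0 := bernlN0_nonneg h2 h3 h4 h5 h6 h7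
  have e1 := bernlN1_nonneg h2 h3 h4 h5 h6 h7
  have e2 := bernlN2_nonneg h2 h3 h4 h5 h6 h7
  have e3 := bernlN3_nonneg h2 h3 h4 h5 h6 h7
  have e4 := bernlN4_nonneg h2 h3 h4 h5 h6 h7
  unfold bernlN
  positivity

theorem caselN {u a o g : ℝ} (u0 : 0 ≤ u) (u1 : u ≤ 1 / 10) (a0 : (-1 / 2) ≤ a) (a1 : a ≤ 0)
    (o0 : 0 ≤ o) (o1 : o ≤ 1 / 2) (g0 : -(1 / 2) ≤ g) (g1 : g ≤ 1 / 2) :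
    qX u a o g + 1 / 25 * qW u a o g + 1 / 25 * qL u a o g + 1 / 1000 * u - 3 / 25 * o + 2 / 25 * a ≤ 0 := by
  have h := bernlN_nonneg (p0 := ((1 / 10) - u)) (r0 := (u - 0)) (p1 := (0 - a)) (r1 := (a - (-1 / 2)))
    (p2 := ((1 / 2) - o)) (r2 := (o - 0)) (p3 := ((1 / 2) - g)) (r3 := (g - (-1 / 2)))
    (by linarith) (by linarith) (by linarith) (by linarith) (by linarith) (by linarith)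
    (by linarith) (by linarith)
  refine neg_nonneg.1 (h.trans_eq ?_)
  unfold bernlN bernlN0 bernlN1 bernlN2 bernlN3 bernlN4 qX qW qL
  ring

end Vale.P154.PS
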