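import Vale.Agent.P154.Lattice.Algebra
import Vale.Agent.P154.Garble

/-!
# Poisson offspring: lower bounds for a whole interval of mean degrees

Pad a node with Poisson `(d)` children and `lam = -r`, `d r ^ 2 = 1`, to Poisson `(D)` children, a
child being deleted with probability `1 - d / D`. The resulting one-child functional lies above a
mixture of the channels `-a` and `-a / 2` with intensities `1 / a ^ 2` and `D - 1 / a ^ 2`,
whenever `r ≤ a` and `1 / r ^ 2 ≤ D`: this is concavity in the eigenvalue. So one finite iteration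
serves all these mean degrees.
-/

noncomputable section

namespace Vale.P154.PD

open Finset Filter Topology
open Vale.P154.Lat
open scoped ENNReal

/-- The expected sum of `G` over the boundary observations at depth `n`. -/
def nodeE (d lam : ℝ) (n : ℕ) (G : V3 → ℝ) : ℝ≥0∞ :=
  gwE (poisWeight d) n fun t => ENNReal.ofReal (∑ s : Cfg 3 n t, G (lik lam n t s))

/-- The weighted vectors `l` are below the observations at depth `n`. -/
def NodeLow (l : List (ℝ × V3)) (d lam : ℝ) (n : ℕ) : Prop :=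
  ∀ G, Conc G → ENNReal.ofReal (lval l G) ≤ nodeE d lam n G

theorem nodeLow_nil (d lam : ℝ) (n : ℕ) : NodeLow [] d lam n := fun G _ => by simp [lval]

/-- A functional completed at the unit vectors. -/
def comp (l : List (ℝ × V3)) (H : V3 → ℝ) : ℝ :=
  lval l (rest H) + (H (e1 0) + H (e1 1) + H (e1 2))

/-- The powers of a child functional. -/
def lpow (U : List (ℝ × V3)) : ℕ → List (ℝ × V3)
  | 0 => [(1, fun _ => 1)]
  | m + 1 => lmul U (lpow U m)

theorem lval_lpow_zero (U : List (ℝ × V3)) (G : V3 → ℝ) :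
    lval (lpow U 0) G = G fun _ => 1 := by simp [lpow, lval]

theorem lval_lpow_succ (U : List (ℝ × V3)) (m : ℕ) (G : V3 → ℝ) :
    lval (lpow U (m + 1)) G = lval U fun c => lval (lpow U m) fun b => G fun i => c i * b i := by
  rw [lpow, lval_lmul]; rfl

theorem pos_lpow {U : List (ℝ × V3)} (hU : Pos U) : ∀ m, Pos (lpow U m)
  | 0 => by
    intro x hx
    simp only [lpow, List.mem_singleton] at hx
    subst hx
    exact ⟨zero_le_one, fun _ => zero_le_one⟩
  | m + 1 => pos_lmul hU (pos_lpow hU m)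

/-- Averages of translates of a concave functional. -/
theorem conc_lval {l : List (ℝ × V3)} (hl : Pos l) {G : V3 → ℝ} (hG : Conc G) :
    Conc fun c => lval l fun b => G fun i => c i * b i where
  nn c hc := lval_nonneg hl fun b hb => hG.nn _ fun i => mul_nonneg (hc i) (hb i)
  smul r c hr hc := by
    rw [← lval_const_mul]
    unfold lval
    refine congrArg List.sum (List.map_congr_left fun x hx => ?_)
    show x.1 * (G fun i => r * c i * x.2 i) = x.1 * (r * G fun i => c i * x.2 i)
    congr 1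
    rw [← hG.smul r _ hr fun i => mul_nonneg (hc i) ((hl x hx).2 i)]
    simp only [mul_assoc]
  add u v hu hv := by
    rw [← lval_add]
    refine (finitary_lval hl).mono _ _ fun b hb => ?_
    refine (hG.add _ _ (fun i => mul_nonneg (hu i) (hb i))
      fun i => mul_nonneg (hv i) (hb i)).trans (le_of_eq ?_)
    simp only [add_mul]

theorem Conc.chanv {G : V3 → ℝ} (hG : Conc G) {lam : ℝ} (h0 : -(1 / 2) ≤ lam) (h1 : lam ≤ 1) :
    Conc fun v => G (chan lam v) := by
  have h0' : -1 / (((3 : ℕ) : ℝ) - 1) ≤ lam := by norm_num; linarith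
  have hn : ∀ v : V3, (∀ i, 0 ≤ v i) → ∀ i, 0 ≤ chan lam v i := fun v hv =>
    chan_nonneg (by norm_num) h0' h1 hv
  refine ⟨fun v hv => hG.nn _ (hn v hv), fun r v hr hv => ?_, fun u v hu hv => ?_⟩
  · rw [← hG.smul r _ hr (hn v hv)]
    congr 1
    funext i
    simp only [chan, Finset.mul_sum]
    exact Finset.sum_congr rfl fun j _ => by ring
  · refine (hG.add _ _ (hn u hu) (hn v hv)).trans (le_of_eq ?_)
    congr 1
    funext i
    simp only [chan, ← Finset.sum_add_distrib, mul_add]

section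

variable {d lam : ℝ} (hd : 0 ≤ d) (h0 : -(1 / 2) ≤ lam) (h1 : lam ≤ 1)

include h0 h1

theorem lik_nn (n : ℕ) (t : PTree n) (s : Cfg 3 n t) (i : Fin 3) : 0 ≤ lik lam n t s i :=
  lik_nonneg (by norm_num) (by norm_num; linarith) h1 n t s i

include hd

theorem comp_le {l : List (ℝ × V3)} {n : ℕ} (hl : NodeLow l d lam n) {H : V3 → ℝ} (hH : Conc H) :
    ENNReal.ofReal (comp l H) ≤ nodeE d lam n H := by
  have hs : 0 ≤ H (e1 0) + H (e1 1) + H (e1 2) :=
    add_nonneg (add_nonneg (hH.nn _ (e1_nonneg 0)) (hH.nn _ (e1_nonneg 1))) (hH.nn _ (e1_nonneg 2))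
  have e : nodeE d lam n H =
      nodeE d lam n (rest H) + ENNReal.ofReal (H (e1 0) + H (e1 1) + H (e1 2)) := by
    have h1' := gwE_one (poisWeight_nonneg hd) (tsum_poisWeight hd) n
    unfold nodeE
    conv_rhs => arg 2; rw [← one_mul (ENNReal.ofReal _), ← h1']
    simp only [gwE, ← ENNReal.tsum_mul_right, ← ENNReal.tsum_add]
    refine tsum_congr fun t => ?_
    rw [mul_one, ← mul_add, ← ENNReal.ofReal_add (Finset.sum_nonneg fun s _ =>
      hH.rest.nn _ (lik_nn h0 h1 n t s)) hs]
    congr 2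
    simp only [rest, Finset.sum_sub_distrib, Finset.sum_add_distrib, ← Finset.sum_mul, sum_lik,
      one_mul]
    ring
  rw [e, comp]
  exact ENNReal.ofReal_add_le.trans (add_le_add (hl _ hH.rest) le_rfl)

/-- The expected product over `k` children. -/
def childX (d lam : ℝ) (n k : ℕ) (G : V3 → ℝ) : ℝ≥0∞ :=
  piE (poisWeight d) n k fun ch => ENNReal.ofReal
    (∑ s : (c : Fin k) → Cfg 3 n (ch c), G fun i => ∏ c, chan lam (lik lam n (ch c) (s c)) i)

omit hd h0 h1 in
theorem childX_zero (n : ℕ) (G : V3 → ℝ) :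
    childX d lam n 0 G = ENNReal.ofReal (G fun _ => 1) := by
  simp [childX, piE]

omit hd in
theorem childX_succ (n k : ℕ) {G : V3 → ℝ} (hG : Conc G) :
    childX d lam n (k + 1) G = gwE (poisWeight d) n fun x =>
      ∑ a : Cfg 3 n x, childX d lam n k fun v => G fun i => chan lam (lik lam n x a) i * v i := by
  have hn : ∀ (t : PTree n) (s : Cfg 3 n t) i, 0 ≤ chan lam (lik lam n t s) i := fun t s =>
    chan_nonneg (by norm_num) (by norm_num; linarith) h1 (lik_nn h0 h1 n t s)
  rw [childX, piE_succ]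
  congr 1
  funext x
  unfold childX piE
  rw [← Summable.tsum_finsetSum fun _ _ => ENNReal.summable]
  refine tsum_congr fun ch => ?_
  rw [← Finset.mul_sum, ← ENNReal.ofReal_sum_of_nonneg fun a _ => Finset.sum_nonneg fun s _ =>
    hG.nn _ fun i => mul_nonneg (hn _ _ i) (Finset.prod_nonneg fun c _ => hn _ _ i)]
  dsimp only
  congr 2
  rw [← (Fin.consEquiv fun c => Cfg 3 n ((Fin.cons x ch : Fin (k + 1) → PTree n) c)).sum_comp,
    Fintype.sum_prod_type]
  refine Finset.sum_congr rfl fun a _ => Finset.sum_congr rfl fun s _ => congrArg G ?_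
  funext i
  rw [Fin.prod_univ_succ]
  rfl

omit h0 h1 in
theorem nodeE_succ (n : ℕ) (G : V3 → ℝ) :
    nodeE d lam (n + 1) G =
      ∑' k, ENNReal.ofReal (poisWeight d k) * childX d lam n k G := by
  rw [nodeE, gwE_succ (poisWeight_nonneg hd)]
  rfl

/-- One child after padding. -/
def padE (d lam θ : ℝ) (n : ℕ) (G : V3 → ℝ) : ℝ≥0∞ :=
  ENNReal.ofReal (1 - θ) * ENNReal.ofReal (G fun _ => 1) +
    ENNReal.ofReal θ * nodeE d lam n fun v => G (chan lam v)

theorem lpow_le {U : List (ℝ × V3)} (hUp : Pos U) {θ : ℝ} {n : ℕ}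
    (hU : ∀ G, Conc G → ENNReal.ofReal (lval U G) ≤ padE d lam θ n G) :
    ∀ (m : ℕ) (G : V3 → ℝ), Conc G → ENNReal.ofReal (lval (lpow U m) G) ≤
      ∑ x ∈ Finset.HasAntidiagonal.antidiagonal m, ((m.choose x.1 : ℕ) : ℝ≥0∞) *
        (ENNReal.ofReal θ ^ x.1 * ENNReal.ofReal (1 - θ) ^ x.2 * childX d lam n x.1 G)
  | 0, G, _ => by simp [lval_lpow_zero, childX_zero]
  | m + 1, G, hG => by
    have ih := lpow_le hUp hU m
    have hH := conc_lval (pos_lpow hUp m) hG
    have hn : ∀ (t : PTree n) (s : Cfg 3 n t) i, 0 ≤ chan lam (lik lam n t s) i := fun t s =>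
      chan_nonneg (by norm_num) (by norm_num; linarith) h1 (lik_nn h0 h1 n t s)
    rw [lval_lpow_succ, Finset.sum_antidiagonal_choose_succ_mul fun i j =>
      ENNReal.ofReal θ ^ i * ENNReal.ofReal (1 - θ) ^ j * childX d lam n i G]
    refine (hU _ hH).trans (add_le_add ?_ ?_)
    · simp only [one_mul]
      refine (mul_le_mul_right (ih G hG) _).trans (le_of_eq ?_)
      rw [Finset.mul_sum]
      exact Finset.sum_congr rfl fun x _ => by ring
    · refine le_trans (mul_le_mul_right (ENNReal.tsum_le_tsum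
        (g := fun x => ENNReal.ofReal (gwWeight (poisWeight d) n x) *
          ∑ y ∈ Finset.HasAntidiagonal.antidiagonal m, ((m.choose y.1 : ℕ) : ℝ≥0∞) *
          (ENNReal.ofReal θ ^ y.1 * ENNReal.ofReal (1 - θ) ^ y.2 * ∑ a : Cfg 3 n x,
            childX d lam n y.1 fun v => G fun i => chan lam (lik lam n x a) i * v i))
        fun x => mul_le_mul_right ?_ _) _) (le_of_eq ?_)
      · rw [ENNReal.ofReal_sum_of_nonneg fun s _ => hH.nn _ (hn x s)]
        simp only [Finset.mul_sum]
        rw [Finset.sum_comm]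
        refine Finset.sum_le_sum fun a _ => ih _ ?_
        simpa only [mul_comm] using hG.mulv (hn x a)
      · simp only [Finset.mul_sum]
        rw [Summable.tsum_finsetSum fun _ _ => ENNReal.summable, Finset.mul_sum]
        refine Finset.sum_congr rfl fun y hy => ?_
        rw [Finset.HasAntidiagonal.mem_antidiagonal] at hy
        rw [show m.choose y.2 = m.choose y.1 from (Nat.choose_symm_of_eq_add hy.symm).symm,
          childX_succ h0 h1 n y.1 hG, pow_succ, gwE, ← ENNReal.tsum_mul_left,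
          ← ENNReal.tsum_mul_left, ← ENNReal.tsum_mul_left]
        refine tsum_congr fun x => ?_
        simp only [Finset.mul_sum]
        exact Finset.sum_congr rfl fun a _ => by ring

end

/-- `l` is below the Poisson series of `U` with parameter `δ`. -/
def Mixes (U : List (ℝ × V3)) (δ : ℝ) (l : List (ℝ × V3)) : Prop :=
  ∀ G, Conc G → ENNReal.ofReal (lval l G) ≤
    ∑' m, ENNReal.ofReal (poisWeight δ m) * ENNReal.ofReal (lval (lpow U m) G)

theorem Mixes.mono {U l l' : List (ℝ × V3)} {δ : ℝ} (h : Mixes U δ l)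
    (hle : ∀ G, Conc G → lval l' G ≤ lval l G) : Mixes U δ l' :=
  fun G hG => (ENNReal.ofReal_le_ofReal (hle G hG)).trans (h G hG)

theorem lval_lpow_add (U : List (ℝ × V3)) : ∀ (i j : ℕ) (G : V3 → ℝ),
    lval (lpow U (i + j)) G = two (lval (lpow U i)) (lval (lpow U j)) G
  | 0, j, G => by simp [two, lval_lpow_zero]
  | i + 1, j, G => by
    rw [show i + 1 + j = i + j + 1 by omega, lval_lpow_succ]
    unfold two
    rw [lval_lpow_succ]
    congr 1
    funext c
    rw [lval_lpow_add U i j]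
    simp only [two, mul_assoc]

theorem Mixes.mul {U l l' : List (ℝ × V3)} {a b : ℝ} (ha : 0 ≤ a) (hb : 0 ≤ b) (hUp : Pos U)
    (hl' : Pos l') (h : Mixes U a l) (h' : Mixes U b l') : Mixes U (a + b) (lmul l l') := by
  intro G hG
  rw [lval_lmul]
  refine (h _ (conc_lval hl' hG)).trans ?_
  let g : ℕ × ℕ → ℝ≥0∞ := fun x => ENNReal.ofReal (poisWeight a x.1) *
    ENNReal.ofReal (poisWeight b x.2) * ENNReal.ofReal (lval (lpow U (x.1 + x.2)) G)
  calc ∑' i, ENNReal.ofReal (poisWeight a i) *
        ENNReal.ofReal (lval (lpow U i) fun c => lval l' fun x => G fun k => c k * x k)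
      ≤ ∑' i, ∑' j, g (i, j) := by
        refine ENNReal.tsum_le_tsum fun i => ?_
        have e : lval (lpow U i) (fun c => lval l' fun x => G fun k => c k * x k) =
            lval l' fun x => lval (lpow U i) fun c => G fun k => x k * c k := two_comm _ _ G
        rw [e]
        refine (mul_le_mul_right (h' _ (conc_lval (pos_lpow hUp i) hG)) _).trans (le_of_eq ?_)
        rw [← ENNReal.tsum_mul_left]
        refine tsum_congr fun j => ?_
        simp only [g, add_comm i j, lval_lpow_add U j i G, two]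
        ring
    _ = _ := by
        rw [← ENNReal.tsum_prod',
          ← (Finset.HasAntidiagonal.sigmaAntidiagonalEquivProd (A := ℕ)).tsum_eq, ENNReal.tsum_sigma']
        refine tsum_congr fun m => ?_
        rw [poisWeight_add, ENNReal.ofReal_sum_of_nonneg fun x _ =>
          mul_nonneg (poisWeight_nonneg ha _) (poisWeight_nonneg hb _), Finset.sum_mul]
        refine Eq.trans (Finset.tsum_subtype _ g) ?_
        refine Finset.sum_congr rfl fun x hx => ?_
        rw [ENNReal.ofReal_mul (poisWeight_nonneg ha _)]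
        simp [g, Finset.HasAntidiagonal.mem_antidiagonal.1 hx]

/-- Scaled weights. -/
def lscale (c : ℝ) (l : List (ℝ × V3)) : List (ℝ × V3) := l.map fun x => (c * x.1, x.2)

/-- A truncated series. -/
def series (U : List (ℝ × V3)) (c : ℕ → ℝ) : ℕ → List (ℝ × V3)
  | 0 => []
  | m + 1 => series U c m ++ lscale (c m) (lpow U m)

theorem lval_series (U : List (ℝ × V3)) (c : ℕ → ℝ) (G : V3 → ℝ) : ∀ M,
    lval (series U c M) G = ∑ m ∈ Finset.range M, c m * lval (lpow U m) G
  | 0 => by simp [series, lval]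
  | M + 1 => by
    rw [series, lval_append, lval_series U c G M, Finset.sum_range_succ]
    simp [lval, lscale, Function.comp_def, mul_assoc, List.sum_map_mul_left]

theorem Mixes.of_series {U : List (ℝ × V3)} (hUp : Pos U) {δ : ℝ} (hδ : 0 ≤ δ) {c : ℕ → ℝ}
    (M : ℕ) (hc : ∀ m, m < M → c m ≤ poisWeight δ m) : Mixes U δ (series U c M) := by
  intro G hG
  rw [lval_series]
  refine le_trans ?_ (ENNReal.sum_le_tsum (Finset.range M))
  rw [← Finset.sum_congr rfl fun m _ => ENNReal.ofReal_mul (poisWeight_nonneg hδ m),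
    ← ENNReal.ofReal_sum_of_nonneg fun m _ => mul_nonneg (poisWeight_nonneg hδ m)
      (lval_nonneg (pos_lpow hUp m) hG.nn)]
  exact ENNReal.ofReal_le_ofReal (Finset.sum_le_sum fun m hm => mul_le_mul_of_nonneg_right
    (hc m (Finset.mem_range.1 hm)) (lval_nonneg (pos_lpow hUp m) hG.nn))

theorem poisWeight_split {d e : ℝ} (hde : d + e ≠ 0) (i j : ℕ) :
    poisWeight (d + e) (i + j) * (((i + j).choose i : ℕ) : ℝ) *
      ((d / (d + e)) ^ i * (e / (d + e)) ^ j) = poisWeight d i * poisWeight e j := by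
  unfold poisWeight
  have hf := congrArg (Nat.cast (R := ℝ)) (Nat.add_choose_mul_factorial_mul_factorial i j)
  rw [← Nat.choose_symm_add] at hf
  push_cast at hf
  rw [show -(d + e) = -d + -e by ring, Real.exp_add, ← hf, div_pow, div_pow]
  have hc : (((i + j).choose i : ℕ) : ℝ) ≠ 0 := by
    exact_mod_cast (Nat.choose_pos (Nat.le_add_right i j)).ne'
  have := Nat.cast_ne_zero (R := ℝ).2 i.factorial_ne_zero
  have := Nat.cast_ne_zero (R := ℝ).2 j.factorial_ne_zero
  have := pow_ne_zero i hde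
  have := pow_ne_zero j hde
  field_simp
  ring

/-- A bound for the padded child gives one for the node. -/
theorem node_low {d e lam : ℝ} (hd : 0 < d) (he : 0 ≤ e) (h0 : -(1 / 2) ≤ lam) (h1 : lam ≤ 1)
    {U l : List (ℝ × V3)} (hUp : Pos U) {n : ℕ}
    (hU : ∀ G, Conc G → ENNReal.ofReal (lval U G) ≤ padE d lam (d / (d + e)) n G)
    (hl : Mixes U (d + e) l) : NodeLow l d lam (n + 1) := by
  intro G hG
  have hde : 0 < d + e := by linarith
  have hθ : 1 - d / (d + e) = e / (d + e) := by field_simp; ring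
  refine (hl G hG).trans ((ENNReal.tsum_le_tsum fun m =>
    mul_le_mul_right (lpow_le hd.le h0 h1 hUp hU m G hG) _).trans (le_of_eq ?_))
  let g : ℕ × ℕ → ℝ≥0∞ := fun x =>
    ENNReal.ofReal (poisWeight d x.1) * ENNReal.ofReal (poisWeight e x.2) * childX d lam n x.1 G
  calc _ = ∑' x, g x := by
        rw [← (Finset.HasAntidiagonal.sigmaAntidiagonalEquivProd (A := ℕ)).tsum_eq g,
          ENNReal.tsum_sigma']
        refine tsum_congr fun m => ?_
        rw [Finset.mul_sum]
        refine Eq.trans ?_ (Finset.tsum_subtype _ g).symm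
        refine Finset.sum_congr rfl fun x hx => ?_
        obtain rfl := Finset.HasAntidiagonal.mem_antidiagonal.1 hx
        have h2 : 0 ≤ e / (d + e) := by positivity
        have h3 : 0 ≤ d / (d + e) := by positivity
        simp only [g]
        rw [← ENNReal.ofReal_mul (poisWeight_nonneg hd.le _), ← poisWeight_split hde.ne', hθ,
          ← ENNReal.ofReal_pow h3, ← ENNReal.ofReal_pow h2, ← ENNReal.ofReal_natCast,
          ENNReal.ofReal_mul (mul_nonneg (poisWeight_nonneg hde.le _) (Nat.cast_nonneg _)),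
          ENNReal.ofReal_mul (poisWeight_nonneg hde.le _), ENNReal.ofReal_mul (pow_nonneg h3 _)]
        ring
    _ = nodeE d lam (n + 1) G := by
        rw [ENNReal.tsum_prod', nodeE_succ hd.le]
        refine tsum_congr fun i => ?_
        simp only [g, ENNReal.tsum_mul_right, ENNReal.tsum_mul_left, tsum_poisWeight he, mul_one]

theorem chan_three (lam : ℝ) (v : V3) (i : Fin 3) :
    chan lam v i = lam * v i + (1 - lam) * ((v 0 + v 1 + v 2) / 3) := by
  rw [chan, potts_mul, Fin.sum_univ_three]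
  norm_num

/-- Concavity in the eigenvalue and symmetry: the two channels against one. -/
theorem two_channels {G : V3 → ℝ} (hG : Conc G) (hS : Sym G) {v : V3} (hv : ∀ i, 0 ≤ v i)
    {a r D : ℝ} (hr : 0 < r) (hra : r ≤ a) (ha : a ≤ 1 / 2) (hD : 1 ≤ D * r ^ 2) :
    1 / (D * a ^ 2) * G (chan (-a) v) + (1 - 1 / (D * a ^ 2)) * G (chan (-(a / 2)) v) ≤
      (1 - 1 / (D * r ^ 2)) * G (chan 0 v) + 1 / (D * r ^ 2) * G (chan (-r) v) := by
  have ha0 : 0 < a := hr.trans_le hra
  have hD0 : 0 < D := by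
    by_contra h
    push Not at h
    nlinarith [sq_nonneg r]
  have hn : ∀ t, 0 ≤ t → t ≤ 1 / 2 → ∀ i, 0 ≤ chan (-t) v i := fun t h0 h1 =>
    chan_nonneg (by norm_num) (by norm_num; linarith) (by linarith) hv
  have hb2 : a / 2 ≤ 1 / 2 := by linarith
  have hz : ∀ i, 0 ≤ chan 0 v i := fun i => by
    rw [chan_three]; linarith [hv 0, hv 1, hv 2]
  -- the centre dominates
  have hsym : G (chan (-(a / 2)) v) ≤ G (chan 0 v) := by
    set w := chan (-(a / 2)) v with hw
    have h1 : G (fun i => w (i + 1)) = G w := hS (Equiv.addRight 1) w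
    have h2 : G (fun i => w (i + 2)) = G w := hS (Equiv.addRight 2) w
    have hw0 : ∀ i, 0 ≤ w i := hn _ (by linarith) hb2
    have e : (fun i => w i + w (i + 1) + w (i + 2)) = fun i => 3 * chan 0 v i := by
      funext i
      simp only [hw, chan_three]
      fin_cases i <;> simp <;> ring
    have := (add_le_add (hG.add w (fun i => w (i + 1)) hw0 fun i => hw0 _) le_rfl).trans
      (hG.add _ (fun i => w (i + 2)) (fun i => add_nonneg (hw0 i) (hw0 _)) fun i => hw0 _)
    rw [e, hG.smul 3 _ (by norm_num) hz, h1, h2] at this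
    linarith
  set α := r ^ 2 / a ^ 2 with hα
  set β := (1 - α) * (2 * r / (a + r)) with hβ
  have hα0 : 0 ≤ α := by positivity
  have hα1 : α ≤ 1 := by
    rw [hα, div_le_one (by positivity)]
    exact pow_le_pow_left₀ hr.le hra 2
  have hq : 2 * r / (a + r) ≤ 1 := by rw [div_le_one (by linarith)]; linarith
  have hβ0 : 0 ≤ β := mul_nonneg (by linarith) (by positivity)
  have hβ1 : β ≤ 1 - α := mul_le_of_le_one_right (by linarith) hq
  have hmean : α * a + β * (a / 2) = r := by
    simp only [hβ, hα]; field_simp; ring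
  -- concavity
  have hconc : α * G (chan (-a) v) + β * G (chan (-(a / 2)) v) + (1 - α - β) * G (chan 0 v) ≤
      G (chan (-r) v) := by
    have e : (fun i => α * chan (-a) v i + β * chan (-(a / 2)) v i + (1 - α - β) * chan 0 v i) =
        chan (-r) v := by
      funext i
      simp only [chan_three]
      linear_combination ((v 0 + v 1 + v 2) / 3 - v i) * hmean
    have p1 : ∀ i, 0 ≤ α * chan (-a) v i := fun i => mul_nonneg hα0 (hn _ ha0.le ha i)
    have p2 : ∀ i, 0 ≤ β * chan (-(a / 2)) v i := fun i =>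
      mul_nonneg hβ0 (hn _ (by linarith) hb2 i)
    have p3 : ∀ i, 0 ≤ (1 - α - β) * chan 0 v i := fun i => mul_nonneg (by linarith) (hz i)
    have := (add_le_add (hG.add _ _ p1 p2) le_rfl).trans
      (hG.add _ _ (fun i => add_nonneg (p1 i) (p2 i)) p3)
    rw [e, hG.smul _ _ hα0 (hn _ ha0.le ha), hG.smul _ _ hβ0 (hn _ (by linarith) hb2),
      hG.smul _ _ (by linarith) hz] at this
    exact this
  have hθ : 0 ≤ 1 / (D * r ^ 2) := by positivity
  have hθ1 : 1 / (D * r ^ 2) ≤ 1 := by rw [div_le_one (by positivity)]; exact hD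
  have eA : 1 / (D * r ^ 2) * α = 1 / (D * a ^ 2) := by rw [hα]; field_simp
  have hcap : 1 / (D * r ^ 2) * β ≤ 1 - 1 / (D * a ^ 2) := by
    rw [← eA]
    nlinarith [mul_le_mul_of_nonneg_left hβ1 hθ]
  have k1 := mul_le_mul_of_nonneg_left hconc hθ
  have k2 := mul_le_mul_of_nonneg_left hsym (sub_nonneg.2 hcap)
  rw [← eA] at k2 ⊢
  linear_combination k1 + k2

/-- The two channels bound the padded child, for all admissible mean degrees. -/
theorem child_low {a r D : ℝ} (hr : 0 < r) (hra : r ≤ a) (ha : a ≤ 1 / 2) (hD : 1 ≤ D * r ^ 2)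
    {U l : List (ℝ × V3)} {n : ℕ} (hl : NodeLow l (1 / r ^ 2) (-r) n)
    (hsym : ∀ G, lval U G = lval U (avg G))
    (hU : ∀ G, Conc G → Sym G → lval U G ≤ 1 / (D * a ^ 2) * comp l (fun v => G (chan (-a) v)) +
      (1 - 1 / (D * a ^ 2)) * comp l (fun v => G (chan (-(a / 2)) v))) {G : V3 → ℝ} (hG : Conc G) :
    ENNReal.ofReal (lval U G) ≤ padE (1 / r ^ 2) (-r) (1 / (D * r ^ 2)) n G := by
  have hd : 0 ≤ 1 / r ^ 2 := by positivity
  have h0 : -(1 / 2) ≤ -r := by linarith
  have h1 : -r ≤ 1 := by linarith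
  have hD0 : 0 < D := by
    by_contra h
    push Not at h
    nlinarith [sq_nonneg r]
  have ha0 : 0 < a := hr.trans_le hra
  have hA : 0 ≤ 1 / (D * a ^ 2) := by positivity
  have hA1 : 0 ≤ 1 - 1 / (D * a ^ 2) := by
    rw [sub_nonneg, div_le_one (by positivity)]
    exact hD.trans (mul_le_mul_of_nonneg_left (pow_le_pow_left₀ hr.le hra 2) hD0.le)
  have hθ : 0 ≤ 1 / (D * r ^ 2) := by positivity
  have hθ1 : 0 ≤ 1 - 1 / (D * r ^ 2) := by
    rw [sub_nonneg, div_le_one (by positivity)]; exact hD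
  have hn : ∀ (t : PTree n) (s : Cfg 3 n t) i, 0 ≤ lik (-r) n t s i := lik_nn h0 h1 n
  have hsame : padE (1 / r ^ 2) (-r) (1 / (D * r ^ 2)) n (avg G) =
      padE (1 / r ^ 2) (-r) (1 / (D * r ^ 2)) n G := by
    have e : avg G (fun _ => 1) = G fun _ => 1 := by
      simp [avg, Fintype.card_perm, Fintype.card_fin, Nat.factorial]
    have e' : ∀ t : PTree n, ∑ s : Cfg 3 n t, avg G (chan (-r) (lik (-r) n t s)) =
        ∑ s : Cfg 3 n t, G (chan (-r) (lik (-r) n t s)) := by
      intro t
      unfold avg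
      rw [← Finset.sum_div, Finset.sum_comm]
      have : ∀ π : Equiv.Perm (Fin 3),
          ∑ s : Cfg 3 n t, G (fun i => chan (-r) (lik (-r) n t s) (π i)) =
            ∑ s : Cfg 3 n t, G (chan (-r) (lik (-r) n t s)) := by
        intro π
        rw [← sum_lik_perm (-r) π n t fun v => G (chan (-r) v)]
        refine Finset.sum_congr rfl fun s _ => congrArg G ?_
        funext i
        exact (chan_comp_perm (-r) π _ i).symm
      simp only [this, Finset.sum_const, Finset.card_univ, Fintype.card_perm, Fintype.card_fin,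
        nsmul_eq_mul]
      norm_num [Nat.factorial]
    simp only [padE, nodeE, e, e']
  rw [hsym, ← hsame]
  set F := avg G with hFdef
  have hF : Conc F := hG.avg
  have hFs : Sym F := sym_avg G
  have ca : Conc fun v => F (chan (-a) v) := Conc.chanv hF (by linarith) (by linarith)
  have cb : Conc fun v => F (chan (-(a / 2)) v) := Conc.chanv hF (by linarith) (by linarith)
  refine (ENNReal.ofReal_le_ofReal (hU F hF hFs)).trans (ENNReal.ofReal_add_le.trans ?_)
  rw [ENNReal.ofReal_mul hA, ENNReal.ofReal_mul hA1]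
  refine (add_le_add (mul_le_mul_right (comp_le hd h0 h1 hl ca) _)
    (mul_le_mul_right (comp_le hd h0 h1 hl cb) _)).trans ?_
  have h1' := gwE_one (poisWeight_nonneg hd) (tsum_poisWeight hd) n
  unfold padE nodeE
  conv_rhs => arg 1; arg 2; rw [← one_mul (ENNReal.ofReal _), ← h1']
  simp only [gwE, ← ENNReal.tsum_mul_left, ← ENNReal.tsum_mul_right, ← ENNReal.tsum_add]
  refine ENNReal.tsum_le_tsum fun t => ?_
  have hone : ∀ i, (0 : ℝ) ≤ (fun _ : Fin 3 => (1 : ℝ)) i := fun _ => zero_le_one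
  have hz : ∀ s, F (chan 0 (lik (-r) n t s)) = ((∑ i, lik (-r) n t s i) / 3) * F fun _ => 1 := by
    intro s
    rw [← hF.smul _ _ (div_nonneg (Finset.sum_nonneg fun i _ => hn t s i) (by norm_num)) hone]
    congr 1
    funext i
    rw [chan_three, Fin.sum_univ_three]
    ring
  have hm : ∑ s : Cfg 3 n t, F (chan 0 (lik (-r) n t s)) = F fun _ => 1 := by
    simp only [hz, ← Finset.sum_mul]
    have := sum_mass (q := 3) (-r) n t
    push_cast at this
    rw [this, one_mul]
  have key : 1 / (D * a ^ 2) * ∑ s : Cfg 3 n t, F (chan (-a) (lik (-r) n t s)) +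
      (1 - 1 / (D * a ^ 2)) * ∑ s : Cfg 3 n t, F (chan (-(a / 2)) (lik (-r) n t s)) ≤
      (1 - 1 / (D * r ^ 2)) * F (fun _ => 1) +
        1 / (D * r ^ 2) * ∑ s : Cfg 3 n t, F (chan (-r) (lik (-r) n t s)) := by
    rw [← hm]
    simp only [Finset.mul_sum, ← Finset.sum_add_distrib]
    exact Finset.sum_le_sum fun s _ => two_channels hF hFs (hn t s) hr hra ha hD
  have pa := Finset.sum_nonneg fun (s : Cfg 3 n t) (_ : s ∈ Finset.univ) => ca.nn _ (hn t s)
  have pb := Finset.sum_nonneg fun (s : Cfg 3 n t) (_ : s ∈ Finset.univ) => cb.nn _ (hn t s)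
  have key' := ENNReal.ofReal_le_ofReal key
  rw [ENNReal.ofReal_add (mul_nonneg hA pa) (mul_nonneg hA1 pb),
    ENNReal.ofReal_add (mul_nonneg hθ1 (hF.nn _ hone)) (mul_nonneg hθ (Finset.sum_nonneg
      fun s _ => hF.nn _ (chan_nonneg (by norm_num) (by norm_num; linarith) h1 (hn t s)))),
    ENNReal.ofReal_mul hA, ENNReal.ofReal_mul hA1, ENNReal.ofReal_mul hθ1,
    ENNReal.ofReal_mul hθ] at key'
  calc _ = ENNReal.ofReal (gwWeight (poisWeight (1 / r ^ 2)) n t) *
        (ENNReal.ofReal (1 / (D * a ^ 2)) *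
            ENNReal.ofReal (∑ s : Cfg 3 n t, F (chan (-a) (lik (-r) n t s))) +
          ENNReal.ofReal (1 - 1 / (D * a ^ 2)) *
            ENNReal.ofReal (∑ s : Cfg 3 n t, F (chan (-(a / 2)) (lik (-r) n t s)))) := by ring
    _ ≤ _ := mul_le_mul_right key' _
    _ = _ := by ring

/-- One generation for a whole interval of mean degrees. -/
theorem nodeLow_succ {a r D : ℝ} (hr : 0 < r) (hra : r ≤ a) (ha : a ≤ 1 / 2) (hD : 1 ≤ D * r ^ 2)
    {U l l' : List (ℝ × V3)} {n : ℕ} (hl : NodeLow l (1 / r ^ 2) (-r) n) (hUp : Pos U)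
    (hsym : ∀ G, lval U G = lval U (avg G))
    (hU : ∀ G, Conc G → Sym G → lval U G ≤ 1 / (D * a ^ 2) * comp l (fun v => G (chan (-a) v)) +
      (1 - 1 / (D * a ^ 2)) * comp l (fun v => G (chan (-(a / 2)) v)))
    (hl' : Mixes U D l') : NodeLow l' (1 / r ^ 2) (-r) (n + 1) := by
  have hr2 : (0 : ℝ) < r ^ 2 := pow_pos hr 2
  have he : 0 ≤ D - 1 / r ^ 2 := by
    rw [sub_nonneg, div_le_iff₀ hr2]; exact hD
  refine node_low (e := D - 1 / r ^ 2) (one_div_pos.2 hr2) he (by linarith) (by linarith) hUp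
    (fun G hG => ?_) (by rwa [add_sub_cancel])
  rw [add_sub_cancel, div_div, mul_comm (r ^ 2) D]
  exact child_low hr hra ha hD hl hsym hU hG

/-- The concave functional `S - ∑ v ^ 2 / S`, two minus chi square per unit of mass. -/
def chiC (v : V3) : ℝ := (v 0 + v 1 + v 2) - (v 0 ^ 2 + v 1 ^ 2 + v 2 ^ 2) / (v 0 + v 1 + v 2)

theorem conc_chiC : Conc chiC := by
  refine ⟨fun v hv => ?_, fun r v hr _ => ?_, fun u v hu hv => ?_⟩
  · unfold chiC
    rw [sub_nonneg]
    refine div_le_of_le_mul₀ (by linarith [hv 0, hv 1, hv 2]) (by linarith [hv 0, hv 1, hv 2]) ?_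
    nlinarith [mul_nonneg (hv 0) (hv 1), mul_nonneg (hv 0) (hv 2), mul_nonneg (hv 1) (hv 2)]
  · unfold chiC
    rcases hr.eq_or_lt with rfl | hr
    · simp
    · field_simp
  · unfold chiC
    have eU : 0 ≤ u 0 + u 1 + u 2 := by linarith [hu 0, hu 1, hu 2]
    have eV : 0 ≤ v 0 + v 1 + v 2 := by linarith [hv 0, hv 1, hv 2]
    rcases eU.eq_or_lt with h | h
    · have a0 : u 0 = 0 := by linarith [hu 0, hu 1, hu 2]
      have a1 : u 1 = 0 := by linarith [hu 0, hu 1, hu 2]
      have a2 : u 2 = 0 := by linarith [hu 0, hu 1, hu 2]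
      simp [a0, a1, a2]
    rcases eV.eq_or_lt with h' | h'
    · have a0 : v 0 = 0 := by linarith [hv 0, hv 1, hv 2]
      have a1 : v 1 = 0 := by linarith [hv 0, hv 1, hv 2]
      have a2 : v 2 = 0 := by linarith [hv 0, hv 1, hv 2]
      simp [a0, a1, a2]
    set S := u 0 + u 1 + u 2 with hS
    set T := v 0 + v 1 + v 2 with hT
    have key : ∀ x y : ℝ, (x + y) ^ 2 / (S + T) ≤ x ^ 2 / S + y ^ 2 / T := by
      intro x y
      rw [div_add_div _ _ h.ne' h'.ne', div_le_div_iff₀ (by linarith) (mul_pos h h')]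
      nlinarith [sq_nonneg (x * T - y * S)]
    have e : u 0 + v 0 + (u 1 + v 1) + (u 2 + v 2) = S + T := by simp only [hS, hT]; ring
    rw [e]
    have k0 := key (u 0) (v 0)
    have k1 := key (u 1) (v 1)
    have k2 := key (u 2) (v 2)
    simp only [add_div] at *
    linarith

/-- A lower bound with a large value of `chiC` makes the magnetisation small. -/
theorem small_of_low {d lam : ℝ} (hd : 0 ≤ d) (h0 : -(1 / 2) ≤ lam) (h1 : lam ≤ 1)
    {l : List (ℝ × V3)} {n : ℕ} (hl : NodeLow l d lam n) {θ : ℝ} (hθ0 : 0 ≤ θ)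
    (h : 2 - θ ≤ lval l chiC) :
    gwE (poisWeight d) n (fun t => ENNReal.ofReal (xTree 3 lam n t)) ≤ ENNReal.ofReal θ := by
  have hx0 : ∀ t, 0 ≤ xTree 3 lam n t := xTree_nonneg (by norm_num) (by norm_num; linarith) h1 n
  have hc : ∀ t, 0 ≤ ∑ s : Cfg 3 n t, chiC (lik lam n t s) := fun t =>
    Finset.sum_nonneg fun s _ => conc_chiC.nn _ (lik_nn h0 h1 n t s)
  have per : ∀ t : PTree n, ∑ s : Cfg 3 n t, chiC (lik lam n t s) + xTree 3 lam n t = 2 := by
    intro t
    have hm := sum_mass (q := 3) lam n t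
    push_cast at hm
    rw [xTree, ← Finset.sum_add_distrib, show (2 : ℝ) = 2 * ∑ s : Cfg 3 n t,
      (∑ i, lik lam n t s i) / 3 by rw [hm]; norm_num, Finset.mul_sum]
    refine Finset.sum_congr rfl fun s _ => ?_
    simp only [chiC, Fin.sum_univ_three]
    push_cast
    have hl := lik_nn h0 h1 n t s
    rcases (show 0 ≤ lik lam n t s 0 + lik lam n t s 1 + lik lam n t s 2 by
      linarith [hl 0, hl 1, hl 2]).eq_or_lt with h | h
    · rw [← h]; simp
    · field_simp
      ring
  have two : nodeE d lam n chiC + gwE (poisWeight d) n (fun t => ENNReal.ofReal (xTree 3 lam n t))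
      = ENNReal.ofReal 2 := by
    have h1' := gwE_one (poisWeight_nonneg hd) (tsum_poisWeight hd) n
    rw [← one_mul (ENNReal.ofReal 2), ← h1']
    simp only [nodeE, gwE, ← ENNReal.tsum_add, ← ENNReal.tsum_mul_right]
    refine tsum_congr fun t => ?_
    rw [mul_one, ← mul_add, ← ENNReal.ofReal_add (hc t) (hx0 t), per]
  by_cases h2 : 2 ≤ θ
  · refine le_trans ?_ (ENNReal.ofReal_le_ofReal h2)
    rw [← two]
    exact le_add_self
  · have h3 : ENNReal.ofReal (2 - θ) +
        gwE (poisWeight d) n (fun t => ENNReal.ofReal (xTree 3 lam n t)) ≤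
          ENNReal.ofReal (2 - θ) + ENNReal.ofReal θ := by
      rw [← ENNReal.ofReal_add (by linarith) hθ0, show (2 - θ) + θ = 2 by ring, ← two]
      exact add_le_add ((ENNReal.ofReal_le_ofReal h).trans (hl _ conc_chiC)) le_rfl
    exact (ENNReal.add_le_add_iff_left ENNReal.ofReal_ne_top).1 h3

end Vale.P154.PD
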