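import Mathlib

/-!
# Three states: the nonlinear parts of the moment recursion
-/

noncomputable section

namespace Vale.P154.PS

set_option maxHeartbeats 4000000

/-- The nonlinear part for the chi-square, divided by `u`. -/
def qX (u a o g : ℝ) : ℝ :=
    (-1 / 4) * u + (1 / 2) * u * o + (1 / 8) * u * o ^ (2 : ℕ) + (-3 / 4) * u * o ^ (2 : ℕ) * g + (1 / 2) *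
    u * o ^ (2 : ℕ) * g ^ (2 : ℕ) + (-1) * u * a + (1 / 2) * u * a * o + (-1 / 2) * u * a * o * g + (1 / 2)
    * u * a ^ (2 : ℕ) + (-1 / 8) * u ^ (2 : ℕ) + (9 / 8) * u ^ (2 : ℕ) * o + (-9 / 4) * u ^ (2 : ℕ) * o * g + (-3 / 4) *
    u ^ (2 : ℕ) * o ^ (2 : ℕ) + (9 / 4) * u ^ (2 : ℕ) * o ^ (2 : ℕ) * g + (1 / 8) * u ^ (2 : ℕ) * o ^ (2 : ℕ) * g ^ (2 : ℕ) + (-9 / 32) *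
    u ^ (2 : ℕ) * o ^ (3 : ℕ) + (9 / 32) * u ^ (2 : ℕ) * o ^ (3 : ℕ) * g + (-15 / 32) * u ^ (2 : ℕ) * o ^ (3 : ℕ) * g ^ (2 : ℕ) + (1 / 48)
    * u ^ (2 : ℕ) * o ^ (3 : ℕ) * g ^ (3 : ℕ) + (11 / 4) * u ^ (2 : ℕ) * a + (-4) * u ^ (2 : ℕ) * a * o + (-1 / 2) * u ^ (2 : ℕ) * a
    * o * g + (29 / 16) * u ^ (2 : ℕ) * a * o ^ (2 : ℕ) + (-9 / 8) * u ^ (2 : ℕ) * a * o ^ (2 : ℕ) * g + (7 / 16) * u ^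
    (2 : ℕ) * a * o ^ (2 : ℕ) * g ^ (2 : ℕ) + 2 * u ^ (2 : ℕ) * a ^ (2 : ℕ) + (-5 / 8) * u ^ (2 : ℕ) * a ^ (2 : ℕ) * o + (5 / 8) * u ^ (2 : ℕ) *
    a ^ (2 : ℕ) * o * g + (-3 / 4) * u ^ (2 : ℕ) * a ^ (3 : ℕ) + (109 / 64) * u ^ (3 : ℕ) + (-39 / 16) * u ^ (3 : ℕ) * o +
    (-11 / 8) * u ^ (3 : ℕ) * o * g + (45 / 32) * u ^ (3 : ℕ) * o ^ (2 : ℕ) + (3 / 2) * u ^ (3 : ℕ) * o ^ (2 : ℕ) * g + (19 /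
    16) * u ^ (3 : ℕ) * o ^ (2 : ℕ) * g ^ (2 : ℕ) + (-3 / 32) * u ^ (3 : ℕ) * o ^ (3 : ℕ) + (-27 / 32) * u ^ (3 : ℕ) * o ^ (3 : ℕ) * g +
    (-21 / 32) * u ^ (3 : ℕ) * o ^ (3 : ℕ) * g ^ (2 : ℕ) + (-19 / 96) * u ^ (3 : ℕ) * o ^ (3 : ℕ) * g ^ (3 : ℕ) + (57 / 512) * u ^ (3 : ℕ)
    * o ^ (4 : ℕ) + (-27 / 128) * u ^ (3 : ℕ) * o ^ (4 : ℕ) * g + (117 / 256) * u ^ (3 : ℕ) * o ^ (4 : ℕ) * g ^ (2 : ℕ) + (-9 / 128)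
    * u ^ (3 : ℕ) * o ^ (4 : ℕ) * g ^ (3 : ℕ) + (5 / 128) * u ^ (3 : ℕ) * o ^ (4 : ℕ) * g ^ (4 : ℕ) + (7 / 8) * u ^ (3 : ℕ) * a + (-15 /
    8) * u ^ (3 : ℕ) * a * o + (-5 / 2) * u ^ (3 : ℕ) * a * o * g + (-3 / 16) * u ^ (3 : ℕ) * a * o ^ (2 : ℕ) + (15 / 8)
    * u ^ (3 : ℕ) * a * o ^ (2 : ℕ) * g + (1 / 16) * u ^ (3 : ℕ) * a * o ^ (2 : ℕ) * g ^ (2 : ℕ) + (-15 / 64) * u ^ (3 : ℕ) * a * o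
    ^ (3 : ℕ) + (9 / 64) * u ^ (3 : ℕ) * a * o ^ (3 : ℕ) * g + (-33 / 64) * u ^ (3 : ℕ) * a * o ^ (3 : ℕ) * g ^ (2 : ℕ) + (1 / 64) *
    u ^ (3 : ℕ) * a * o ^ (3 : ℕ) * g ^ (3 : ℕ) + (19 / 8) * u ^ (3 : ℕ) * a ^ (2 : ℕ) + (11 / 8) * u ^ (3 : ℕ) * a ^ (2 : ℕ) * o + (5 /
    8) * u ^ (3 : ℕ) * a ^ (2 : ℕ) * o * g + (13 / 64) * u ^ (3 : ℕ) * a ^ (2 : ℕ) * o ^ (2 : ℕ) + (3 / 32) * u ^ (3 : ℕ) * a ^ (2 : ℕ) *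
    o ^ (2 : ℕ) * g + (21 / 64) * u ^ (3 : ℕ) * a ^ (2 : ℕ) * o ^ (2 : ℕ) * g ^ (2 : ℕ) + (-13 / 4) * u ^ (3 : ℕ) * a ^ (3 : ℕ) + (-11 /
    16) * u ^ (3 : ℕ) * a ^ (3 : ℕ) * o + (-13 / 16) * u ^ (3 : ℕ) * a ^ (3 : ℕ) * o * g + (53 / 32) * u ^ (3 : ℕ) * a ^ (4 : ℕ) +
    (599271977 / 39321600) * u ^ (4 : ℕ)

/-- The nonlinear part for the squared chi-square, divided by `u`. -/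
def qW (u a o g : ℝ) : ℝ :=
    2 * u + 2 * u * o + (-6) * u * o * g + (7 / 8) * u * o ^ (2 : ℕ) + (7 / 4) * u * o ^ (2 : ℕ) * g ^ (2 : ℕ) + 4
    * u * a + (-6) * u * a * o + (-1) * u * a * o * g + 5 * u * a ^ (2 : ℕ) + 8 * u ^ (2 : ℕ) + (-15 / 2) *
    u ^ (2 : ℕ) * o + (-12) * u ^ (2 : ℕ) * o * g + (3 / 2) * u ^ (2 : ℕ) * o ^ (2 : ℕ) + (21 / 2) * u ^ (2 : ℕ) * o ^ (2 : ℕ) * g +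
    (13 / 4) * u ^ (2 : ℕ) * o ^ (2 : ℕ) * g ^ (2 : ℕ) + (-33 / 32) * u ^ (2 : ℕ) * o ^ (3 : ℕ) + (-39 / 16) * u ^ (2 : ℕ) * o ^ (3 : ℕ) *
    g ^ (2 : ℕ) + (-7 / 48) * u ^ (2 : ℕ) * o ^ (3 : ℕ) * g ^ (3 : ℕ) + 14 * u ^ (2 : ℕ) * a + (-13) * u ^ (2 : ℕ) * a * o + (-7) *
    u ^ (2 : ℕ) * a * o * g + (17 / 4) * u ^ (2 : ℕ) * a * o ^ (2 : ℕ) + (-3 / 4) * u ^ (2 : ℕ) * a * o ^ (2 : ℕ) * g + (13 /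
    8) * u ^ (2 : ℕ) * a * o ^ (2 : ℕ) * g ^ (2 : ℕ) + 5 * u ^ (2 : ℕ) * a ^ (2 : ℕ) + (1 / 4) * u ^ (2 : ℕ) * a ^ (2 : ℕ) * o + (5 / 4) *
    u ^ (2 : ℕ) * a ^ (2 : ℕ) * o * g + (-7 / 2) * u ^ (2 : ℕ) * a ^ (3 : ℕ) + (93 / 8) * u ^ (3 : ℕ) + (-65 / 4) * u ^ (3 : ℕ) * o
    + (-31 / 2) * u ^ (3 : ℕ) * o * g + 9 * u ^ (3 : ℕ) * o ^ (2 : ℕ) + (69 / 4) * u ^ (3 : ℕ) * o ^ (2 : ℕ) * g + (61 / 8) *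
    u ^ (3 : ℕ) * o ^ (2 : ℕ) * g ^ (2 : ℕ) + (-3 / 2) * u ^ (3 : ℕ) * o ^ (3 : ℕ) + (-117 / 16) * u ^ (3 : ℕ) * o ^ (3 : ℕ) * g + (-81 /
    16) * u ^ (3 : ℕ) * o ^ (3 : ℕ) * g ^ (2 : ℕ) + (-79 / 48) * u ^ (3 : ℕ) * o ^ (3 : ℕ) * g ^ (3 : ℕ) + (237 / 512) * u ^ (3 : ℕ) * o ^
    (4 : ℕ) + (243 / 128) * u ^ (3 : ℕ) * o ^ (4 : ℕ) * g ^ (2 : ℕ) + (13 / 64) * u ^ (3 : ℕ) * o ^ (4 : ℕ) * g ^ (3 : ℕ) + (47 / 256) * u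
    ^ (3 : ℕ) * o ^ (4 : ℕ) * g ^ (4 : ℕ) + 13 * u ^ (3 : ℕ) * a + (-18) * u ^ (3 : ℕ) * a * o + (-25 / 2) * u ^ (3 : ℕ) * a * o * g
    + (39 / 8) * u ^ (3 : ℕ) * a * o ^ (2 : ℕ) + (39 / 4) * u ^ (3 : ℕ) * a * o ^ (2 : ℕ) * g + (25 / 8) * u ^ (3 : ℕ) * a * o
    ^ (2 : ℕ) * g ^ (2 : ℕ) + (-27 / 16) * u ^ (3 : ℕ) * a * o ^ (3 : ℕ) + (-9 / 32) * u ^ (3 : ℕ) * a * o ^ (3 : ℕ) * g + (-81 /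
    32) * u ^ (3 : ℕ) * a * o ^ (3 : ℕ) * g ^ (2 : ℕ) + (-5 / 32) * u ^ (3 : ℕ) * a * o ^ (3 : ℕ) * g ^ (3 : ℕ) + (15 / 2) * u ^ (3 : ℕ) *
    a ^ (2 : ℕ) + (7 / 4) * u ^ (3 : ℕ) * a ^ (2 : ℕ) * o + (-7 / 4) * u ^ (3 : ℕ) * a ^ (2 : ℕ) * o * g + (59 / 32) * u ^ (3 : ℕ) *
    a ^ (2 : ℕ) * o ^ (2 : ℕ) + (15 / 16) * u ^ (3 : ℕ) * a ^ (2 : ℕ) * o ^ (2 : ℕ) * g + (33 / 32) * u ^ (3 : ℕ) * a ^ (2 : ℕ) * o ^ (2 : ℕ) *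
    g ^ (2 : ℕ) + (-35 / 6) * u ^ (3 : ℕ) * a ^ (3 : ℕ) + (-89 / 24) * u ^ (3 : ℕ) * a ^ (3 : ℕ) * o + (-13 / 8) * u ^ (3 : ℕ) * a ^
    (3 : ℕ) * o * g + (73 / 16) * u ^ (3 : ℕ) * a ^ (4 : ℕ) + (8918588143 / 117964800) * u ^ (4 : ℕ)

/-- The nonlinear part for the third moment from above, divided by `u`. -/
def qH (u a o g : ℝ) : ℝ :=
    (3 / 2) * u + (3 / 8) * u * o ^ (2 : ℕ) + (-3 / 4) * u * o ^ (2 : ℕ) * g + (1 / 2) * u * o ^ (2 : ℕ) * g ^ (2 : ℕ) +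
    (-3) * u * a + (-1 / 2) * u * a * o * g + (7 / 4) * u * a ^ (2 : ℕ) + (-1 / 2) * u ^ (2 : ℕ) + (3 / 4) *
    u ^ (2 : ℕ) * o + (-9 / 4) * u ^ (2 : ℕ) * o * g + (-9 / 16) * u ^ (2 : ℕ) * o ^ (2 : ℕ) + (9 / 4) * u ^ (2 : ℕ) * o ^ (2 : ℕ) *
    g + (1 / 8) * u ^ (2 : ℕ) * o ^ (2 : ℕ) * g ^ (2 : ℕ) + (-9 / 32) * u ^ (2 : ℕ) * o ^ (3 : ℕ) + (9 / 32) * u ^ (2 : ℕ) * o ^ (3 : ℕ) *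
    g + (-15 / 32) * u ^ (2 : ℕ) * o ^ (3 : ℕ) * g ^ (2 : ℕ) + (1 / 48) * u ^ (2 : ℕ) * o ^ (3 : ℕ) * g ^ (3 : ℕ) + (15 / 4) * u ^ (2 : ℕ)
    * a + (-15 / 4) * u ^ (2 : ℕ) * a * o + (-1 / 2) * u ^ (2 : ℕ) * a * o * g + (3 / 2) * u ^ (2 : ℕ) * a * o ^ (2 : ℕ)
    + (-9 / 8) * u ^ (2 : ℕ) * a * o ^ (2 : ℕ) * g + (7 / 16) * u ^ (2 : ℕ) * a * o ^ (2 : ℕ) * g ^ (2 : ℕ) + (5 / 4) * u ^ (2 : ℕ)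
    * a ^ (2 : ℕ) + (5 / 8) * u ^ (2 : ℕ) * a ^ (2 : ℕ) * o * g + (-9 / 8) * u ^ (2 : ℕ) * a ^ (3 : ℕ) + (65 / 32) * u ^ (3 : ℕ) +
    (-21 / 8) * u ^ (3 : ℕ) * o + (-11 / 8) * u ^ (3 : ℕ) * o * g + (99 / 64) * u ^ (3 : ℕ) * o ^ (2 : ℕ) + (3 / 2) * u
    ^ (3 : ℕ) * o ^ (2 : ℕ) * g + (19 / 16) * u ^ (3 : ℕ) * o ^ (2 : ℕ) * g ^ (2 : ℕ) + (-9 / 64) * u ^ (3 : ℕ) * o ^ (3 : ℕ) + (-27 / 32)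
    * u ^ (3 : ℕ) * o ^ (3 : ℕ) * g + (-21 / 32) * u ^ (3 : ℕ) * o ^ (3 : ℕ) * g ^ (2 : ℕ) + (-19 / 96) * u ^ (3 : ℕ) * o ^ (3 : ℕ) * g ^
    (3 : ℕ) + (63 / 512) * u ^ (3 : ℕ) * o ^ (4 : ℕ) + (-27 / 128) * u ^ (3 : ℕ) * o ^ (4 : ℕ) * g + (117 / 256) * u ^ (3 : ℕ) * o ^
    (4 : ℕ) * g ^ (2 : ℕ) + (-9 / 128) * u ^ (3 : ℕ) * o ^ (4 : ℕ) * g ^ (3 : ℕ) + (5 / 128) * u ^ (3 : ℕ) * o ^ (4 : ℕ) * g ^ (4 : ℕ) + (1 / 8)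
    * u ^ (3 : ℕ) * a + (-27 / 16) * u ^ (3 : ℕ) * a * o + (-5 / 2) * u ^ (3 : ℕ) * a * o * g + (-9 / 32) * u ^ (3 : ℕ)
    * a * o ^ (2 : ℕ) + (15 / 8) * u ^ (3 : ℕ) * a * o ^ (2 : ℕ) * g + (1 / 16) * u ^ (3 : ℕ) * a * o ^ (2 : ℕ) * g ^ (2 : ℕ) + (-9
    / 32) * u ^ (3 : ℕ) * a * o ^ (3 : ℕ) + (9 / 64) * u ^ (3 : ℕ) * a * o ^ (3 : ℕ) * g + (-33 / 64) * u ^ (3 : ℕ) * a * o ^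
    (3 : ℕ) * g ^ (2 : ℕ) + (1 / 64) * u ^ (3 : ℕ) * a * o ^ (3 : ℕ) * g ^ (3 : ℕ) + (49 / 16) * u ^ (3 : ℕ) * a ^ (2 : ℕ) + (21 / 16) * u
    ^ (3 : ℕ) * a ^ (2 : ℕ) * o + (5 / 8) * u ^ (3 : ℕ) * a ^ (2 : ℕ) * o * g + (15 / 32) * u ^ (3 : ℕ) * a ^ (2 : ℕ) * o ^ (2 : ℕ) + (3 /
    32) * u ^ (3 : ℕ) * a ^ (2 : ℕ) * o ^ (2 : ℕ) * g + (21 / 64) * u ^ (3 : ℕ) * a ^ (2 : ℕ) * o ^ (2 : ℕ) * g ^ (2 : ℕ) + (-85 / 24) * u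
    ^ (3 : ℕ) * a ^ (3 : ℕ) + (-9 / 8) * u ^ (3 : ℕ) * a ^ (3 : ℕ) * o + (-13 / 16) * u ^ (3 : ℕ) * a ^ (3 : ℕ) * o * g + (383 /
    192) * u ^ (3 : ℕ) * a ^ (4 : ℕ) + (1881571003 / 117964800) * u ^ (4 : ℕ)

/-- The nonlinear part for the third moment from below, divided by `u`. -/
def qL (u a o g : ℝ) : ℝ :=
    (-3 / 2) * u + 3 * u * o + (3 / 8) * u * o ^ (2 : ℕ) + (-3 / 4) * u * o ^ (2 : ℕ) * g + (1 / 2) * u * o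
    ^ (2 : ℕ) * g ^ (2 : ℕ) + 3 * u * a + 3 * u * a * o + (-1 / 2) * u * a * o * g + (5 / 4) * u * a ^ (2 : ℕ) + 5
    * u ^ (2 : ℕ) + 9 * u ^ (2 : ℕ) * o + (-9 / 4) * u ^ (2 : ℕ) * o * g + (21 / 16) * u ^ (2 : ℕ) * o ^ (2 : ℕ) + (9 / 4) * u
    ^ (2 : ℕ) * o ^ (2 : ℕ) * g + (1 / 8) * u ^ (2 : ℕ) * o ^ (2 : ℕ) * g ^ (2 : ℕ) + (-5 / 32) * u ^ (2 : ℕ) * o ^ (3 : ℕ) + (9 / 32) * u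
    ^ (2 : ℕ) * o ^ (3 : ℕ) * g + (-15 / 32) * u ^ (2 : ℕ) * o ^ (3 : ℕ) * g ^ (2 : ℕ) + (1 / 48) * u ^ (2 : ℕ) * o ^ (3 : ℕ) * g ^ (3 : ℕ) +
    (69 / 4) * u ^ (2 : ℕ) * a + (27 / 4) * u ^ (2 : ℕ) * a * o + (-1 / 2) * u ^ (2 : ℕ) * a * o * g + (27 / 8) *
    u ^ (2 : ℕ) * a * o ^ (2 : ℕ) + (-9 / 8) * u ^ (2 : ℕ) * a * o ^ (2 : ℕ) * g + (7 / 16) * u ^ (2 : ℕ) * a * o ^ (2 : ℕ) * g ^ (2 : ℕ)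
    + (59 / 4) * u ^ (2 : ℕ) * a ^ (2 : ℕ) + (9 / 4) * u ^ (2 : ℕ) * a ^ (2 : ℕ) * o + (5 / 8) * u ^ (2 : ℕ) * a ^ (2 : ℕ) * o * g +
    (21 / 8) * u ^ (2 : ℕ) * a ^ (3 : ℕ) + (419 / 32) * u ^ (3 : ℕ) + (27 / 2) * u ^ (3 : ℕ) * o + (-11 / 8) * u ^ (3 : ℕ) * o
    * g + (477 / 64) * u ^ (3 : ℕ) * o ^ (2 : ℕ) + (3 / 2) * u ^ (3 : ℕ) * o ^ (2 : ℕ) * g + (19 / 16) * u ^ (3 : ℕ) * o ^ (2 : ℕ) *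
    g ^ (2 : ℕ) + (57 / 64) * u ^ (3 : ℕ) * o ^ (3 : ℕ) + (-27 / 32) * u ^ (3 : ℕ) * o ^ (3 : ℕ) * g + (-21 / 32) * u ^ (3 : ℕ) * o
    ^ (3 : ℕ) * g ^ (2 : ℕ) + (-19 / 96) * u ^ (3 : ℕ) * o ^ (3 : ℕ) * g ^ (3 : ℕ) + (87 / 512) * u ^ (3 : ℕ) * o ^ (4 : ℕ) + (-27 / 128)
    * u ^ (3 : ℕ) * o ^ (4 : ℕ) * g + (117 / 256) * u ^ (3 : ℕ) * o ^ (4 : ℕ) * g ^ (2 : ℕ) + (-9 / 128) * u ^ (3 : ℕ) * o ^ (4 : ℕ) * g ^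
    (3 : ℕ) + (5 / 128) * u ^ (3 : ℕ) * o ^ (4 : ℕ) * g ^ (4 : ℕ) + (303 / 8) * u ^ (3 : ℕ) * a + (483 / 16) * u ^ (3 : ℕ) * a * o +
    (-5 / 2) * u ^ (3 : ℕ) * a * o * g + (249 / 32) * u ^ (3 : ℕ) * a * o ^ (2 : ℕ) + (15 / 8) * u ^ (3 : ℕ) * a * o ^ (2 : ℕ)
    * g + (1 / 16) * u ^ (3 : ℕ) * a * o ^ (2 : ℕ) * g ^ (2 : ℕ) + (1 / 2) * u ^ (3 : ℕ) * a * o ^ (3 : ℕ) + (9 / 64) * u ^ (3 : ℕ)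
    * a * o ^ (3 : ℕ) * g + (-33 / 64) * u ^ (3 : ℕ) * a * o ^ (3 : ℕ) * g ^ (2 : ℕ) + (1 / 64) * u ^ (3 : ℕ) * a * o ^ (3 : ℕ) * g
    ^ (3 : ℕ) + (667 / 16) * u ^ (3 : ℕ) * a ^ (2 : ℕ) + (363 / 16) * u ^ (3 : ℕ) * a ^ (2 : ℕ) * o + (5 / 8) * u ^ (3 : ℕ) * a ^ (2 : ℕ)
    * o * g + (21 / 8) * u ^ (3 : ℕ) * a ^ (2 : ℕ) * o ^ (2 : ℕ) + (3 / 32) * u ^ (3 : ℕ) * a ^ (2 : ℕ) * o ^ (2 : ℕ) * g + (21 /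
    64) * u ^ (3 : ℕ) * a ^ (2 : ℕ) * o ^ (2 : ℕ) * g ^ (2 : ℕ) + (365 / 24) * u ^ (3 : ℕ) * a ^ (3 : ℕ) + (9 / 2) * u ^ (3 : ℕ) * a ^ (3 : ℕ) *
    o + (-13 / 16) * u ^ (3 : ℕ) * a ^ (3 : ℕ) * o * g + (853 / 192) * u ^ (3 : ℕ) * a ^ (4 : ℕ) + (20521220987 /
    117964800) * u ^ (4 : ℕ)

end Vale.P154.PS
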