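import Vale.Agent.P154.Pois.Step

/-!
# Three states, Poisson offspring: a small magnetisation dies out

For `-1/2 ≤ lam ≤ 0` and `d * lam ^ 2 ≤ 1` the chi-square magnetisation tends to zero as soon as it
is at most `87/1000` at a single depth.
-/

noncomputable section

namespace Vale.P154.PS

open Finset Filter Topology
open scoped ENNReal

theorem chi_le_two {y : Fin 3 → ℝ} (hy : Simp y) : chi y ≤ 2 ∧ |em y| ≤ chi y := by
  have hA : ∀ i, 0 ≤ 1 + y i := fun i => by linarith [hy.1 i]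
  have hs := hy.2
  rw [Fin.sum_univ_three] at hs
  have hz : zz (1 + y 0) (1 + y 1) (1 + y 2) = 1 := by unfold zz; linarith
  have hq : qq (1 + y 0) (1 + y 1) (1 + y 2) = chi y := by
    simp [qq, hz, chi, Fin.sum_univ_three]
  have hu : uu (1 + y 0) (1 + y 1) (1 + y 2) = em y := by
    simp [uu, hz, em, Fin.sum_univ_three]
  have h1 := qq_le (hA 0) (hA 1) (hA 2)
  obtain ⟨h2, h3⟩ := uu_bound (hA 0) (hA 1) (hA 2)
  rw [hz, hq] at h1
  rw [hz, hq, hu, one_mul] at h2 h3
  exact ⟨by linarith, abs_le.2 ⟨h2, h3⟩⟩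

theorem em_ge {y : Fin 3 → ℝ} (hy : Simp y) : -1 ≤ em y := by
  obtain ⟨h1, h2⟩ := hy
  rw [Fin.sum_univ_three] at h2
  have e : y 2 = -y 0 - y 1 := by linarith
  have a0 : 0 ≤ 1 + y 0 := by linarith [h1 0]
  have a1 : 0 ≤ 1 + y 1 := by linarith [h1 1]
  have a2 : 0 ≤ 1 - y 0 - y 1 := by linarith [h1 2]
  simp only [em, Fin.sum_univ_three, e]
  nlinarith [mul_nonneg (mul_nonneg a0 a1) a2, sq_nonneg (y 0 + y 1), sq_nonneg (y 0 - y 1)]

theorem chi3_nonneg (y : Fin 3 → ℝ) : 0 ≤ chi y := by unfold chi; positivity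

theorem abs_chi_le {y : Fin 3 → ℝ} (hy : Simp y) : |chi y| ≤ 2 := by
  rw [abs_of_nonneg (chi3_nonneg y)]; exact (chi_le_two hy).1

theorem abs_em_le {y : Fin 3 → ℝ} (hy : Simp y) : |em y| ≤ 2 :=
  (chi_le_two hy).2.trans (chi_le_two hy).1

theorem abs_sq_le {y : Fin 3 → ℝ} (hy : Simp y) : |chi y ^ 2| ≤ 4 := by
  rw [abs_pow]; nlinarith [abs_chi_le hy, abs_nonneg (chi y)]

theorem abs_ce_le {y : Fin 3 → ℝ} (hy : Simp y) : |chi y * em y| ≤ 4 := by
  rw [abs_mul]; nlinarith [abs_chi_le hy, abs_em_le hy, abs_nonneg (chi y), abs_nonneg (em y)]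

section

variable {d lam : ℝ} (hd : 0 < d) (h0 : -(1 / 2) ≤ lam) (h1 : lam ≤ 0)

/-- The mean of `f` at depth `n`. -/
abbrev mom (d lam : ℝ) (n : ℕ) (f : (Fin 3 → ℝ) → ℝ) : ℝ := mean 3 lam (poisWeight d) n f

/-- The scaled first moment. -/
def sp (d lam : ℝ) (n : ℕ) : ℝ := d * lam ^ 2 * mom d lam n chi

/-- The scaled third moment. -/
def st (d lam : ℝ) (n : ℕ) : ℝ := d * lam ^ 3 * mom d lam n em

/-- The scaled fourth moment. -/
def sw (d lam : ℝ) (n : ℕ) : ℝ := d * lam ^ 4 * mom d lam n fun y => chi y ^ 2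

/-- The scaled fifth moment. -/
def sf (d lam : ℝ) (n : ℕ) : ℝ := d * lam ^ 5 * mom d lam n fun y => chi y * em y

include hd h0 h1

theorem mom_nonneg (n : ℕ) {f : (Fin 3 → ℝ) → ℝ} (hf : ∀ y, Simp y → 0 ≤ f y) :
    0 ≤ mom d lam n f := by
  have hq : -1 / (((3 : ℕ) : ℝ) - 1) ≤ lam := by norm_num; linarith
  exact tsum_nonneg fun x => mul_nonneg
    (wIdx_nonneg (by norm_num) hq (by linarith) (poisWeight_nonneg hd.le) n x)
    (hf _ (relOr_simp (lik_nonneg (by norm_num) hq (by linarith) n x.1 x.2)))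

theorem mom_le (n : ℕ) {f g : (Fin 3 → ℝ) → ℝ} {B B' : ℝ} (hf : ∀ y, Simp y → |f y| ≤ B)
    (hg : ∀ y, Simp y → |g y| ≤ B') (h : ∀ y, Simp y → f y ≤ g y) :
    mom d lam n f ≤ mom d lam n g :=
  mean_mono (by norm_num) (by norm_num; linarith) (by linarith) (poisWeight_nonneg hd.le)
    (tsum_poisWeight hd.le) n hf hg h

theorem abs_mom_le (n : ℕ) {f g : (Fin 3 → ℝ) → ℝ} {B B' : ℝ} (hf : ∀ y, Simp y → |f y| ≤ B)
    (hg : ∀ y, Simp y → |g y| ≤ B') (h : ∀ y, Simp y → |f y| ≤ g y) :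
    |mom d lam n f| ≤ mom d lam n g := by
  rw [abs_le]
  refine ⟨?_, mom_le hd h0 h1 n hf hg fun y hy => (le_abs_self _).trans (h y hy)⟩
  have := mom_le hd h0 h1 n (f := fun y => -1 * f y) (B := B)
    (fun y hy => by simpa using hf y hy) hg fun y hy => by
      have := (neg_le_abs (f y)).trans (h y hy); linarith
  unfold mom at this
  rw [mean_smul] at this
  unfold mom at *
  linarith

theorem domain (n : ℕ) : 0 ≤ sp d lam n ∧ |st d lam n| ≤ sp d lam n / 2 ∧ 0 ≤ sw d lam n ∧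
    sw d lam n ≤ sp d lam n / 2 ∧ |sf d lam n| ≤ sw d lam n / 2 := by
  have hc := mom_nonneg hd h0 h1 n (f := fun y => chi y ^ 2) fun y _ => sq_nonneg _
  have hx := mom_nonneg hd h0 h1 n (f := chi) fun y _ => chi3_nonneg y
  have habs : |lam| ≤ 1 / 2 := abs_le.2 ⟨h0, by linarith⟩
  have l2 : 0 ≤ d * lam ^ 2 := mul_nonneg hd.le (sq_nonneg _)
  have l4 : 0 ≤ d * lam ^ 4 := mul_nonneg hd.le (by positivity)
  have hb := abs_mom_le hd h0 h1 n (g := chi) (fun y hy => abs_em_le hy) (fun y hy => abs_chi_le hy)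
    fun y hy => (chi_le_two hy).2
  have hsq := mom_le hd h0 h1 n (f := fun y => chi y ^ 2) (g := fun y => 2 * chi y) (B' := 4)
    (fun y hy => abs_sq_le hy) (fun y hy => by rw [abs_mul, abs_two]; linarith [abs_chi_le hy])
    fun y hy => by nlinarith [(chi_le_two hy).1, chi3_nonneg y]
  unfold mom at hsq
  rw [mean_smul] at hsq
  have hce := abs_mom_le hd h0 h1 n (g := fun y => chi y ^ 2) (fun y hy => abs_ce_le hy)
    (fun y hy => abs_sq_le hy) fun y hy => by
      rw [abs_mul, abs_of_nonneg (chi3_nonneg y), sq]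
      exact mul_le_mul_of_nonneg_left (chi_le_two hy).2 (chi3_nonneg y)
  refine ⟨mul_nonneg l2 hx, ?_, mul_nonneg l4 hc, ?_, ?_⟩
  · rw [st, sp, show d * lam ^ 3 = d * lam ^ 2 * lam by ring, abs_mul, abs_mul, abs_of_nonneg l2]
    calc d * lam ^ 2 * |lam| * |mom d lam n em| ≤ d * lam ^ 2 * (1 / 2) * mom d lam n chi :=
          mul_le_mul (mul_le_mul_of_nonneg_left habs l2) hb (abs_nonneg _)
            (mul_nonneg l2 (by norm_num))
      _ = _ := by ring
  · have hl2 : lam ^ 2 ≤ 1 / 4 := by nlinarith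
    have e := mul_le_mul_of_nonneg_left hsq l4
    have e2 := mul_le_mul_of_nonneg_right hl2
      (mul_nonneg l2 (mul_nonneg (zero_le_two : (0 : ℝ) ≤ 2) hx))
    unfold sw sp mom at *
    linarith
  · rw [sf, sw, show d * lam ^ 5 = d * lam ^ 4 * lam by ring, abs_mul, abs_mul, abs_of_nonneg l4]
    calc d * lam ^ 4 * |lam| * |mom d lam n fun y => chi y * em y|
        ≤ d * lam ^ 4 * (1 / 2) * mom d lam n fun y => chi y ^ 2 :=
          mul_le_mul (mul_le_mul_of_nonneg_left habs l4) hce (abs_nonneg _)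
            (mul_nonneg l4 (by norm_num))
      _ = _ := by ring

theorem cmon_mean (n : ℕ) (j : Fin 13) :
    d * (mom d lam n (cmon (bet j) lam) - 1)
      = expnt j (sp d lam n) (st d lam n) (sw d lam n) (sf d lam n) := by
  have hq : -1 / (((3 : ℕ) : ℝ) - 1) ≤ lam := by norm_num; linarith
  have hl : lam ≤ 1 := by linarith
  have hp := poisWeight_nonneg hd.le
  have hp1 := tsum_poisWeight hd.le
  have hb : ∀ (k : ℝ) {f : (Fin 3 → ℝ) → ℝ} {B : ℝ}, (∀ y, Simp y → |f y| ≤ B) →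
      ∀ y, Simp y → |k * f y| ≤ |k| * B := fun k f B h y hy => by
    rw [abs_mul]; exact mul_le_mul_of_nonneg_left (h y hy) (abs_nonneg k)
  have hadd : ∀ {f g : (Fin 3 → ℝ) → ℝ} {B B' : ℝ}, (∀ y, Simp y → |f y| ≤ B) →
      (∀ y, Simp y → |g y| ≤ B') → ∀ y, Simp y → |f y + g y| ≤ B + B' :=
    fun hf hg y hy => (abs_add_le _ _).trans (add_le_add (hf y hy) (hg y hy))
  have hc := hb (lin j 0 * lam ^ 2) (fun y hy => abs_chi_le hy)
  have hm := hb (lin j 1 * lam ^ 3) (fun y hy => abs_em_le hy)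
  have hs := hb (lin j 2 * lam ^ 4) (fun y hy => abs_sq_le hy)
  have he := hb (lin j 3 * lam ^ 5) (fun y hy => abs_ce_le hy)
  have h1' : ∀ y, Simp y → |(fun _ : Fin 3 → ℝ => (1 : ℝ)) y| ≤ 1 := fun y _ => by simp
  have e : mom d lam n (cmon (bet j) lam) = mom d lam n fun y => 1 + lin j 0 * lam ^ 2 * chi y
      + lin j 1 * lam ^ 3 * em y + lin j 2 * lam ^ 4 * chi y ^ 2
      + lin j 3 * lam ^ 5 * (chi y * em y) :=
    tsum_congr fun x => congrArg _
      (cmon3 j lam (relOr_simp (lik_nonneg (by norm_num) hq hl n x.1 x.2)))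
  rw [e, mom, mean_add (by norm_num) hq hl hp hp1 n (hadd (hadd (hadd h1' hc) hm) hs) he,
    mean_add (by norm_num) hq hl hp hp1 n (hadd (hadd h1' hc) hm) hs,
    mean_add (by norm_num) hq hl hp hp1 n (hadd h1' hc) hm,
    mean_add (by norm_num) hq hl hp hp1 n h1' hc,
    mean_const (by norm_num) hq hl hp hp1, mean_smul, mean_smul, mean_smul, mean_smul]
  simp only [expnt, sp, st, sw, sf, mom]
  ring

theorem four_bounds (n : ℕ) :
    let E := fun j => Real.exp (expnt j (sp d lam n) (st d lam n) (sw d lam n) (sf d lam n))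
    mom d lam (n + 1) chi ≤ ∑ j, cX j * E j ∧
      (mom d lam (n + 1) fun y => chi y ^ 2) ≤ ∑ j, cW j * E j ∧
      1 + mom d lam (n + 1) em ≤ ∑ j, cH j * E j ∧
      2 - mom d lam (n + 1) em ≤ ∑ j, cL j * E j := by
  intro E
  have hq : -1 / (((3 : ℕ) : ℝ) - 1) ≤ lam := by norm_num; linarith
  have hl : lam ≤ 1 := by linarith
  have hp := poisWeight_nonneg hd.le
  have hp1 := tsum_poisWeight hd.le
  have key : ∀ (c : Fin 13 → ℝ) (g : (Fin 3 → ℝ) → ℝ), (∀ y, Simp y → 0 ≤ g y) →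
      (∀ A : Fin 3 → ℝ, (∀ i, 0 ≤ A i) →
        (∑ i, A i) / ((3 : ℕ) : ℝ) * g (rel A) ≤ ∑ j, c j * msym (bet j) A) →
      mom d lam (n + 1) g ≤ ∑ j, c j * E j := by
    intro c g hg hP
    refine (mean_succ_le_pois (by norm_num) hq hl hd.le c bet hg hP n).trans_eq ?_
    exact Finset.sum_congr rfl fun j _ => by simp only [E, ← cmon_mean hd h0 h1 n j]
  refine ⟨key cX chi (fun y _ => chi3_nonneg y) bound_chi,
    key cW _ (fun y _ => sq_nonneg _) bound_sq, ?_, ?_⟩
  · have h := key cH (fun y => 1 + em y)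
      (fun y hy => by linarith [em_ge hy])
      fun A hA => (bound_em A hA).1
    rwa [mom, mean_add (by norm_num) hq hl hp hp1 (n + 1) (B := 1) (fun y _ => by simp)
      (fun y hy => abs_em_le hy), mean_const (by norm_num) hq hl hp hp1] at h
  · have h := key cL (fun y => 2 - em y)
      (fun y hy => by linarith [le_abs_self (em y), abs_em_le hy]) fun A hA => (bound_em A hA).2
    have e : (fun y : Fin 3 → ℝ => 2 - em y) = fun y => 2 + -1 * em y := by funext y; ring
    rw [e, mom, mean_add (by norm_num) hq hl hp hp1 (n + 1) (B := 2) (B' := 2)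
      (fun y _ => by simp) (fun y hy => by simpa using abs_em_le hy),
      mean_const (by norm_num) hq hl hp hp1, mean_smul] at h
    linarith

/-- The potential at depth `n`. -/
theorem pot_succ (hks : d * lam ^ 2 ≤ 1) (n : ℕ) (hV : pot (sp d lam n) (st d lam n) (sw d lam n) ≤ 1 / 10) :
    pot (sp d lam (n + 1)) (st d lam (n + 1)) (sw d lam (n + 1)) + 1 / 1000 * sp d lam n ^ 2
      ≤ pot (sp d lam n) (st d lam n) (sw d lam n) := by
  obtain ⟨hp0, ht, hw0, hw, hf⟩ := domain hd h0 h1 n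
  obtain ⟨bX, bW, bH, bL⟩ := four_bounds hd h0 h1 n
  have hp1 : sp d lam n ≤ 1 / 10 := by
    unfold pot at hV
    linarith [le_max_right (-st d lam n) 0, le_max_right (st d lam n) 0]
  have h := pot_step hp0 hp1 ht hw0 hw hf (mul_nonneg hd.le (sq_nonneg lam)) hks h0 h1
    (mom_nonneg hd h0 h1 (n + 1) fun y _ => chi3_nonneg y)
    (mom_nonneg hd h0 h1 (n + 1) fun y _ => sq_nonneg _) bX bW bH bL
  refine le_trans (le_of_eq ?_) h
  simp only [sp, st, sw]
  ring_nf

end

/-- Nonreconstruction once the magnetisation is small at one depth. -/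
theorem aPois_zero_of_small {d lam : ℝ} (hd : 0 < d) (h0 : -(1 / 2) ≤ lam) (h1 : lam ≤ 0)
    (hks : d * lam ^ 2 ≤ 1)
    (h : ∃ n, gwE (poisWeight d) n (fun t => ENNReal.ofReal (xTree 3 lam n t))
      ≤ ENNReal.ofReal (87 / 1000)) :
    Tendsto (fun n => aGW 3 (poisWeight d) lam n) atTop (𝓝 0) := by
  have hq : -1 / (((3 : ℕ) : ℝ) - 1) ≤ lam := by norm_num; linarith
  have hl : lam ≤ 1 := by linarith
  have hp := poisWeight_nonneg hd.le
  have hp1 := tsum_poisWeight hd.le
  have hx : ∀ n, gwE (poisWeight d) n (fun t => ENNReal.ofReal (xTree 3 lam n t))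
      = ENNReal.ofReal (mom d lam n chi) := by
    intro n
    show gwE (poisWeight d) n (fun t => ENNReal.ofReal (ev (lik (q := 3) lam n t) chi)) = _
    rw [gwE_ev_eq (by norm_num) hq hl hp n fun y _ => chi3_nonneg y, mom, mean,
      ENNReal.ofReal_tsum_of_nonneg (fun x => mul_nonneg (wIdx_nonneg (by norm_num) hq hl hp n x)
        (chi3_nonneg _)) (summable_mean (by norm_num) hq hl hp hp1 n fun y hy => abs_chi_le hy)]
  obtain ⟨n0, hn0⟩ := h
  rw [hx, ENNReal.ofReal_le_ofReal_iff (by norm_num)] at hn0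
  set V : ℕ → ℝ := fun n => pot (sp d lam (n + n0)) (st d lam (n + n0)) (sw d lam (n + n0)) with hV
  have hV0 : V 0 ≤ 1 / 10 := by
    simp only [hV, zero_add]
    obtain ⟨hp0, ht, -, hw, -⟩ := domain hd h0 h1 n0
    obtain ⟨ht1, ht2⟩ := abs_le.1 ht
    have : sp d lam n0 ≤ 87 / 1000 :=
      (mul_le_of_le_one_left (mom_nonneg hd h0 h1 n0 fun y _ => chi3_nonneg y) hks).trans hn0
    have a1 : max (-st d lam n0) 0 ≤ sp d lam n0 / 2 := max_le (by linarith) (by linarith)
    have a2 : max (st d lam n0) 0 ≤ sp d lam n0 / 2 := max_le (by linarith) (by linarith)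
    rcases le_total (st d lam n0) 0 with h | h
    · unfold pot; rw [max_eq_right h]; linarith
    · unfold pot; rw [max_eq_right (neg_nonpos.2 h)]; linarith
  have hVs : ∀ n, V n ≤ 1 / 10 ∧
      ∑ i ∈ Finset.range n, 1 / 1000 * sp d lam (i + n0) ^ 2 ≤ V 0 - V n := by
    intro n
    induction n with
    | zero => exact ⟨hV0, by simp⟩
    | succ n ih =>
      have hs := pot_succ hd h0 h1 hks (n + n0) ih.1
      have e : n + n0 + 1 = n + 1 + n0 := by omega
      rw [e] at hs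
      have hsq : 0 ≤ sp d lam (n + n0) ^ 2 := sq_nonneg _
      refine ⟨by simp only [hV] at ih ⊢; linarith [ih.1], ?_⟩
      rw [Finset.sum_range_succ]
      simp only [hV] at ih ⊢
      linarith [ih.2]
  have hVn : ∀ n, 0 ≤ V n := fun n => by
    obtain ⟨hp0, -, hw0, -, -⟩ := domain hd h0 h1 (n + n0)
    simp only [hV, pot]
    linarith [le_max_right (-st d lam (n + n0)) 0, le_max_right (st d lam (n + n0)) 0]
  have hsum : Summable fun n => 1 / 1000 * sp d lam (n + n0) ^ 2 :=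
    summable_of_sum_range_le (c := V 0) (fun n => by positivity) fun n => by
      linarith [(hVs n).2, hVn n]
  have hp0 : Tendsto (fun n => sp d lam n) atTop (𝓝 0) := by
    refine (tendsto_add_atTop_iff_nat n0).1 ?_
    have h2 : Tendsto (fun n => Real.sqrt (1000 * (1 / 1000 * sp d lam (n + n0) ^ 2))) atTop
        (𝓝 0) := by
      simpa using (hsum.tendsto_atTop_zero.const_mul 1000).sqrt
    refine h2.congr fun n => ?_
    rw [← mul_assoc, show (1000 : ℝ) * (1 / 1000) = 1 by norm_num, one_mul,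
      Real.sqrt_sq (domain hd h0 h1 _).1]
  have half := hp0.div_const 2
  rw [zero_div] at half
  have ht0 : Tendsto (fun n => st d lam n) atTop (𝓝 0) :=
    squeeze_zero_norm (fun n => by simpa using (domain hd h0 h1 n).2.1) half
  have hw0 : Tendsto (fun n => sw d lam n) atTop (𝓝 0) :=
    squeeze_zero (fun n => (domain hd h0 h1 n).2.2.1) (fun n => (domain hd h0 h1 n).2.2.2.1) half
  have hf0 : Tendsto (fun n => sf d lam n) atTop (𝓝 0) := by
    have half' := hw0.div_const 2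
    rw [zero_div] at half'
    exact squeeze_zero_norm (fun n => by simpa using (domain hd h0 h1 n).2.2.2.2) half'
  have hU : Tendsto (fun n => ∑ j, cX j *
      Real.exp (expnt j (sp d lam n) (st d lam n) (sw d lam n) (sf d lam n))) atTop (𝓝 0) := by
    have e : (0 : ℝ) = ∑ j, cX j * Real.exp 0 := by
      simp [Fin.sum_univ_succ, cX]; norm_num
    rw [e]
    refine tendsto_finsetSum _ fun j _ => Tendsto.const_mul _ ((Real.continuous_exp.tendsto 0).comp ?_)
    have := (((hp0.const_mul (lin j 0)).add (ht0.const_mul (lin j 1))).add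
      (hw0.const_mul (lin j 2))).add (hf0.const_mul (lin j 3))
    simpa [expnt] using this
  have hX : Tendsto (fun n => mom d lam n chi) atTop (𝓝 0) :=
    (tendsto_add_atTop_iff_nat 1).1 (squeeze_zero
      (fun n => mom_nonneg hd h0 h1 _ fun y _ => chi3_nonneg y)
      (fun n => (four_bounds hd h0 h1 n).1) hU)
  refine aGW_tendsto_zero (by norm_num) hq hl hp hp1 ?_
  simp only [hx]
  simpa using ENNReal.tendsto_ofReal hX

end Vale.P154.PS
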