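import Vale.Agent.P154.Mult

/-!
# Moments under the product reference measure

At a node the likelihood vector is the product mass of the children times the product of their
relative likelihoods after one edge. A monomial of the latter has an expectation which factorises
over the children, so on a Galton-Watson tree every polynomial upper bound for a functional gives
a closed bound for its expectation one generation down.
-/

noncomputable section

namespace Vale.P154.PS

open Finset Filter Topology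
open scoped ENNReal

variable {q : ℕ}

/-- The symmetrised monomial. -/
def msym (b : Fin q → ℕ) (A : Fin q → ℝ) : ℝ :=
  (∑ π : Equiv.Perm (Fin q), ∏ i, A i ^ b (π i)) / Fintype.card (Equiv.Perm (Fin q))

/-- The symmetrised monomial of the ratios after one edge. -/
def cmon (b : Fin q → ℕ) (lam : ℝ) (y : Fin q → ℝ) : ℝ := msym b fun i => 1 + lam * y i

theorem msym_nonneg (b : Fin q → ℕ) {A : Fin q → ℝ} (hA : ∀ i, 0 ≤ A i) : 0 ≤ msym b A :=
  div_nonneg (Finset.sum_nonneg fun _ _ => Finset.prod_nonneg fun i _ => pow_nonneg (hA i) _)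
    (Nat.cast_nonneg _)

theorem cmon_nonneg (hq : 2 ≤ q) {lam : ℝ} (h0 : -1 / ((q : ℝ) - 1) ≤ lam) (h1 : lam ≤ 1)
    (b : Fin q → ℕ) {y : Fin q → ℝ} (hy : Simp y) : 0 ≤ cmon b lam y :=
  msym_nonneg b fun i => by linarith [(lam_smul_simp hq h0 h1 hy).1 i]

theorem cmon_perm (b : Fin q → ℕ) (lam : ℝ) (y : Fin q → ℝ) (π : Equiv.Perm (Fin q)) :
    cmon b lam (fun i => y (π i)) = cmon b lam y := by
  unfold cmon msym
  congr 1
  refine Fintype.sum_equiv (Equiv.mulRight π⁻¹) _ _ fun σ => ?_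
  rw [← Equiv.prod_comp π fun i => (1 + lam * y i) ^ b ((Equiv.mulRight π⁻¹) σ i)]
  simp [Equiv.Perm.mul_apply]

theorem chan_eq [NeZero q] (lam : ℝ) {l : Fin q → ℝ} (h : ∑ i, l i ≠ 0) (i : Fin q) :
    chan lam l i = (∑ j, l j) / q * (1 + lam * rel l i) := by
  have hq : (q : ℝ) ≠ 0 := by exact_mod_cast NeZero.ne q
  simp only [chan, potts_mul, rel]
  field_simp
  ring

/-- The expectation of a monomial at a node factorises over its children. -/
theorem node_msym [NeZero q] (lam : ℝ) (b : Fin q → ℕ) {n k : ℕ} (ch : Fin k → PTree n) :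
    ∑ s : (c : Fin k) → Cfg q n (ch c),
        (∏ c, (∑ i, lik lam n (ch c) (s c) i) / q) *
          msym b (fun i => ∏ c, (1 + lam * rel (lik lam n (ch c) (s c)) i))
      = ∏ c, ev (lik (q := q) lam n (ch c)) (cmon b lam) := by
  let T : Equiv.Perm (Fin q) → Fin k → ℝ := fun π c =>
    ∑ s : Cfg q n (ch c), (∑ i, lik lam n (ch c) s i) / q *
      ∏ i, (1 + lam * rel (lik lam n (ch c) s) i) ^ b (π i)
  have hT : ∀ π c, T π c = T 1 c := by
    intro π c
    have h := sum_lik_perm lam π n (ch c) fun v =>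
      (∑ i, v i) / q * ∏ i, (1 + lam * rel v i) ^ b (π i)
    show _ = ∑ s : Cfg q n (ch c), _
    refine h.symm.trans (Finset.sum_congr rfl fun s _ => ?_)
    have hs : ∑ i, lik lam n (ch c) s (π i) = ∑ i, lik lam n (ch c) s i :=
      Equiv.sum_comp π fun i => lik lam n (ch c) s i
    have hr : ∀ i, rel (fun j => lik lam n (ch c) s (π j)) i = rel (lik lam n (ch c) s) (π i) := by
      intro i; simp only [rel, hs]
    simp only [hs, hr, Equiv.Perm.one_apply]
    exact congrArg _ (Equiv.prod_comp π fun i => (1 + lam * rel (lik lam n (ch c) s) i) ^ b i)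
  have hP : ∀ c, ev (lik (q := q) lam n (ch c)) (cmon b lam) = T 1 c := by
    intro c
    unfold ev cmon msym
    simp only [mul_div_assoc', Finset.mul_sum]
    rw [← Finset.sum_div, Finset.sum_comm]
    show (∑ π, T π c) / _ = _
    simp only [hT, Finset.sum_const, Finset.card_univ, nsmul_eq_mul]
    field_simp
  simp only [hP]
  unfold msym
  simp only [mul_div_assoc', Finset.mul_sum]
  rw [← Finset.sum_div, Finset.sum_comm]
  have e : ∀ π : Equiv.Perm (Fin q),
      ∑ s : (c : Fin k) → Cfg q n (ch c), (∏ c, (∑ i, lik lam n (ch c) (s c) i) / q) *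
        ∏ i, (∏ c, (1 + lam * rel (lik lam n (ch c) (s c)) i)) ^ b (π i) = ∏ c, T 1 c := by
    intro π
    rw [← Finset.prod_congr rfl fun c _ => hT π c]
    simp only [T, Fintype.prod_sum]
    refine Finset.sum_congr rfl fun s _ => ?_
    rw [Finset.prod_mul_distrib, Finset.prod_comm]
    congr 1
    exact Finset.prod_congr rfl fun i _ => (Finset.prod_pow _ _ _).symm
  simp only [e, Finset.sum_const, Finset.card_univ, nsmul_eq_mul]
  field_simp

/-- A polynomial bound for a functional bounds its expectation at a node. -/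
theorem node_le [NeZero q] (hq : 2 ≤ q) {lam : ℝ} (h0 : -1 / ((q : ℝ) - 1) ≤ lam) (h1 : lam ≤ 1)
    {m : ℕ} (c : Fin m → ℝ) (b : Fin m → Fin q → ℕ) {g : (Fin q → ℝ) → ℝ}
    (hP : ∀ A : Fin q → ℝ, (∀ i, 0 ≤ A i) →
      (∑ i, A i) / q * g (rel A) ≤ ∑ j, c j * msym (b j) A)
    {n k : ℕ} (ch : Fin k → PTree n) :
    ev (fun s => nodeVec (q := q) lam ch s) g
      ≤ ∑ j, c j * ∏ x, ev (lik (q := q) lam n (ch x)) (cmon (b j) lam) := by
  simp only [← node_msym lam (b _) ch, Finset.mul_sum]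
  rw [Finset.sum_comm]
  refine Finset.sum_le_sum fun s _ => ?_
  have hm : ∀ x, 0 ≤ (∑ i, lik lam n (ch x) (s x) i) / (q : ℝ) := fun x =>
    mass_nonneg hq h0 h1 n (ch x) (s x)
  set μ : ℝ := ∏ x, (∑ i, lik lam n (ch x) (s x) i) / (q : ℝ) with hμ
  set A : Fin q → ℝ := fun i => ∏ x, (1 + lam * rel (lik lam n (ch x) (s x)) i) with hA
  rw [show ∑ j, c j * (μ * msym (b j) A) = μ * ∑ j, c j * msym (b j) A by
    rw [Finset.mul_sum]; exact Finset.sum_congr rfl fun j _ => by ring]
  by_cases hz : μ = 0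
  · obtain ⟨x, -, hx⟩ := Finset.prod_eq_zero_iff.1 hz
    have hl : ∀ i, lik lam n (ch x) (s x) i = 0 := fun i =>
      (Finset.sum_eq_zero_iff_of_nonneg fun i _ => lik_nonneg hq h0 h1 n (ch x) (s x) i).1
        (by simpa [NeZero.ne q] using hx) i (Finset.mem_univ i)
    have hv : ∀ i, nodeVec lam ch s i = 0 := fun i =>
      Finset.prod_eq_zero (Finset.mem_univ x) (Finset.sum_eq_zero fun j _ => by simp [hl])
    simp [hv, hz]
  · have hne : ∀ x, ∑ i, lik lam n (ch x) (s x) i ≠ 0 := fun x h =>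
      hz (Finset.prod_eq_zero (Finset.mem_univ x) (by simp [h]))
    have hv : nodeVec lam ch s = fun i => μ * A i := by
      funext i
      show (∏ x, chan lam (lik lam n (ch x) (s x)) i) = _
      rw [hμ, hA, ← Finset.prod_mul_distrib]
      exact Finset.prod_congr rfl fun x _ => chan_eq lam (hne x) i
    have hA0 : ∀ i, 0 ≤ A i := fun i => Finset.prod_nonneg fun x _ => by
      have := (lam_smul_simp hq h0 h1 (rel_simp (lik_nonneg hq h0 h1 n (ch x) (s x))
        (lt_of_le_of_ne (Finset.sum_nonneg fun i _ => lik_nonneg hq h0 h1 n (ch x) (s x) i)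
          (Ne.symm (hne x))))).1 i
      linarith
    simp only [hv]
    rw [rel_smul hz, ← Finset.mul_sum, mul_div_assoc, mul_assoc]
    exact mul_le_mul_of_nonneg_left (hP A hA0) (Finset.prod_nonneg fun x _ => hm x)

/-- The expectation of a product over the children of the root. -/
theorem gwE_node_prod {p : ℕ → ℝ} (hp : ∀ k, 0 ≤ p k) (n : ℕ) {F : PTree n → ℝ≥0∞}
    {G : PTree (n + 1) → ℝ≥0∞} (hG : ∀ k (ch : Fin k → PTree n), G ⟨k, ch⟩ = ∏ c, F (ch c)) :
    gwE p (n + 1) G = ∑' k, ENNReal.ofReal (p k) * gwE p n F ^ k := by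
  rw [gwE_succ hp]
  refine tsum_congr fun k => ?_
  congr 1
  simp only [hG, ← Finset.prod_mul_distrib, tsum_pi_prod (fun _ x =>
    ENNReal.ofReal (gwWeight p n x) * F x), gwE, Finset.prod_const, Finset.card_univ,
    Fintype.card_fin]

/-- The mean of `f` over the depth-`n` boundary law. -/
def mean (q : ℕ) (lam : ℝ) (p : ℕ → ℝ) (n : ℕ) (f : (Fin q → ℝ) → ℝ) : ℝ :=
  ∑' x : Idx q n, wIdx q lam p n x * f (yIdx lam n x)

/-- The closed bound one generation down. -/
theorem mean_succ_le (hq : 2 ≤ q) {lam : ℝ} (h0 : -1 / ((q : ℝ) - 1) ≤ lam) (h1 : lam ≤ 1)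
    {p : ℕ → ℝ} (hp : ∀ k, 0 ≤ p k) {m : ℕ} (c : Fin m → ℝ) (b : Fin m → Fin q → ℕ)
    {g : (Fin q → ℝ) → ℝ} (hg : ∀ y, Simp y → 0 ≤ g y)
    (hP : ∀ A : Fin q → ℝ, (∀ i, 0 ≤ A i) →
      (∑ i, A i) / q * g (rel A) ≤ ∑ j, c j * msym (b j) A)
    (n : ℕ) {S : Fin m → ℝ}
    (hS : ∀ j, ∑' k, ENNReal.ofReal (p k) *
      gwE p n (fun t => ENNReal.ofReal (ev (lik (q := q) lam n t) (cmon (b j) lam))) ^ k
        = ENNReal.ofReal (S j))
    (hS0 : ∀ j, 0 ≤ S j) :
    mean q lam p (n + 1) g ≤ ∑ j, c j * S j := by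
  have : NeZero q := ⟨by omega⟩
  have hev : ∀ (t : PTree n) (j : Fin m), 0 ≤ ev (lik (q := q) lam n t) (cmon (b j) lam) :=
    fun t j => ev_nonneg (lik_nonneg hq h0 h1 n t) fun y hy => cmon_nonneg hq h0 h1 (b j) hy
  set F : Fin m → PTree (n + 1) → ℝ := fun j t =>
    ∏ x, ev (lik (q := q) lam n (t.2 x)) (cmon (b j) lam) with hF
  have hF0 : ∀ j t, 0 ≤ F j t := fun j t => Finset.prod_nonneg fun x _ => hev _ _
  have hE : ∀ j, gwE p (n + 1) (fun t => ENNReal.ofReal (F j t)) = ENNReal.ofReal (S j) := by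
    intro j
    rw [← hS j]
    exact gwE_node_prod hp n fun k ch =>
      ENNReal.ofReal_prod_of_nonneg (s := Finset.univ) fun x _ => hev (ch x) j
  have hg0 : ∀ t : PTree (n + 1), 0 ≤ ev (lik (q := q) lam (n + 1) t) g := fun t =>
    ev_nonneg (lik_nonneg hq h0 h1 _ t) hg
  have key : gwE p (n + 1) (fun t => ENNReal.ofReal (ev (lik (q := q) lam (n + 1) t) g))
      + ∑ j, ENNReal.ofReal (max (-c j) 0) * ENNReal.ofReal (S j)
      ≤ ∑ j, ENNReal.ofReal (max (c j) 0) * ENNReal.ofReal (S j) := by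
    simp only [← hE, gwE, ← ENNReal.tsum_mul_left, ← Summable.tsum_finsetSum fun i _ =>
      ENNReal.summable, ← ENNReal.tsum_add]
    refine ENNReal.tsum_le_tsum fun t => ?_
    simp only [mul_left_comm _ (ENNReal.ofReal (gwWeight p (n + 1) t)), ← Finset.mul_sum, ← mul_add]
    refine mul_le_mul_right ?_ _
    simp only [← ENNReal.ofReal_mul (le_max_right (-c _) (0 : ℝ)),
      ← ENNReal.ofReal_mul (le_max_right (c _) (0 : ℝ))]
    rw [← ENNReal.ofReal_sum_of_nonneg fun j _ => mul_nonneg (le_max_right _ _) (hF0 j t),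
      ← ENNReal.ofReal_sum_of_nonneg fun j _ => mul_nonneg (le_max_right _ _) (hF0 j t),
      ← ENNReal.ofReal_add (hg0 t)
        (Finset.sum_nonneg fun j _ => mul_nonneg (le_max_right _ _) (hF0 j t))]
    refine ENNReal.ofReal_le_ofReal ?_
    have h : ev (lik (q := q) lam (n + 1) t) g ≤ ∑ j, c j * F j t := by
      obtain ⟨k, ch⟩ := t
      exact node_le hq h0 h1 c b hP ch
    have e : ∑ j, max (c j) 0 * F j t = ∑ j, c j * F j t + ∑ j, max (-c j) 0 * F j t := by
      rw [← Finset.sum_add_distrib]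
      refine Finset.sum_congr rfl fun j _ => ?_
      have := max_zero_sub_max_neg_zero_eq_self (c j)
      rw [← add_mul]; congr 1; linarith
    linarith
  simp only [← ENNReal.ofReal_mul (le_max_right (-c _) (0 : ℝ)),
    ← ENNReal.ofReal_mul (le_max_right (c _) (0 : ℝ))] at key
  rw [← ENNReal.ofReal_sum_of_nonneg fun j _ => mul_nonneg (le_max_right _ _) (hS0 j),
    ← ENNReal.ofReal_sum_of_nonneg fun j _ => mul_nonneg (le_max_right _ _) (hS0 j)] at key
  have hfin := ENNReal.toReal_mono ENNReal.ofReal_ne_top key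
  rw [ENNReal.toReal_add (ne_top_of_le_ne_top ENNReal.ofReal_ne_top (le_self_add.trans key))
    ENNReal.ofReal_ne_top, ENNReal.toReal_ofReal (Finset.sum_nonneg fun j _ =>
      mul_nonneg (le_max_right _ _) (hS0 j)), ENNReal.toReal_ofReal (Finset.sum_nonneg fun j _ =>
      mul_nonneg (le_max_right _ _) (hS0 j)), gwE_ev_toReal hq h0 h1 hp (n + 1) hg] at hfin
  have e : ∑ j, max (c j) 0 * S j = ∑ j, c j * S j + ∑ j, max (-c j) 0 * S j := by
    rw [← Finset.sum_add_distrib]
    refine Finset.sum_congr rfl fun j _ => ?_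
    have := max_zero_sub_max_neg_zero_eq_self (c j)
    rw [← add_mul]; congr 1; linarith
  unfold mean
  linarith

end Vale.P154.PS
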