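import Vale.Agent.P154.Pois.Node

/-!
# The closed bound for Poisson offspring
-/

noncomputable section

namespace Vale.P154.PS

open Finset Filter Topology
open scoped ENNReal

variable {q : ℕ}

theorem summable_mean (hq : 2 ≤ q) {lam : ℝ} (h0 : -1 / ((q : ℝ) - 1) ≤ lam) (h1 : lam ≤ 1)
    {p : ℕ → ℝ} (hp : ∀ k, 0 ≤ p k) (hp1 : ∑' k, ENNReal.ofReal (p k) = 1) (n : ℕ)
    {f : (Fin q → ℝ) → ℝ} {B : ℝ} (hf : ∀ y, Simp y → |f y| ≤ B) :
    Summable fun x : Idx q n => wIdx q lam p n x * f (yIdx lam n x) := by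
  have : NeZero q := ⟨by omega⟩
  refine Summable.of_norm_bounded ((wIdx_tsum hq h0 h1 hp hp1 n).1.mul_right B) fun x => ?_
  rw [Real.norm_eq_abs, abs_mul, abs_of_nonneg (wIdx_nonneg hq h0 h1 hp n x)]
  exact mul_le_mul_of_nonneg_left (hf _ (relOr_simp (lik_nonneg hq h0 h1 n x.1 x.2)))
    (wIdx_nonneg hq h0 h1 hp n x)

theorem mean_const (hq : 2 ≤ q) {lam : ℝ} (h0 : -1 / ((q : ℝ) - 1) ≤ lam) (h1 : lam ≤ 1)
    {p : ℕ → ℝ} (hp : ∀ k, 0 ≤ p k) (hp1 : ∑' k, ENNReal.ofReal (p k) = 1) (n : ℕ) (a : ℝ) :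
    mean q lam p n (fun _ => a) = a := by
  unfold mean
  rw [tsum_mul_right, (wIdx_tsum hq h0 h1 hp hp1 n).2, one_mul]

theorem mean_mono (hq : 2 ≤ q) {lam : ℝ} (h0 : -1 / ((q : ℝ) - 1) ≤ lam) (h1 : lam ≤ 1)
    {p : ℕ → ℝ} (hp : ∀ k, 0 ≤ p k) (hp1 : ∑' k, ENNReal.ofReal (p k) = 1) (n : ℕ)
    {f g : (Fin q → ℝ) → ℝ} {B B' : ℝ} (hf : ∀ y, Simp y → |f y| ≤ B)
    (hg : ∀ y, Simp y → |g y| ≤ B') (h : ∀ y, Simp y → f y ≤ g y) :
    mean q lam p n f ≤ mean q lam p n g := by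
  have : NeZero q := ⟨by omega⟩
  exact (summable_mean hq h0 h1 hp hp1 n hf).tsum_le_tsum (fun x =>
    mul_le_mul_of_nonneg_left (h _ (relOr_simp (lik_nonneg hq h0 h1 n x.1 x.2)))
      (wIdx_nonneg hq h0 h1 hp n x)) (summable_mean hq h0 h1 hp hp1 n hg)

theorem mean_smul (lam : ℝ) (p : ℕ → ℝ) (n : ℕ) (a : ℝ) (f : (Fin q → ℝ) → ℝ) :
    mean q lam p n (fun y => a * f y) = a * mean q lam p n f := by
  unfold mean
  rw [← tsum_mul_left]
  exact tsum_congr fun x => by ring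

theorem mean_add (hq : 2 ≤ q) {lam : ℝ} (h0 : -1 / ((q : ℝ) - 1) ≤ lam) (h1 : lam ≤ 1)
    {p : ℕ → ℝ} (hp : ∀ k, 0 ≤ p k) (hp1 : ∑' k, ENNReal.ofReal (p k) = 1) (n : ℕ)
    {f g : (Fin q → ℝ) → ℝ} {B B' : ℝ} (hf : ∀ y, Simp y → |f y| ≤ B)
    (hg : ∀ y, Simp y → |g y| ≤ B') :
    mean q lam p n (fun y => f y + g y) = mean q lam p n f + mean q lam p n g := by
  unfold mean
  simp only [mul_add]
  exact (summable_mean hq h0 h1 hp hp1 n hf).tsum_add (summable_mean hq h0 h1 hp hp1 n hg)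

/-- The closed bound for Poisson offspring. -/
theorem mean_succ_le_pois (hq : 2 ≤ q) {lam : ℝ} (h0 : -1 / ((q : ℝ) - 1) ≤ lam) (h1 : lam ≤ 1)
    {d : ℝ} (hd : 0 ≤ d) {m : ℕ} (c : Fin m → ℝ) (b : Fin m → Fin q → ℕ)
    {g : (Fin q → ℝ) → ℝ} (hg : ∀ y, Simp y → 0 ≤ g y)
    (hP : ∀ A : Fin q → ℝ, (∀ i, 0 ≤ A i) →
      (∑ i, A i) / q * g (rel A) ≤ ∑ j, c j * msym (b j) A)
    (n : ℕ) :
    mean q lam (poisWeight d) (n + 1) g
      ≤ ∑ j, c j * Real.exp (d * (mean q lam (poisWeight d) n (cmon (b j) lam) - 1)) := by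
  have : NeZero q := ⟨by omega⟩
  have hp := poisWeight_nonneg hd
  refine mean_succ_le hq h0 h1 hp c b hg hP n (fun j => ?_) fun j => (Real.exp_pos _).le
  have hc : ∀ y, Simp y → 0 ≤ cmon (b j) lam y := fun y hy => cmon_nonneg hq h0 h1 (b j) hy
  set Φ := mean q lam (poisWeight d) n (cmon (b j) lam) with hΦ
  have hne : gwE (poisWeight d) n (fun t => ENNReal.ofReal (ev (lik (q := q) lam n t)
      (cmon (b j) lam))) ≠ ∞ := by
    refine ne_top_of_le_ne_top (ENNReal.ofReal_ne_top (r := (2 : ℝ) ^ (∑ i, b j i) * q ^ (∑ i, b j i)))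
      ?_
    rw [← one_mul (ENNReal.ofReal _), ← gwE_one hp (tsum_poisWeight hd) n]
    unfold gwE
    rw [← ENNReal.tsum_mul_right]
    refine ENNReal.tsum_le_tsum fun t => ?_
    rw [mul_one]
    refine mul_le_mul_right (ENNReal.ofReal_le_ofReal ?_) _
    calc ev (lik (q := q) lam n t) (cmon (b j) lam)
        ≤ ev (lik (q := q) lam n t) (fun _ => (2 : ℝ) ^ (∑ i, b j i) * q ^ (∑ i, b j i)) := by
          refine Finset.sum_le_sum fun s _ => ?_
          obtain ⟨hm, hs⟩ := mass_simp _ (lik_nonneg hq h0 h1 n t) s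
          by_cases h : (∑ i, lik lam n t s i) / (q : ℝ) = 0
          · simp [h]
          · refine mul_le_mul_of_nonneg_left ?_ hm
            have hz := lam_smul_simp hq h0 h1 (hs h)
            unfold cmon msym
            rw [div_le_iff₀ (by exact_mod_cast Fintype.card_pos)]
            refine (Finset.sum_le_card_nsmul _ _ ((2 : ℝ) ^ (∑ i, b j i) * q ^ (∑ i, b j i))
              fun π _ => ?_).trans_eq (by rw [nsmul_eq_mul, Finset.card_univ]; ring)
            calc ∏ i, (1 + lam * rel (lik lam n t s) i) ^ b j (π i)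
                ≤ ∏ i, ((2 : ℝ) * q) ^ b j (π i) := Finset.prod_le_prod
                  (fun i _ => pow_nonneg (by linarith [hz.1 i]) _) fun i _ =>
                  pow_le_pow_left₀ (by linarith [hz.1 i]) (by
                    have := le_sub_one hz i
                    have : (2 : ℝ) ≤ q := by exact_mod_cast hq
                    linarith) _
              _ = _ := by
                rw [Finset.prod_pow_eq_pow_sum, Equiv.sum_comp π (b j), mul_pow]
      _ = _ := by rw [ev_const, sum_mass, one_mul]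
  have hval : gwE (poisWeight d) n (fun t => ENNReal.ofReal (ev (lik (q := q) lam n t)
      (cmon (b j) lam))) = ENNReal.ofReal Φ := by
    rw [hΦ, mean, ← gwE_ev_toReal hq h0 h1 hp n hc, ENNReal.ofReal_toReal hne]
  have hΦ0 : 0 ≤ Φ := tsum_nonneg fun x => mul_nonneg (wIdx_nonneg hq h0 h1 hp n x)
    (hc _ (relOr_simp (lik_nonneg hq h0 h1 n x.1 x.2)))
  have hsum : Summable fun k => poisWeight d k * Φ ^ k := by
    have h := (NormedSpace.expSeries_div_hasSum_exp (d * Φ)).mul_left (Real.exp (-d))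
    refine h.summable.congr fun k => ?_
    unfold poisWeight; ring
  simp only [hval, ← ENNReal.ofReal_pow hΦ0, ← ENNReal.ofReal_mul (hp _)]
  rw [← ENNReal.ofReal_tsum_of_nonneg (fun k => mul_nonneg (hp k) (pow_nonneg hΦ0 k)) hsum,
    tsum_poisWeight_pow]
  congr 2
  ring

end Vale.P154.PS
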