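import Vale.Agent.P154.Pois.Three
import Vale.Agent.P154.Pois.Case0
import Vale.Agent.P154.Pois.Case1
import Vale.Agent.P154.Pois.Case2
import Vale.Agent.P154.Pois.Case3

/-!
# Three states: the potential decreases along the moment recursion
-/

noncomputable section

namespace Vale.P154.PS

open Finset

/-- The exponent of a class at the scaled moments. -/
def expnt (j : Fin 13) (p t w f : ℝ) : ℝ := lin j 0 * p + lin j 1 * t + lin j 2 * w + lin j 3 * f

/-- A bound for the exponent in units of the first moment. -/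
def wgt (j : Fin 13) : ℝ := |lin j 0| + |lin j 1| / 2 + |lin j 2| / 2 + |lin j 3| / 4

/-- The exponential series to the fourth order. -/
def t4 (e : ℝ) : ℝ := 1 + e + e ^ 2 / 2 + e ^ 3 / 6 + e ^ 4 / 24

theorem wgt_le : ∀ j, wgt j ≤ 10 := by
  intro j; fin_cases j <;> simp [wgt, lin, Matrix.cons_val] <;> norm_num

/-- The closed bound in polynomial form. -/
def polyBound (c : Fin 13 → ℝ) (p t w f : ℝ) : ℝ :=
  ∑ j, (c j * t4 (expnt j p t w f) + |c j| * wgt j ^ 5 / 100 * p ^ 5)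

theorem sum_exp_le (c : Fin 13 → ℝ) {p t w f : ℝ} (hp : 0 ≤ p) (hp1 : p ≤ 1 / 10)
    (ht : |t| ≤ p / 2) (hw : |w| ≤ p / 2) (hf : |f| ≤ p / 4) :
    ∑ j, c j * Real.exp (expnt j p t w f) ≤ polyBound c p t w f := by
  refine Finset.sum_le_sum fun j _ => ?_
  have he : |expnt j p t w f| ≤ wgt j * p := by
    calc |expnt j p t w f| ≤ |lin j 0 * p| + |lin j 1 * t| + |lin j 2 * w| + |lin j 3 * f| := by
          unfold expnt
          exact (abs_add_le _ _).trans (add_le_add_left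
            ((abs_add_le _ _).trans (add_le_add_left (abs_add_le _ _) _)) _)
      _ ≤ |lin j 0| * p + |lin j 1| * (p / 2) + |lin j 2| * (p / 2) + |lin j 3| * (p / 4) := by
          simp only [abs_mul, abs_of_nonneg hp]
          gcongr
      _ = _ := by unfold wgt; ring
  have hwp : wgt j * p ≤ 1 := by
    have := mul_le_mul_of_nonneg_right (wgt_le j) hp
    linarith
  have hb := Real.exp_bound (he.trans hwp) (n := 5) (by norm_num)
  simp only [Finset.sum_range_succ, Finset.sum_range_zero] at hb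
  norm_num [Nat.factorial] at hb
  have h5 : |expnt j p t w f| ^ 5 ≤ wgt j ^ 5 * p ^ 5 := by
    rw [← mul_pow]; exact pow_le_pow_left₀ (abs_nonneg _) he 5
  have hm : |Real.exp (expnt j p t w f) - t4 (expnt j p t w f)| ≤ wgt j ^ 5 * p ^ 5 / 100 := by
    unfold t4
    refine le_trans (le_of_eq ?_) (hb.trans ?_)
    · congr 1
    · linarith
  have := le_abs_self (c j * (Real.exp (expnt j p t w f) - t4 (expnt j p t w f)))
  rw [abs_mul] at this
  have h2 := mul_le_mul_of_nonneg_left hm (abs_nonneg (c j))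
  linarith

theorem polyBound_X (p a o g : ℝ) :
    polyBound cX p (p * a) (p * o) (p * o * g) = p + p * qX p a o g := by
  simp [polyBound, Fin.sum_univ_succ, cX, expnt, wgt, lin, t4, qX]
  ring

theorem polyBound_W (p a o g : ℝ) :
    polyBound cW p (p * a) (p * o) (p * o * g) = p * o + p * qW p a o g := by
  simp [polyBound, Fin.sum_univ_succ, cW, expnt, wgt, lin, t4, qW]
  ring

theorem polyBound_H (p a o g : ℝ) :
    polyBound cH p (p * a) (p * o) (p * o * g) = 1 + p * a + p * qH p a o g := by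
  simp [polyBound, Fin.sum_univ_succ, cH, expnt, wgt, lin, t4, qH]
  ring

theorem polyBound_L (p a o g : ℝ) :
    polyBound cL p (p * a) (p * o) (p * o * g) = 2 - p * a + p * qL p a o g := by
  simp [polyBound, Fin.sum_univ_succ, cL, expnt, wgt, lin, t4, qL]
  ring

/-- The potential. -/
def pot (p t w : ℝ) : ℝ := p + 3 / 25 * max (-t) 0 + 2 / 25 * max t 0 + 4 / 25 * w

theorem pot_arith {p a o x' b' c' θ lam X W H L : ℝ} (hp : 0 ≤ p) (hθ : 0 ≤ θ) (hl1 : lam ≤ 0)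
    (hm : θ * -lam ≤ 1 / 2) (s1 : θ * x' ≤ x') (s2 : θ * (lam ^ 2 * c') ≤ c' / 4)
    (eX : x' ≤ p + p * X) (eW : c' ≤ p * o + p * W) (eH : 1 + b' ≤ 1 + p * a + p * H)
    (eL : 2 - b' ≤ 2 - p * a + p * L)
    (cHP : 0 ≤ a → X + 1 / 25 * W + 3 / 50 * H + 1 / 1000 * p - 3 / 25 * o - 1 / 50 * a ≤ 0)
    (cHN : a ≤ 0 → X + 1 / 25 * W + 3 / 50 * H + 1 / 1000 * p - 3 / 25 * o + 9 / 50 * a ≤ 0)
    (cLP : 0 ≤ a → X + 1 / 25 * W + 1 / 25 * L + 1 / 1000 * p - 3 / 25 * o - 3 / 25 * a ≤ 0)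
    (cLN : a ≤ 0 → X + 1 / 25 * W + 1 / 25 * L + 1 / 1000 * p - 3 / 25 * o + 2 / 25 * a ≤ 0) :
    pot (θ * x') (θ * (lam * b')) (θ * (lam ^ 2 * c')) + 1 / 1000 * p ^ 2 ≤ pot p (p * a) (p * o) := by
  unfold pot
  rcases le_total 0 b' with hb | hb
  · have e1 : max (θ * (lam * b')) 0 = 0 :=
      max_eq_right (mul_nonpos_of_nonneg_of_nonpos hθ (mul_nonpos_of_nonpos_of_nonneg hl1 hb))
    have e2 : max (-(θ * (lam * b'))) 0 ≤ b' / 2 := max_le
      (by linarith [mul_le_mul_of_nonneg_right hm hb]) (by linarith)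
    rw [e1]
    rcases le_total 0 a with h | h
    · have hc := cHP h
      rw [max_eq_right (by nlinarith : -(p * a) ≤ 0), max_eq_left (mul_nonneg hp h)]
      linarith [mul_nonpos_of_nonneg_of_nonpos hp hc]
    · have hc := cHN h
      rw [max_eq_left (by nlinarith : 0 ≤ -(p * a)),
        max_eq_right (mul_nonpos_of_nonneg_of_nonpos hp h)]
      linarith [mul_nonpos_of_nonneg_of_nonpos hp hc]
  · have e1 : max (-(θ * (lam * b'))) 0 = 0 := max_eq_right
      (neg_nonpos.2 (mul_nonneg hθ (mul_nonneg_of_nonpos_of_nonpos hl1 hb)))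
    have e2 : max (θ * (lam * b')) 0 ≤ -b' / 2 := max_le
      (by linarith [mul_le_mul_of_nonneg_right hm (neg_nonneg.2 hb)]) (by linarith)
    rw [e1]
    rcases le_total 0 a with h | h
    · have hc := cLP h
      rw [max_eq_right (by nlinarith : -(p * a) ≤ 0), max_eq_left (mul_nonneg hp h)]
      linarith [mul_nonpos_of_nonneg_of_nonpos hp hc]
    · have hc := cLN h
      rw [max_eq_left (by nlinarith : 0 ≤ -(p * a)),
        max_eq_right (mul_nonpos_of_nonneg_of_nonpos hp h)]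
      linarith [mul_nonpos_of_nonneg_of_nonpos hp hc]

theorem pot_step {p t w f x' b' c' θ lam : ℝ} (hp : 0 ≤ p) (hp1 : p ≤ 1 / 10) (ht : |t| ≤ p / 2)
    (hw0 : 0 ≤ w) (hw : w ≤ p / 2) (hf : |f| ≤ w / 2) (hθ : 0 ≤ θ) (hθ1 : θ ≤ 1)
    (hl : -(1 / 2) ≤ lam) (hl1 : lam ≤ 0) (hx0 : 0 ≤ x') (hc0 : 0 ≤ c')
    (hX : x' ≤ ∑ j, cX j * Real.exp (expnt j p t w f))
    (hW : c' ≤ ∑ j, cW j * Real.exp (expnt j p t w f))
    (hH : 1 + b' ≤ ∑ j, cH j * Real.exp (expnt j p t w f))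
    (hL : 2 - b' ≤ ∑ j, cL j * Real.exp (expnt j p t w f)) :
    pot (θ * x') (θ * (lam * b')) (θ * (lam ^ 2 * c')) + 1 / 1000 * p ^ 2 ≤ pot p t w := by
  have hw' : |w| ≤ p / 2 := by rwa [abs_of_nonneg hw0]
  have hf' : |f| ≤ p / 4 := by linarith
  obtain ⟨a, ha⟩ : ∃ a, t = p * a ∧ |a| ≤ 1 / 2 := by
    rcases hp.eq_or_lt with h | h
    · exact ⟨0, by rw [← h] at ht ⊢; simpa using ht, by norm_num⟩
    · refine ⟨t / p, by field_simp, ?_⟩
      rw [abs_div, abs_of_pos h, div_le_iff₀ h]; linarith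
  obtain ⟨o, ho⟩ : ∃ o, w = p * o ∧ 0 ≤ o ∧ o ≤ 1 / 2 := by
    rcases hp.eq_or_lt with h | h
    · exact ⟨0, by rw [← h] at hw ⊢; linarith, le_rfl, by norm_num⟩
    · exact ⟨w / p, by field_simp, div_nonneg hw0 h.le, by rw [div_le_iff₀ h]; linarith⟩
  obtain ⟨g, hg⟩ : ∃ g, f = p * o * g ∧ |g| ≤ 1 / 2 := by
    rw [← ho.1]
    rcases hw0.eq_or_lt with h | h
    · exact ⟨0, by rw [← h] at hf ⊢; simpa using hf, by norm_num⟩
    · refine ⟨f / w, by field_simp, ?_⟩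
      rw [abs_div, abs_of_pos h, div_le_iff₀ h]; linarith
  obtain ⟨ho1, ho2, ho3⟩ := ho
  obtain ⟨ha1, ha2⟩ := ha
  obtain ⟨hg1, hg2⟩ := hg
  have eX := hX.trans (sum_exp_le cX hp hp1 ht hw' hf')
  have eW := hW.trans (sum_exp_le cW hp hp1 ht hw' hf')
  have eH := hH.trans (sum_exp_le cH hp hp1 ht hw' hf')
  have eL := hL.trans (sum_exp_le cL hp hp1 ht hw' hf')
  subst ha1 ho1 hg1
  rw [polyBound_X] at eX
  rw [polyBound_W] at eW
  rw [polyBound_H] at eH
  rw [polyBound_L] at eL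
  obtain ⟨a1, a2⟩ := abs_le.1 ha2
  obtain ⟨g1, g2⟩ := abs_le.1 hg2
  have l4 : lam ^ 2 ≤ 1 / 4 := by nlinarith
  have s1 : θ * x' ≤ x' := mul_le_of_le_one_left hx0 hθ1
  have s2 : θ * (lam ^ 2 * c') ≤ c' / 4 :=
    (mul_le_of_le_one_left (mul_nonneg (sq_nonneg lam) hc0) hθ1).trans
      (by linarith [mul_le_mul_of_nonneg_right l4 hc0])
  have hm : θ * -lam ≤ 1 / 2 := (mul_le_of_le_one_left (by linarith) hθ1).trans (by linarith)
  exact pot_arith hp hθ hl1 hm s1 s2 eX eW eH eL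
    (fun h => casehP hp hp1 h a2 ho2 ho3 g1 g2)
    (fun h => casehN hp hp1 (by linarith) h ho2 ho3 g1 g2)
    (fun h => caselP hp hp1 h a2 ho2 ho3 g1 g2)
    (fun h => caselN hp hp1 (by linarith) h ho2 ho3 g1 g2)

end Vale.P154.PS
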