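import Vale.Agent.P154.Pois.Poisson

/-!
# Three states: polynomial bounds for the second, third and fourth moments at a node
-/

noncomputable section

namespace Vale.P154.PS

open Finset

/-- The exponent classes. -/
def bet : Fin 13 → Fin 3 → ℕ :=
  ![![1, 0, 0], ![1, 1, 0], ![1, 1, 1], ![2, 1, 0], ![3, 0, 0], ![2, 1, 1], ![2, 2, 0], ![3, 1, 0], ![4, 0, 0], ![2, 2, 1], ![3, 1, 1], ![3, 2, 0], ![4, 1, 0]]

/-- Coefficients for the chi-square. -/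
def cX : Fin 13 → ℝ :=
  ![2, -8, 4, 8, 0, -40 / 9, -16 / 9, -16 / 9, 0, 8 / 9, 14 / 27, 4 / 9, 4 / 27]

/-- Coefficients for the squared chi-square. -/
def cW : Fin 13 → ℝ :=
  ![4, -16, 8, 16, 0, -64 / 9, -16 / 9, -64 / 9, 0, 4 / 9, 40 / 27, 8 / 9, 32 / 27]

/-- Coefficients for the one plus the third moment. -/
def cH : Fin 13 → ℝ :=
  ![3, -8, 6, 6, 0, -16 / 3, -4 / 3, -4 / 3, 0, 8 / 9, 14 / 27, 4 / 9, 4 / 27]

/-- Coefficients for the two minus the third moment. -/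
def cL : Fin 13 → ℝ :=
  ![4, -8, 10 / 3, 10, -4 / 3, -40 / 9, -20 / 9, -44 / 27, 8 / 27, 8 / 9, 14 / 27, 4 / 9, 4 / 27]

/-- Exponents of the four moments, class by class. -/
def lin : Fin 13 → Fin 4 → ℝ :=
  ![![0, 0, 0, 0],
    ![-1 / 2, 0, 0, 0],
    ![-3 / 2, 1, 0, 0],
    ![0, -1 / 2, 0, 0],
    ![3, 1, 0, 0],
    ![-3 / 2, 1, 0, 0],
    ![0, -2, 3 / 4, 0],
    ![3 / 2, -1 / 2, -3 / 4, 0],
    ![6, 4, 3 / 2, 0],
    ![-2, 1, 3 / 4, -1 / 2],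
    ![-1 / 2, 1, -3 / 2, 1],
    ![1, -7 / 2, 3 / 4, 1 / 4],
    ![4, 1, -3 / 2, -5 / 4]]

/-- The third moment for three states. -/
def em (y : Fin 3 → ℝ) : ℝ := (∑ i, y i ^ 3) / 3

theorem msym3 (b : Fin 3 → ℕ) (A : Fin 3 → ℝ) :
    msym b A = (A 0 ^ b 0 * A 1 ^ b 1 * A 2 ^ b 2 + A 0 ^ b 1 * A 1 ^ b 0 * A 2 ^ b 2
      + A 0 ^ b 2 * A 1 ^ b 1 * A 2 ^ b 0 + A 0 ^ b 0 * A 1 ^ b 2 * A 2 ^ b 1
      + A 0 ^ b 1 * A 1 ^ b 2 * A 2 ^ b 0 + A 0 ^ b 2 * A 1 ^ b 0 * A 2 ^ b 1) / 6 := by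
  have h : (Finset.univ : Finset (Equiv.Perm (Fin 3))) = {1, Equiv.swap 0 1, Equiv.swap 0 2,
      Equiv.swap 1 2, Equiv.swap 0 1 * Equiv.swap 1 2, Equiv.swap 1 2 * Equiv.swap 0 1} := by
    decide
  unfold msym
  rw [h, Finset.sum_insert (by decide), Finset.sum_insert (by decide),
    Finset.sum_insert (by decide), Finset.sum_insert (by decide), Finset.sum_insert (by decide),
    Finset.sum_singleton]
  simp [Fin.prod_univ_three, Fintype.card_perm, Nat.factorial, Equiv.swap_apply_def,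
    Equiv.Perm.mul_apply]
  ring

variable (a b c : ℝ)

/-- The mean. -/
def zz : ℝ := (a + b + c) / 3

/-- The variance. -/
def qq : ℝ := ((a - zz a b c) ^ 2 + (b - zz a b c) ^ 2 + (c - zz a b c) ^ 2) / 3

/-- The third central moment. -/
def uu : ℝ := ((a - zz a b c) ^ 3 + (b - zz a b c) ^ 3 + (c - zz a b c) ^ 3) / 3

theorem sum_cX (A : Fin 3 → ℝ) :
    ∑ j, cX j * msym (bet j) A = qq (A 0) (A 1) (A 2) * (1 - (zz (A 0) (A 1) (A 2) - 1)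
        + (zz (A 0) (A 1) (A 2) - 1) ^ 2 - (zz (A 0) (A 1) (A 2) - 1) ^ 3)
      + 2 * zz (A 0) (A 1) (A 2) * (zz (A 0) (A 1) (A 2) - 1) ^ 4 := by
  simp [Fin.sum_univ_succ, cX, msym3, bet, qq, zz]
  ring

theorem sum_cW (A : Fin 3 → ℝ) :
    ∑ j, cW j * msym (bet j) A = qq (A 0) (A 1) (A 2) ^ 2
        * (1 - 3 * (zz (A 0) (A 1) (A 2) - 1))
      + qq (A 0) (A 1) (A 2) * (zz (A 0) (A 1) (A 2) - 1) ^ 2
        * (6 - 2 * (zz (A 0) (A 1) (A 2) - 1) + 6 * zz (A 0) (A 1) (A 2))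
      + 4 * zz (A 0) (A 1) (A 2) * (zz (A 0) (A 1) (A 2) - 1) ^ 4 := by
  simp [Fin.sum_univ_succ, cW, msym3, bet, qq, zz]
  ring

theorem sum_cH (A : Fin 3 → ℝ) :
    ∑ j, cH j * msym (bet j) A
      = uu (A 0) (A 1) (A 2) * (1 - 2 * (zz (A 0) (A 1) (A 2) - 1))
      + qq (A 0) (A 1) (A 2) * (zz (A 0) (A 1) (A 2) - 1) ^ 2
        * (3 - (zz (A 0) (A 1) (A 2) - 1))
      + 2 * zz (A 0) (A 1) (A 2) * (zz (A 0) (A 1) (A 2) - 1) ^ 4 + zz (A 0) (A 1) (A 2) := by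
  simp [Fin.sum_univ_succ, cH, msym3, bet, qq, uu, zz]
  ring

theorem sum_cL (A : Fin 3 → ℝ) :
    ∑ j, cL j * msym (bet j) A
      = -uu (A 0) (A 1) (A 2) * (1 - 2 * (zz (A 0) (A 1) (A 2) - 1))
      + qq (A 0) (A 1) (A 2) * (zz (A 0) (A 1) (A 2) - 1) ^ 2
        * (3 - (zz (A 0) (A 1) (A 2) - 1))
      + 2 * zz (A 0) (A 1) (A 2) * (zz (A 0) (A 1) (A 2) - 1) ^ 4
      + 2 * zz (A 0) (A 1) (A 2) := by
  simp [Fin.sum_univ_succ, cL, msym3, bet, qq, uu, zz]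
  ring

variable {a b c}

theorem qq_nonneg : 0 ≤ qq a b c := by unfold qq; positivity

theorem qq_le (ha : 0 ≤ a) (hb : 0 ≤ b) (hc : 0 ≤ c) : qq a b c ≤ 2 * zz a b c ^ 2 := by
  unfold qq zz
  nlinarith [mul_nonneg ha hb, mul_nonneg ha hc, mul_nonneg hb hc]

theorem uu_bound (ha : 0 ≤ a) (hb : 0 ≤ b) (hc : 0 ≤ c) :
    -(zz a b c * qq a b c) ≤ uu a b c ∧ uu a b c ≤ zz a b c * qq a b c := by
  constructor
  · have h := add_nonneg (add_nonneg (mul_nonneg ha (sq_nonneg (a - zz a b c)))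
      (mul_nonneg hb (sq_nonneg (b - zz a b c)))) (mul_nonneg hc (sq_nonneg (c - zz a b c)))
    unfold uu qq zz at *
    linarith
  · unfold uu qq zz
    linarith [mul_nonneg ha (sq_nonneg (b - c)), mul_nonneg hb (sq_nonneg (c - a)),
      mul_nonneg hc (sq_nonneg (a - b))]

theorem chi3_rel {A : Fin 3 → ℝ} (h : zz (A 0) (A 1) (A 2) ≠ 0) :
    chi (rel A) = qq (A 0) (A 1) (A 2) / zz (A 0) (A 1) (A 2) ^ 2 ∧
      em (rel A) = uu (A 0) (A 1) (A 2) / zz (A 0) (A 1) (A 2) ^ 3 := by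
  have h' : A 0 + A 1 + A 2 ≠ 0 := fun e => h (by simp [zz, e])
  simp only [chi, em, rel, qq, uu, zz, Fin.sum_univ_three]
  constructor <;> (push_cast; field_simp) <;> ring

theorem zero_of_zz {A : Fin 3 → ℝ} (hA : ∀ i, 0 ≤ A i) (h : zz (A 0) (A 1) (A 2) = 0) :
    A 0 = 0 ∧ A 1 = 0 ∧ A 2 = 0 := by
  have := hA 0; have := hA 1; have := hA 2
  unfold zz at h
  refine ⟨?_, ?_, ?_⟩ <;> linarith

theorem zz_eq (A : Fin 3 → ℝ) : (∑ i, A i) / ((3 : ℕ) : ℝ) = zz (A 0) (A 1) (A 2) := by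
  simp [zz, Fin.sum_univ_three]

theorem zz_nonneg {A : Fin 3 → ℝ} (hA : ∀ i, 0 ≤ A i) : 0 ≤ zz (A 0) (A 1) (A 2) := by
  have := hA 0; have := hA 1; have := hA 2
  unfold zz; positivity

theorem bound_chi (A : Fin 3 → ℝ) (hA : ∀ i, 0 ≤ A i) :
    (∑ i, A i) / ((3 : ℕ) : ℝ) * chi (rel A) ≤ ∑ j, cX j * msym (bet j) A := by
  rw [sum_cX, zz_eq]
  rcases eq_or_ne (zz (A 0) (A 1) (A 2)) 0 with h | h
  · obtain ⟨h0, h1, h2⟩ := zero_of_zz hA h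
    simp [h0, h1, h2, qq, zz]
  rw [(chi3_rel h).1]
  have hq := qq_le (hA 0) (hA 1) (hA 2)
  set Z := zz (A 0) (A 1) (A 2)
  set Q := qq (A 0) (A 1) (A 2)
  have Z0 : 0 < Z := lt_of_le_of_ne (zz_nonneg hA) (Ne.symm h)
  have key : Z * (Q / Z ^ 2) = Q * (1 - (Z - 1) + (Z - 1) ^ 2 - (Z - 1) ^ 3)
      + 2 * Z * (Z - 1) ^ 4 - (Z - 1) ^ 4 * (2 * Z ^ 2 - Q) / Z := by
    field_simp; ring
  have := div_nonneg (mul_nonneg (pow_nonneg (sq_nonneg (Z - 1)) 2) (sub_nonneg.2 hq)) Z0.le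
  rw [← pow_mul] at this
  linarith

theorem sq_tail {Z Q : ℝ} (Z0 : 0 < Z) (hq : Q ≤ 2 * Z ^ 2) :
    Q * (Z - 1) ^ 2 / Z ≤ Q * (Z - 1) ^ 2 * (1 - (Z - 1)) + 2 * Z * (Z - 1) ^ 4 := by
  have key : Q * (Z - 1) ^ 2 / Z = Q * (Z - 1) ^ 2 * (1 - (Z - 1)) + 2 * Z * (Z - 1) ^ 4
      - (Z - 1) ^ 4 * (2 * Z ^ 2 - Q) / Z := by
    field_simp; ring
  have := div_nonneg (mul_nonneg (pow_nonneg (sq_nonneg (Z - 1)) 2) (sub_nonneg.2 hq)) Z0.le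
  rw [← pow_mul] at this
  linarith

theorem bound_sq (A : Fin 3 → ℝ) (hA : ∀ i, 0 ≤ A i) :
    (∑ i, A i) / ((3 : ℕ) : ℝ) * chi (rel A) ^ 2 ≤ ∑ j, cW j * msym (bet j) A := by
  rw [sum_cW, zz_eq]
  rcases eq_or_ne (zz (A 0) (A 1) (A 2)) 0 with h | h
  · obtain ⟨h0, h1, h2⟩ := zero_of_zz hA h
    simp [h0, h1, h2, qq, zz]
  rw [(chi3_rel h).1]
  have hq := qq_le (hA 0) (hA 1) (hA 2)
  have hq0 : 0 ≤ qq (A 0) (A 1) (A 2) := qq_nonneg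
  set Z := zz (A 0) (A 1) (A 2)
  set Q := qq (A 0) (A 1) (A 2)
  have Z0 : 0 < Z := lt_of_le_of_ne (zz_nonneg hA) (Ne.symm h)
  have key : Z * (Q / Z ^ 2) ^ 2 = Q ^ 2 * (1 - 3 * (Z - 1))
      + 2 * (Q * (Z - 1) ^ 2 / Z) + Q * (Z - 1) ^ 2 * (4 + 6 * Z)
      - Q * (Z - 1) ^ 2 * (1 + 2 * Z + 3 * Z ^ 2) * (2 * Z ^ 2 - Q) / Z ^ 3 := by
    field_simp; ring
  have h1 : 0 ≤ Q * (Z - 1) ^ 2 * (1 + 2 * Z + 3 * Z ^ 2) * (2 * Z ^ 2 - Q) / Z ^ 3 :=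
    div_nonneg (mul_nonneg (mul_nonneg (mul_nonneg hq0 (sq_nonneg _)) (by positivity))
      (sub_nonneg.2 hq)) (by positivity)
  linarith [sq_tail Z0 hq]

theorem bound_em (A : Fin 3 → ℝ) (hA : ∀ i, 0 ≤ A i) :
    (∑ i, A i) / ((3 : ℕ) : ℝ) * (1 + em (rel A)) ≤ ∑ j, cH j * msym (bet j) A ∧
      (∑ i, A i) / ((3 : ℕ) : ℝ) * (2 - em (rel A)) ≤ ∑ j, cL j * msym (bet j) A := by
  rw [sum_cH, sum_cL, zz_eq]
  rcases eq_or_ne (zz (A 0) (A 1) (A 2)) 0 with h | h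
  · obtain ⟨h0, h1, h2⟩ := zero_of_zz hA h
    simp [h0, h1, h2, qq, uu, zz]
  rw [(chi3_rel h).2]
  have hq := qq_le (hA 0) (hA 1) (hA 2)
  obtain ⟨hu0, hu1⟩ := uu_bound (hA 0) (hA 1) (hA 2)
  set Z := zz (A 0) (A 1) (A 2)
  set Q := qq (A 0) (A 1) (A 2)
  set U := uu (A 0) (A 1) (A 2)
  have Z0 : 0 < Z := lt_of_le_of_ne (zz_nonneg hA) (Ne.symm h)
  have key : Z * (U / Z ^ 3) = U * (1 - 2 * (Z - 1)) + (Z - 1) ^ 2 * (1 + 2 * Z) * U / Z ^ 2 := by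
    field_simp; ring
  have e : (Z - 1) ^ 2 * (1 + 2 * Z) * (Z * Q) / Z ^ 2
      = Q * (Z - 1) ^ 2 / Z + 2 * (Q * (Z - 1) ^ 2) := by
    field_simp
  have h0 : 0 ≤ (Z - 1) ^ 2 * (1 + 2 * Z) := by positivity
  have hhi := div_le_div_of_nonneg_right (mul_le_mul_of_nonneg_left hu1 h0) (sq_nonneg Z)
  have hlo := div_le_div_of_nonneg_right (mul_le_mul_of_nonneg_left hu0 h0) (sq_nonneg Z)
  rw [mul_neg, neg_div] at hlo
  have := sq_tail Z0 hq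
  constructor <;> linarith

/-- The moments of one child after an edge, scaled. -/
theorem cmon3 (j : Fin 13) (lam : ℝ) {y : Fin 3 → ℝ} (hy : Simp y) :
    cmon (bet j) lam y = 1 + lin j 0 * lam ^ 2 * chi y + lin j 1 * lam ^ 3 * em y
      + lin j 2 * lam ^ 4 * chi y ^ 2 + lin j 3 * lam ^ 5 * (chi y * em y) := by
  have e : y 2 = -y 0 - y 1 := by
    have h := hy.2
    rw [Fin.sum_univ_three] at h
    linarith
  fin_cases j <;> simp [cmon, msym3, bet, lin, chi, em, Fin.sum_univ_three, e] <;> ring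

end Vale.P154.PS
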